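import Crest.Agent.R278.Defs

/-!
Row 278: commutative algebra lemmas for the abstract criterion.
-/

set_option autoImplicit false

namespace Crest.Agent.R278

open Polynomial

theorem ringKrullDim_eq_of_isIntegral (B A : Type) [CommRing B] [CommRing A] [Algebra B A]
    [Algebra.IsIntegral B A] [FaithfulSMul B A] : ringKrullDim A = ringKrullDim B := by
  apply le_antisymm
  · refine Order.krullDim_le_of_strictMono (PrimeSpectrum.comap (algebraMap B A)) ?_
    intro P Q h
    exact Ideal.IsIntegral.comap_lt_comap (R := B) (I := P.asIdeal) (J := Q.asIdeal) h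
  · refine iSup_le fun l => ?_
    obtain ⟨P, hP⟩ := Algebra.IsIntegral.comap_surjective B A l.head
    have : P.asIdeal.LiesOver l.head.asIdeal := ⟨by rw [← hP]; rfl⟩
    obtain ⟨L, h, -⟩ := Ideal.exists_ltSeries_of_hasGoingUp l P.asIdeal
    rw [← h]
    exact Order.LTSeries.length_le_krullDim L

theorem ringKrullDim_R : ringKrullDim R = 2 := by
  rw [MvPolynomial.ringKrullDim_of_isNoetherianRing, ringKrullDim_eq_zero_of_field]
  simp

/-- a derivation vanishing on the coordinates vanishes on an algebraic extension -/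
theorem deriv_eq_zero {T K : Type} [CommRing T] [Field K] [Algebra ℂ T] [Algebra ℂ K]
    [Algebra R T] [IsScalarTower ℂ R T] [Algebra T K] [FaithfulSMul R T] [FaithfulSMul T K]
    [Algebra.IsAlgebraic R T] (d : Derivation ℂ T K)
    (h : ∀ i, d (algebraMap R T (MvPolynomial.X i)) = 0) : d = 0 := by
  have h1 : ∀ r : R, d (algebraMap R T r) = 0 := fun r => by
    induction r using MvPolynomial.induction_on with
    | C a =>
      rw [← MvPolynomial.algebraMap_eq, ← IsScalarTower.algebraMap_apply, d.map_algebraMap]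
    | add p q hp hq => rw [map_add, map_add, hp, hq, add_zero]
    | mul_X p i hp => rw [map_mul, d.leibniz, hp, h, smul_zero, smul_zero, add_zero]
  ext z
  have h2 : ∀ p : R[X], d (aeval z p) = aeval z (derivative p) • d z := fun p => by
    induction p using Polynomial.induction_on' with
    | add p q hp hq => rw [map_add, map_add, hp, hq, map_add, map_add, add_smul]
    | monomial n a =>
      rw [derivative_monomial, aeval_monomial, aeval_monomial, d.leibniz, h1, smul_zero, add_zero,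
        d.leibniz_pow, ← Nat.cast_smul_eq_nsmul T, smul_smul, smul_smul, map_mul, map_natCast]
  obtain ⟨p, hp0, hp⟩ := Algebra.IsAlgebraic.isAlgebraic (R := R) z
  induction hn : p.natDegree using Nat.strong_induction_on generalizing p with
  | _ n ih =>
    by_cases h0 : p.natDegree = 0
    · exfalso
      rw [eq_C_of_natDegree_eq_zero h0] at hp hp0
      rw [aeval_C, FaithfulSMul.algebraMap_eq_zero_iff] at hp
      exact hp0 (by rw [hp, map_zero])
    by_cases h3 : aeval z (derivative p) = 0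
    · refine ih _ (hn ▸ natDegree_derivative_lt h0) (derivative p) (fun h4 => h0 ?_) h3 rfl
      exact derivative_eq_zero.1 h4
    · have := h2 p
      rw [hp, map_zero, Algebra.smul_def, eq_comm, mul_eq_zero,
        FaithfulSMul.algebraMap_eq_zero_iff] at this
      exact this.resolve_left h3

theorem exists_two_gens {A : Type} [CommRing A] (hA : ringKrullDim A = 2) (m : Ideal A)
    [m.IsPrime] (h : IsRegularLocalRing (Localization.AtPrime m)) :
    ∃ t₁ ∈ m, ∃ t₂ ∈ m, ∀ z ∈ m, ∃ u ∉ m, ∃ a₁ a₂, a₁ * t₁ + a₂ * t₂ = u * z := by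
  classical
  set L := Localization.AtPrime m
  have h1 : (IsLocalRing.maximalIdeal L).spanFinrank ≤ 2 := by
    have h2 := h.spanFinrank_maximalIdeal
    rw [IsLocalization.AtPrime.ringKrullDim_eq_height m L] at h2
    have h3 := Ideal.height_le_ringKrullDim_of_isPrime (I := m)
    rw [← h2, hA] at h3
    exact_mod_cast h3
  obtain ⟨s, hs, e⟩ := (IsNoetherian.noetherian
    (IsLocalRing.maximalIdeal L)).exists_span_finset_card_eq_spanFinrank
  have hsub : ∀ x ∈ s, x ∈ IsLocalRing.maximalIdeal L := fun x hx =>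
    e ▸ Submodule.subset_span hx
  obtain ⟨s₁, h₁, s₂, h₂, h4⟩ : ∃ s₁ ∈ IsLocalRing.maximalIdeal L,
      ∃ s₂ ∈ IsLocalRing.maximalIdeal L, ∀ x ∈ s, x = s₁ ∨ x = s₂ := by
    rw [← hs] at h1
    obtain h0 | h0 | h0 : s.card = 0 ∨ s.card = 1 ∨ s.card = 2 := by omega
    · rw [Finset.card_eq_zero] at h0
      exact ⟨0, zero_mem _, 0, zero_mem _, by simp [h0]⟩
    · obtain ⟨a, rfl⟩ := Finset.card_eq_one.1 h0
      exact ⟨a, hsub a (by simp), a, hsub a (by simp), by simp⟩
    · obtain ⟨a, b, -, rfl⟩ := Finset.card_eq_two.1 h0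
      exact ⟨a, hsub a (by simp), b, hsub b (by simp), by simp⟩
  obtain ⟨⟨t₁, u₁⟩, rfl⟩ := IsLocalization.mk'_surjective m.primeCompl s₁
  obtain ⟨⟨t₂, u₂⟩, rfl⟩ := IsLocalization.mk'_surjective m.primeCompl s₂
  refine ⟨t₁, (IsLocalization.AtPrime.mk'_mem_maximal_iff L m t₁ u₁).1 h₁,
    t₂, (IsLocalization.AtPrime.mk'_mem_maximal_iff L m t₂ u₂).1 h₂, fun z hz => ?_⟩
  have h5 : IsLocalRing.maximalIdeal L ≤ (Ideal.span {t₁, t₂}).map (algebraMap A L) := by
    rw [← e]
    refine Submodule.span_le.2 fun x hx => ?_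
    rcases h4 x hx with rfl | rfl
    · exact (IsLocalization.mk'_mem_map_algebraMap_iff m.primeCompl L _ _ _).2
        ⟨1, one_mem _, by simpa using Ideal.subset_span (by simp)⟩
    · exact (IsLocalization.mk'_mem_map_algebraMap_iff m.primeCompl L _ _ _).2
        ⟨1, one_mem _, by simpa using Ideal.subset_span (by simp)⟩
  obtain ⟨u, hu, h6⟩ := (IsLocalization.algebraMap_mem_map_algebraMap_iff m.primeCompl L _ z).1
    (h5 ((IsLocalization.AtPrime.to_map_mem_maximal_iff L m z).2 hz))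
  exact ⟨u, hu, Ideal.mem_span_pair.1 h6⟩

section
variable {K : Type} [Field K] [Algebra ℂ K]

/-- restriction of the codomain of a derivation -/
def restr (A : Subalgebra ℂ K) (D : Derivation ℂ A K) (h : ∀ z, D z ∈ A) : Derivation ℂ A A :=
  Derivation.mk' ((D : A →ₗ[ℂ] K).codRestrict A.toSubmodule h) fun a b =>
    Subtype.ext (D.leibniz a b)

@[simp] theorem restr_apply (A : Subalgebra ℂ K) (D : Derivation ℂ A K) (h : ∀ z, D z ∈ A)
    (z : A) : (restr A D h z : K) = D z := rfl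

/-- if all derivations take values in `m` then `m` is not locally generated by two elements -/
theorem not_two_gens (A : Subalgebra ℂ K) [Algebra.FiniteType ℂ A] (m : Ideal A) [hm : m.IsMaximal]
    (hc : ∀ z : A, ∃ c : ℂ, z - algebraMap ℂ A c ∈ m) (e₀ e₁ : Derivation ℂ A K) {y₀ y₁ : A}
    (hy : e₀ y₀ * e₁ y₁ - e₀ y₁ * e₁ y₀ ≠ 0) (hD : ∀ (D : Derivation ℂ A A) (z : A), D z ∈ m)
    {t₁ t₂ : A} (h₁ : t₁ ∈ m) (h₂ : t₂ ∈ m)
    (h : ∀ z ∈ m, ∃ u ∉ m, ∃ a₁ a₂, a₁ * t₁ + a₂ * t₂ = u * z) : False := by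
  let dd : Derivation ℂ A (K × K) :=
    Derivation.mk' ((e₀ : A →ₗ[ℂ] K).prod (e₁ : A →ₗ[ℂ] K)) fun a b =>
      Prod.ext (e₀.leibniz a b) (e₁.leibniz a b)
  have hdd : ∀ z, dd z = (e₀ z, e₁ z) := fun _ => rfl
  obtain ⟨s, hs⟩ := Algebra.FiniteType.out (R := ℂ) (A := A)
  let M : Submodule A (K × K) := Submodule.span A (dd '' s)
  let N : Submodule A (K × K) := Submodule.span A {dd t₁, dd t₂}
  have hM : ∀ z, dd z ∈ M := fun z => by
    have hz : z ∈ Algebra.adjoin ℂ (s : Set A) := hs ▸ Algebra.mem_top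
    induction hz using Algebra.adjoin_induction with
    | mem x hx => exact Submodule.subset_span ⟨x, hx, rfl⟩
    | algebraMap c => rw [dd.map_algebraMap]; exact zero_mem _
    | add x y _ _ hx hy => rw [map_add]; exact add_mem hx hy
    | mul x y _ _ hx hy =>
      rw [dd.leibniz]; exact add_mem (M.smul_mem _ hy) (M.smul_mem _ hx)
  have hle : M ≤ N ⊔ m • M := by
    refine Submodule.span_le.2 ?_
    rintro _ ⟨z, -, rfl⟩
    have a1 : ∀ w ∈ m, ∀ x, w • dd x ∈ N ⊔ m • M := fun w hw x =>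
      Submodule.mem_sup_right (Submodule.smul_mem_smul hw (hM x))
    obtain ⟨c, hc⟩ := hc z
    obtain ⟨u, hu, a₁, a₂, e⟩ := h _ hc
    obtain ⟨v, w, hw, e'⟩ := hm.exists_inv hu
    have e1 := congrArg dd e
    rw [map_add, dd.leibniz, dd.leibniz, dd.leibniz, map_sub, dd.map_algebraMap, sub_zero] at e1
    have a2 : u • dd z ∈ N ⊔ m • M := by
      rw [← sub_eq_iff_eq_add.2 e1]
      refine sub_mem (add_mem (add_mem ?_ (a1 _ h₁ _)) (add_mem ?_ (a1 _ h₂ _))) (a1 _ hc _)
      · exact Submodule.mem_sup_left (N.smul_mem _ (Submodule.subset_span (by simp)))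
      · exact Submodule.mem_sup_left (N.smul_mem _ (Submodule.subset_span (by simp)))
    have := add_mem (Submodule.smul_mem _ v a2) (a1 w hw z)
    rwa [smul_smul, ← add_smul, e', one_smul] at this
  obtain ⟨r, hr, hrM⟩ := Submodule.exists_sub_one_mem_and_smul_le_of_fg_of_le_sup
    (Submodule.fg_span (s.finite_toSet.image _)) le_rfl hle
  have hr' : r ∉ m := fun h0 => hm.ne_top ((Ideal.eq_top_iff_one _).2 (by
    simpa using sub_mem h0 hr))
  have key : ∀ z, ∃ a b : A, (a : K) * e₀ t₁ + b * e₀ t₂ = r * e₀ z ∧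
      (a : K) * e₁ t₁ + b * e₁ t₂ = r * e₁ z := fun z => by
    obtain ⟨a, b, e⟩ := Submodule.mem_span_pair.1
      (hrM (Submodule.smul_mem_pointwise_smul _ r _ (hM z)))
    exact ⟨a, b, congrArg Prod.fst e, congrArg Prod.snd e⟩
  have hβ : e₀ t₁ * e₁ t₂ - e₀ t₂ * e₁ t₁ ≠ 0 := fun h0 => by
    obtain ⟨a, b, e1, e2⟩ := key y₀
    obtain ⟨a', b', e3, e4⟩ := key y₁
    have hr0 : (r : K) ≠ 0 := fun h => hr' (by
      rw [show r = 0 from Subtype.ext h]; exact zero_mem _)
    apply mul_ne_zero (mul_ne_zero hr0 hr0) hy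
    linear_combination (-(r * e₁ y₁)) * e1 - (a * e₀ t₁ + b * e₀ t₂) * e4 + (r * e₁ y₀) * e3 +
      (a' * e₀ t₁ + b' * e₀ t₂) * e2 + (a * b' - b * a') * h0
  obtain ⟨w, hw⟩ : ∃ w, w * (e₀ t₁ * e₁ t₂ - e₀ t₂ * e₁ t₁) = 1 := ⟨_, inv_mul_cancel₀ hβ⟩
  let D : Derivation ℂ A K := ((r : K) * e₁ t₂ * w) • e₀ - ((r : K) * e₀ t₂ * w) • e₁
  have hDz : ∀ z, D z ∈ A := fun z => by
    obtain ⟨a, b, e1, e2⟩ := key z
    have : D z = a := by
      simp only [D, Derivation.sub_apply, Derivation.smul_apply, smul_eq_mul]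
      linear_combination (-e₁ t₂ * w) * e1 + e₀ t₂ * w * e2 + a * hw
    rw [this]; exact a.2
  apply hr'
  have : restr A D hDz t₁ = r := Subtype.ext (by
    simp only [restr_apply, D, Derivation.sub_apply, Derivation.smul_apply, smul_eq_mul]
    linear_combination r * hw)
  exact this ▸ hD _ t₁

end

end Crest.Agent.R278
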