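import Crest.Agent.R278.AbsLemmas

/-!
Row 278: the abstract criterion.
-/

set_option autoImplicit false

namespace Crest.Agent.R278

open Polynomial

section
variable {K : Type} [Field K] [Algebra ℂ K]

theorem br_ne_zero {d0 d1 : Derivation ℂ K K} (hbr : ∃ a b, br d0 d1 a b ≠ 0) {y₀ y₁ : K}
    (hy : ∀ d : Derivation ℂ K K, d y₀ = 0 → d y₁ = 0 → d = 0) : br d0 d1 y₀ y₁ ≠ 0 := by
  intro h0
  obtain ⟨a, b, hab⟩ := hbr
  unfold br at h0 hab
  have key : ∀ s t : K, s * d0 y₀ + t * d1 y₀ = 0 → s * d0 y₁ + t * d1 y₁ = 0 → s = 0 ∧ t = 0 := by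
    intro s t h1 h2
    have h3 := hy (s • d0 + t • d1) h1 h2
    have ha : s * d0 a + t * d1 a = 0 := Derivation.congr_fun h3 a
    have hb : s * d0 b + t * d1 b = 0 := Derivation.congr_fun h3 b
    constructor
    · refine (mul_eq_zero.1 ?_).resolve_right hab
      linear_combination d1 b * ha - d1 a * hb
    · refine (mul_eq_zero.1 ?_).resolve_right hab
      linear_combination d0 a * hb - d0 b * ha
  obtain ⟨h1, h2⟩ := key (d1 y₀) (-d0 y₀) (by ring) (by linear_combination -h0)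
  obtain ⟨h3, h4⟩ := key (d1 y₁) (-d0 y₁) (by linear_combination h0) (by ring)
  have := (key 1 0 (by linear_combination -h2) (by linear_combination -h4)).1
  exact one_ne_zero this

/-- every derivation of `WW S` is a combination of the two given derivations -/
theorem exists_coords (hH : HartogsStmt) {S : Set K} (hG : Gen S) {d0 d1 : Derivation ℂ K K}
    (hd0 : ∀ a ∈ WW S, d0 a ∈ WW S) (hd1 : ∀ a ∈ WW S, d1 a ∈ WW S)
    (hgood : ∀ O, Good S O → ∃ a b, Tame S O a ∧ Tame S O b ∧ O.valuation (br d0 d1 a b) = 1)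
    {y₀ y₁ : WW S} (hy : br d0 d1 y₀ y₁ ≠ 0)
    (hu : ∀ d : Derivation ℂ (WW S) K, d y₀ = 0 → d y₁ = 0 → d = 0)
    (D : Derivation ℂ (WW S) (WW S)) :
    ∃ f₀ f₁ : WW S, ∀ z : WW S, (D z : K) = f₀ * d0 z + f₁ * d1 z := by
  obtain ⟨w, hw⟩ : ∃ w, w * br d0 d1 y₀ y₁ = 1 := ⟨_, inv_mul_cancel₀ hy⟩
  unfold br at hw
  let f₀ : K := w * (D y₀ * d1 y₁ - D y₁ * d1 y₀)
  let f₁ : K := w * (d0 y₀ * D y₁ - d0 y₁ * D y₀)
  let D' : Derivation ℂ K K := f₀ • d0 + f₁ • d1
  have hD' : ∀ z, D' z = f₀ * d0 z + f₁ * d1 z := fun _ => rfl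
  have h1 : ∀ z : WW S, D' z = D z := fun z => by
    have := hu (D'.compAlgebraMap (WW S) - (Algebra.linearMap (WW S) K).compDer D)
      (by
        change D' y₀ - D y₀ = 0
        rw [hD']
        simp only [f₀, f₁]
        linear_combination (D y₀ : K) * hw)
      (by
        change D' y₁ - D y₁ = 0
        rw [hD']
        simp only [f₀, f₁]
        linear_combination (D y₁ : K) * hw)
    exact sub_eq_zero.1 (Derivation.congr_fun this z)
  have h2 : ∀ a ∈ WW S, D' a ∈ WW S := fun a ha => by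
    rw [h1 ⟨a, ha⟩]; exact (D ⟨a, ha⟩).2
  have h3 : ∀ O, Good S O → f₀ ∈ O ∧ f₁ ∈ O := fun O hO => by
    obtain ⟨a, b, ha, hb, hab⟩ := hgood O hO
    have hne : br d0 d1 a b ≠ 0 := fun h => by simp [h] at hab
    have hinv : (br d0 d1 a b)⁻¹ ∈ O := by
      rw [← O.valuation_le_one_iff, map_inv₀, hab, inv_one]
    have e0 : f₀ = (br d0 d1 a b)⁻¹ * (D' a * d1 b - D' b * d1 a) := by
      rw [eq_inv_mul_iff_mul_eq₀ hne, hD', hD', br]; ring
    have e1 : f₁ = (br d0 d1 a b)⁻¹ * (d0 a * D' b - d0 b * D' a) := by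
      rw [eq_inv_mul_iff_mul_eq₀ hne, hD', hD', br]; ring
    rw [e0, e1]
    exact ⟨mul_mem hinv (sub_mem (mul_mem (ha _ h2) (hb _ hd1)) (mul_mem (hb _ h2) (ha _ hd1))),
      mul_mem hinv (sub_mem (mul_mem (ha _ hd0) (hb _ h2)) (mul_mem (hb _ hd0) (ha _ h2)))⟩
  exact ⟨⟨f₀, hH K S hG _ fun O hO => (h3 O hO).1⟩, ⟨f₁, hH K S hG _ fun O hO => (h3 O hO).2⟩,
    fun z => (h1 z).symm⟩

/-- the centre of a valuation ring -/
def ctr (S : Set K) (E : ValuationSubring K) (hE : Over S E) : Ideal (WW S) where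
  carrier := {a | E.valuation a < 1}
  zero_mem' := by simp
  add_mem' := fun {a b} ha hb => Valuation.map_add_lt E.valuation (x := a) (y := b) ha hb
  smul_mem' := fun c a ha => by
    change E.valuation ((c : K) * a) < 1
    rw [map_mul]
    exact mul_lt_one_of_nonneg_of_lt_one_right
      ((E.valuation_le_one_iff _).2 (c.2 E hE)) zero_le ha

theorem mem_ctr {S : Set K} {E : ValuationSubring K} {hE : Over S E} {a : WW S} :
    a ∈ ctr S E hE ↔ E.valuation a < 1 := Iff.rfl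

theorem ctr_isPrime (S : Set K) (E : ValuationSubring K) (hE : Over S E) :
    (ctr S E hE).IsPrime := by
  refine ⟨(Ideal.ne_top_iff_one _).2 (by simp [mem_ctr]), fun {a b} h => ?_⟩
  by_contra hcon
  push Not at hcon
  simp only [mem_ctr, not_lt] at hcon h
  rw [MulMemClass.coe_mul, map_mul] at h
  exact absurd h (not_lt.2 (one_le_mul hcon.1 hcon.2))

theorem cst_of_mem_adjoin {S : Set K} {E : ValuationSubring K} (hE : Over S E)
    (hS : ∀ z ∈ S, E.valuation z < 1) {z : K} (hz : z ∈ Algebra.adjoin ℂ S) : Cst E z := by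
  have hle : Algebra.adjoin ℂ S ≤ WW S := Algebra.adjoin_le fun _ => subset_WW
  induction hz using Algebra.adjoin_induction with
  | mem x hx => exact ⟨0, by simpa using hS x hx⟩
  | algebraMap c => exact ⟨c, by simp⟩
  | add x y _ _ hx hy =>
    obtain ⟨c, hc⟩ := hx
    obtain ⟨c', hc'⟩ := hy
    refine ⟨c + c', ?_⟩
    rw [map_add, add_sub_add_comm]
    exact Valuation.map_add_lt _ hc hc'
  | mul x y hx' hy' hx hy =>
    obtain ⟨c, hc⟩ := hx
    obtain ⟨c', hc'⟩ := hy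
    refine ⟨c * c', ?_⟩
    rw [show x * y - algebraMap ℂ K (c * c') = x * (y - algebraMap ℂ K c') +
      algebraMap ℂ K c' * (x - algebraMap ℂ K c) by rw [map_mul]; ring]
    refine Valuation.map_add_lt _ ?_ ?_ <;> rw [map_mul]
    · exact mul_lt_one_of_nonneg_of_lt_one_right
        ((E.valuation_le_one_iff _).2 (hle hx' E hE)) zero_le hc'
    · exact mul_lt_one_of_nonneg_of_lt_one_right
        ((E.valuation_le_one_iff _).2 (hE.1 _)) zero_le hc

end

theorem exists_const {A : Type} [CommRing A] [Algebra ℂ A] [Algebra R A] [IsScalarTower ℂ R A]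
    [Algebra.IsIntegral R A] (m : Ideal A) [m.IsPrime]
    (h : ∀ i, ∃ c : ℂ, algebraMap R A (MvPolynomial.X i) - algebraMap ℂ A c ∈ m) (z : A) :
    ∃ c : ℂ, z - algebraMap ℂ A c ∈ m := by
  choose c hc using h
  let ε : R →ₐ[ℂ] ℂ := MvPolynomial.aeval c
  have h1 : (Ideal.Quotient.mkₐ ℂ m).comp (IsScalarTower.toAlgHom ℂ R A) =
      (Algebra.ofId ℂ (A ⧸ m)).comp ε := MvPolynomial.algHom_ext fun i => by
    simp only [ε, AlgHom.comp_apply, MvPolynomial.aeval_X]
    exact Ideal.Quotient.eq.2 (hc i)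
  have h2 : (Ideal.Quotient.mk m).comp (algebraMap R A) =
      (algebraMap ℂ (A ⧸ m)).comp (ε : R →+* ℂ) := RingHom.ext fun r => AlgHom.congr_fun h1 r
  have : Algebra.IsIntegral ℂ (A ⧸ m) := ⟨fun x => by
    obtain ⟨x, rfl⟩ := Ideal.Quotient.mk_surjective x
    obtain ⟨p, hp, e⟩ := Algebra.IsIntegral.isIntegral (R := R) x
    refine ⟨p.map (ε : R →+* ℂ), hp.map _, ?_⟩
    rw [eval₂_map, ← h2, ← hom_eval₂, e, map_zero]⟩
  obtain ⟨a, ha⟩ := (IsAlgClosed.algebraMap_bijective_of_isIntegral (k := ℂ) (K := A ⧸ m)).2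
    (Ideal.Quotient.mk m z)
  exact ⟨a, Ideal.Quotient.eq.1 ha.symm⟩

theorem isMaximal_of_const {A : Type} [CommRing A] [Algebra ℂ A] (m : Ideal A) [hm : m.IsPrime]
    (h : ∀ z : A, ∃ c : ℂ, z - algebraMap ℂ A c ∈ m) : m.IsMaximal := by
  refine Ideal.isMaximal_iff.2 ⟨(Ideal.ne_top_iff_one _).1 hm.ne_top, fun J x hJ hx hxJ => ?_⟩
  obtain ⟨c, hc⟩ := h x
  have hc0 : c ≠ 0 := by rintro rfl; exact hx (by simpa using hc)
  have := J.mul_mem_left (algebraMap ℂ A c⁻¹) (sub_mem hxJ (hJ hc))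
  rwa [sub_sub_cancel, ← map_mul, inv_mul_cancel₀ hc0, map_one] at this

theorem abstract_main (hN : NoetherStmt) (hH : HartogsStmt) : AbstractStmt := by
  intro K _ _ S hG d0 d1 hd0 hd1 hbr hgood E hE hS hE0 hE1
  obtain ⟨g, hinj, hadj, hrest⟩ := hN K S hG
  let _ : Algebra R K := g.toRingHom.toAlgebra
  obtain ⟨hW, halg, hfin⟩ := hrest
  have : IsScalarTower ℂ R K := IsScalarTower.of_algebraMap_eq fun c => (g.commutes c).symm
  have hgA : ∀ r, g r ∈ WW S := fun r => (hW _).2 isIntegral_algebraMap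
  let _ : Algebra R (WW S) := (g.codRestrict (WW S) hgA).toRingHom.toAlgebra
  have : IsScalarTower R (WW S) K := IsScalarTower.of_algebraMap_eq fun _ => rfl
  have : IsScalarTower ℂ R (WW S) :=
    IsScalarTower.of_algebraMap_eq fun c => Subtype.ext (g.commutes c).symm
  have : IsIntegralClosure (WW S) R K := ⟨Subtype.val_injective, fun {x} => by
    rw [← hW]
    exact ⟨fun h => ⟨⟨x, h⟩, rfl⟩, fun ⟨y, hy⟩ => hy ▸ y.2⟩⟩
  have : Module.Finite R (WW S) :=
    Module.Finite.equiv (IsIntegralClosure.equiv R (integralClosure R K) K (WW S)).toLinearEquiv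
  have : FaithfulSMul R K := (faithfulSMul_iff_algebraMap_injective R K).2 hinj
  have : FaithfulSMul R (WW S) := (faithfulSMul_iff_algebraMap_injective R (WW S)).2
    fun a b h => hinj (congrArg Subtype.val h)
  have : IsFractionRing (WW S) K := IsIntegralClosure.isFractionRing_of_algebraic R (WW S)
    fun x hx => hinj (hx.trans (map_zero g).symm)
  have hft : Algebra.FiniteType ℂ (WW S) := Algebra.FiniteType.trans (S := R) inferInstance
    inferInstance
  have hdim : ringKrullDim (WW S) = 2 :=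
    (ringKrullDim_eq_of_isIntegral R (WW S)).trans ringKrullDim_R
  let y : Fin 2 → WW S := fun i => algebraMap R (WW S) (MvPolynomial.X i)
  have hy : br d0 d1 (y 0) (y 1) ≠ 0 := br_ne_zero hbr fun d h0 h1 =>
    deriv_eq_zero d (Fin.forall_fin_two.2 ⟨h0, h1⟩)
  have hco := exists_coords hH hG hd0 hd1 hgood hy fun d h0 h1 =>
    deriv_eq_zero d (Fin.forall_fin_two.2 ⟨h0, h1⟩)
  let e₀ := restr (WW S) (d0.compAlgebraMap (WW S)) fun z => hd0 z z.2
  let e₁ := restr (WW S) (d1.compAlgebraMap (WW S)) fun z => hd1 z z.2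
  let Φ : (Fin 2 → WW S) →ₗ[WW S] Derivation ℂ (WW S) (WW S) :=
    (LinearMap.proj 0 : (Fin 2 → WW S) →ₗ[WW S] WW S).smulRight e₀ +
      (LinearMap.proj 1 : (Fin 2 → WW S) →ₗ[WW S] WW S).smulRight e₁
  have hΦ : ∀ f z, (Φ f z : K) = f 0 * d0 z + f 1 * d1 z := fun _ _ => rfl
  have hbij : Function.Bijective Φ := by
    constructor
    · rw [← LinearMap.ker_eq_bot, eq_bot_iff]
      intro f hf
      have a0 := hΦ f (y 0)
      have a1 := hΦ f (y 1)
      rw [LinearMap.mem_ker.1 hf] at a0 a1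
      simp only [Derivation.zero_apply, ZeroMemClass.coe_zero] at a0 a1
      unfold br at hy
      funext i
      fin_cases i
      · refine Subtype.ext ((mul_eq_zero.1 ?_).resolve_right hy)
        change (f 0 : K) * _ = 0
        linear_combination d1 (y 0) * a1 - d1 (y 1) * a0
      · refine Subtype.ext ((mul_eq_zero.1 ?_).resolve_right hy)
        change (f 1 : K) * _ = 0
        linear_combination d0 (y 1) * a0 - d0 (y 0) * a1
    · intro D
      obtain ⟨f₀, f₁, h⟩ := hco D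
      exact ⟨![f₀, f₁], Derivation.ext fun z => Subtype.ext (by rw [hΦ, h]; rfl)⟩
  have hp := ctr_isPrime S E hE
  have hc := exists_const (ctr S E hE) fun i => cst_of_mem_adjoin hE hS (hadj (MvPolynomial.X i))
  have hm := isMaximal_of_const _ hc
  refine ⟨WW S, inferInstance, inferInstance, inferInstance, hft, ?_, hdim,
    ⟨(LinearEquiv.ofBijective Φ hbij).symm⟩, ctr S E hE, hm, fun hreg => ?_⟩
  · refine (isIntegrallyClosed_iff K).2 fun {x} hx => ⟨⟨x, (hW x).2 ?_⟩, rfl⟩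
    exact isIntegral_trans (R := R) (A := WW S) x hx
  · obtain ⟨t₁, h₁, t₂, h₂, h⟩ := exists_two_gens hdim _ hreg
    refine not_two_gens (WW S) (ctr S E hE) hc (d0.compAlgebraMap (WW S))
      (d1.compAlgebraMap (WW S)) (y₀ := y 0) (y₁ := y 1) hy (fun D z => ?_) h₁ h₂ h
    obtain ⟨f, rfl⟩ := hbij.2 D
    exact add_mem (Ideal.mul_mem_left _ (f 0) (b := e₀ z) (hE0 z z.2))
      (Ideal.mul_mem_left _ (f 1) (b := e₁ z) (hE1 z z.2))

end Crest.Agent.R278
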