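import Crest.Agent.R278.Class

/-!
Row 278: local analysis at plane curves, at the line at infinity and at the origin.
-/

set_option autoImplicit false

open Polynomial IntermediateField

noncomputable section

namespace Crest.Agent.R278

variable {K : Type} [Field K] [Algebra ℂ K]

lemma eq_one_of_mul {Γ : Type} [LinearOrderedCommGroupWithZero Γ] {a b : Γ} (ha : a ≤ 1)
    (hb : b ≤ 1) (h : a * b = 1) : a = 1 ∧ b = 1 :=
  ⟨le_antisymm ha (by rw [← h]; exact mul_le_of_le_one_right' hb),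
    le_antisymm hb (by rw [← h]; exact mul_le_of_le_one_left' ha)⟩

lemma Fac.mono {O : ValuationSubring K} {A : Subalgebra ℂ K} {π : K}
    {K1 K2 : IntermediateField ℂ K} (h : Fac O A π K2) (h12 : K1 ≤ K2) : Fac O A π K1 :=
  fun Φ hΦ => h Φ (h12 hΦ)

namespace Ctx
variable (c : Ctx K) (O : ValuationSubring K) [hO : HC O]

/-- elements of `O` mapped to `O` by both derivations -/
def AA : Subalgebra ℂ K := St O (c.δ 0) ⊓ St O (c.δ 1)

lemma mem_AA {z : K} : z ∈ c.AA O ↔ O.valuation z ≤ 1 ∧ ∀ i, O.valuation (c.δ i z) ≤ 1 := by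
  simp only [AA, Algebra.mem_inf, mem_St, Fin.forall_fin_two]; tauto

lemma AA_le_St (i : Fin 2) : c.AA O ≤ St O (c.δ i) := fun _ hz =>
  ⟨((c.mem_AA O).1 hz).1, ((c.mem_AA O).1 hz).2 i⟩

lemma AA_le : c.AA O ≤ OA O := fun _ hz => ((c.mem_AA O).1 hz).1

lemma AA_inv : ∀ z ∈ c.AA O, O.valuation z = 1 → z⁻¹ ∈ c.AA O := fun _ hz h1 =>
  ⟨St_inv O hz.1 h1, St_inv O hz.2 h1⟩

lemma bb_le {a b : K} (ha : a ∈ c.AA O) (hb : b ∈ c.AA O) : O.valuation (c.bb a b) ≤ 1 := by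
  rw [mem_AA] at ha hb
  exact O.valuation.map_sub_le (v_mul_le O (ha.2 0) (hb.2 1)) (v_mul_le O (hb.2 0) (ha.2 1))

lemma stab_of (hS : Over c.S O) {π t : K} (hπ : π ≠ 0) (hF : Fac O (c.AA O) π c.K0) (ht : t ≠ 0)
    (ht1 : O.valuation t ≤ 1) (hz : Zp O t π) (hh : ∀ i, Zp O t (c.h i))
    (hd : ∀ i, O.valuation t * O.valuation (c.δ i π) ≤ O.valuation π) (i : Fin 2) :
    ∀ a ∈ WW c.S, O.valuation (c.δ i a) ≤ 1 := by
  refine c.avg O _ fun a ha hp => ?_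
  refine stable O (c.AA_le_St O i) hπ hF c.d.N_pos.ne' (c.pure_pow hp)
    ((O.valuation_le_one_iff _).2 (ha O hS)) fun ha0 hlt => ?_
  refine le_trans (mul_le_mul' (Zp.le ht ht1 ?_ hlt) le_rfl) (hd i)
  obtain ⟨f, g, k, l, -, rfl⟩ := hp
  refine ((hF.zp ht hz (div_mem (c.φ_mem_K0 _) (c.φ_mem_K0 _)) ?_).mul ht ((hh 0).pow _)).mul ht
    ((hh 1).pow _)
  intro h0; simp [h0] at ha0

omit hO in
lemma v_pow (i : Fin 2) : O.valuation (c.h i) ^ c.d.N * O.valuation (c.φ (c.d.T i)) =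
    ∏ j, O.valuation (c.l j) ^ c.d.ph i j := by
  have := congrArg O.valuation (c.pkg.pow i)
  simpa only [map_mul, map_pow, Dat.num, map_prod, l] using this

/-! ### plane curves -/
section
variable {c O}

lemma CaseI.vl (h : c.CaseI O) (j : Fin 4) : O.valuation (c.l j) = 1 := by
  have := h.vF
  rw [← ell_mul_Fc j, map_mul, map_mul] at this
  exact (eq_one_of_mul (c.vφ_le O h.hs h.hy _) (c.vφ_le O h.hs h.hy _) this).1

lemma CaseI.vT (h : c.CaseI O) :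
    O.valuation (c.φ c.d.TT) = 1 ∧ ∀ i, O.valuation (c.φ (c.d.T i)) = 1 := by
  have := h.vΘ
  simp only [Dat.Θ, map_pow, map_mul] at this
  rw [pow_eq_one_iff_of_nonneg zero_le c.d.M_pos.ne'] at this
  have hle := c.vφ_le O h.hs h.hy
  obtain ⟨h1, h2⟩ := eq_one_of_mul (mul_le_one' (hle _) (hle _)) (hle _) this
  obtain ⟨h3, h4⟩ := eq_one_of_mul (hle _) (hle _) h1
  exact ⟨h3, Fin.forall_fin_two.2 ⟨h4, h2⟩⟩

lemma CaseI.vh (h : c.CaseI O) (i : Fin 2) : O.valuation (c.h i) = 1 := by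
  have := c.v_pow O i
  simp only [h.vl, h.vT.2, one_pow, mul_one, Finset.prod_const_one] at this
  rwa [pow_eq_one_iff_of_nonneg zero_le c.d.N_pos.ne'] at this

lemma CaseI.stab (h : c.CaseI O) (hS : Over c.S O) (i : Fin 2) :
    ∀ a ∈ WW c.S, O.valuation (c.δ i a) ≤ 1 := by
  have hs : c.s ∈ c.AA O := (c.mem_AA O).2 ⟨h.hs, fun i => by
    rw [δ_apply, Vs]; exact v_mul_le O (h.vh i).le (c.vφ_le O h.hs h.hy _)⟩
  have hy : c.y ∈ c.AA O := (c.mem_AA O).2 ⟨h.hy, fun i => by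
    rw [δ_apply, Vy']; exact v_mul_le O (h.vh i).le (c.vφ_le O h.hs h.hy _)⟩
  obtain ⟨π, h1, h2, h3⟩ : ∃ π ∈ c.AA O, π ≠ 0 ∧ Fac O (c.AA O) π c.K0 := by
    rcases h.ncst with hc | hc
    · exact chart_gen O (c.AA_inv O) (c.AA_le O) hs hy hc
    · obtain ⟨π, h1, h2, h3⟩ := chart_gen O (c.AA_inv O) (c.AA_le O) hy hs hc
      exact ⟨π, h1, h2, h3.mono (c.K0_le (subset_adjoin _ _ (by simp))
        (subset_adjoin _ _ (by simp)))⟩
  rw [mem_AA] at h1
  exact c.stab_of O hS h2 h3 h2 h1.1 (Zp.self _) (fun i => Zp.of_one (h.vh i))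
    (fun i => mul_le_of_le_one_right' (h1.2 i)) i

lemma CaseI.brk (h : c.CaseI O) (hS : Over c.S O) :
    ∃ a b, Tame c.S O a ∧ Tame c.S O b ∧ O.valuation (c.bb a b) = 1 := by
  have hn := c.d.n0d
  have m0 := subset_WW (c.mem_S (c.d.F0_mem (a := 0) (b := 0) (by simp only [Dat.del]; omega)))
  have m1 := subset_WW (c.mem_S (c.d.F0_mem (a := 1) (b := 0) (by simp only [Dat.del]; omega)))
  have m2 := subset_WW (c.mem_S (c.d.F0_mem (a := 0) (b := 1) (by simp only [Dat.del]; omega)))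
  simp only [pow_zero, pow_one, mul_one, map_mul] at m0 m1 m2
  have h1 : O.valuation (c.φ (FF ^ c.d.n0) / c.φ c.d.Θ) = 1 := by simp [h.vF, h.vΘ]
  refine ⟨c.s, c.y, c.tame hS m0 h1 ?_ h.hs, c.tame hS m0 h1 ?_ h.hy, ?_⟩
  · convert m1 using 1; rw [s]; ring
  · convert m2 using 1; rw [y]; ring
  · rw [bb_eq, brV]; simp [h.vh, h.vT.1, h.vF, v_alg O c.d.kap_ne]

end

/-! ### the line at infinity -/

omit hO in
lemma V_u (i : Fin 2) : c.V i c.s⁻¹ = -(c.s⁻¹ ^ 2 * c.φ (c.d.vx i)) := by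
  rw [Derivation.leibniz_inv, Vs]; simp

omit hO in
lemma V_x (i : Fin 2) :
    c.V i (c.y / c.s) = c.s⁻¹ ^ 2 * c.φ (XX * c.d.vy i - YY * c.d.vx i) := by
  rw [Derivation.leibniz_div, Vs, Vy']; simp [s, y]

omit hO in
lemma brV_xu : br (c.V 0) (c.V 1) (c.y / c.s) c.s⁻¹ = c.s⁻¹ ^ 3 * br (c.V 0) (c.V 1) c.s c.y := by
  have := c.s_ne
  simp only [br, V_u, V_x, Vs, Vy', map_sub, map_mul]
  change _ * (c.s * _ - c.y * _) * _ - _ * (_ * (c.s * _ - c.y * _)) = _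
  field_simp
  ring

omit hO in
lemma K0_le_xu : c.K0 ≤ ℂ⟮c.y / c.s, c.s⁻¹⟯ := by
  have h1 : c.s⁻¹ ∈ ℂ⟮c.y / c.s, c.s⁻¹⟯ := subset_adjoin _ _ (by simp)
  have h2 : c.y / c.s ∈ ℂ⟮c.y / c.s, c.s⁻¹⟯ := subset_adjoin _ _ (by simp)
  have h3 : c.s ∈ ℂ⟮c.y / c.s, c.s⁻¹⟯ := by simpa using inv_mem h1
  refine c.K0_le h3 ?_
  have := mul_mem h2 h3
  rwa [div_mul_cancel₀ _ c.s_ne] at this

section
variable {c O}

lemma CaseII.hom (h : c.CaseII O) {e : ℕ} {f : R} (hf : Dg e f) :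
    O.valuation (c.s⁻¹ ^ e * c.φ f) ≤ 1 :=
  hom_mem c.φ (A := OA O) h.hu.le (by
    change c.s⁻¹ * c.s ∈ _
    rw [inv_mul_cancel₀ c.s_ne]; exact (OA O).one_mem) (by
    change c.s⁻¹ * c.y ∈ _
    rw [← div_eq_inv_mul]; exact h.hx) hf

lemma CaseII.vl (h : c.CaseII O) (j : Fin 4) : O.valuation (c.s⁻¹ * c.l j) = 1 := by
  have e : c.s⁻¹ * c.l j = c.y / c.s - algebraMap ℂ K (xx j) := by
    have := c.s_ne
    rw [l_def]; field_simp
  rw [e]
  simpa using v_aeval_ncst O h.hx h.ncst (X_sub_C_ne_zero (xx j))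

lemma CaseII.vh (h : c.CaseII O) (i : Fin 2) : O.valuation (c.h i) = O.valuation c.s⁻¹ ^ 6 := by
  have h1 := c.v_pow O i
  have h2 := c.newt_inf O h.hu h.hx (Or.inl h.ncst) (c.d.newtT i)
  have h3 : ∏ j, (O.valuation c.s⁻¹ * O.valuation (c.l j)) ^ c.d.ph i j = 1 :=
    Finset.prod_eq_one fun j _ => by rw [← map_mul, h.vl, one_pow]
  simp only [mul_pow, Finset.prod_mul_distrib, Finset.prod_pow_eq_pow_sum] at h3
  rw [map_mul, map_pow, ← c.d.sum_ph i] at h2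
  refine (pow_left_inj₀ zero_le zero_le c.d.N_pos.ne').1 ?_
  calc O.valuation (c.h i) ^ c.d.N = O.valuation (c.h i) ^ c.d.N *
        (O.valuation c.s⁻¹ ^ (∑ j, c.d.ph i j + 6 * c.d.N) * O.valuation (c.φ (c.d.T i))) := by
        rw [h2, mul_one]
    _ = (O.valuation c.s⁻¹ ^ (∑ j, c.d.ph i j) * (O.valuation (c.h i) ^ c.d.N *
        O.valuation (c.φ (c.d.T i)))) * (O.valuation c.s⁻¹ ^ 6) ^ c.d.N := by
        rw [pow_add, pow_mul]; ac_rfl
    _ = _ := by rw [h1, h3, one_mul]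

lemma CaseII.vδ (h : c.CaseII O) (i : Fin 2) {f : R} (hf : Dg 8 f) :
    O.valuation (c.h i * (c.s⁻¹ ^ 2 * c.φ f)) ≤ 1 := by
  have := h.hom hf
  rw [map_mul, map_pow] at this
  rw [map_mul, map_mul, map_pow, h.vh, ← mul_assoc, ← pow_add]
  exact this

lemma CaseII.stab (h : c.CaseII O) (hS : Over c.S O) (i : Fin 2) :
    ∀ a ∈ WW c.S, O.valuation (c.δ i a) ≤ 1 := by
  have hu : c.s⁻¹ ∈ c.AA O := (c.mem_AA O).2 ⟨h.hu.le, fun i => by
    rw [δ_apply, V_u, mul_neg, Valuation.map_neg]; exact h.vδ i (c.d.dvx i)⟩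
  have hx : c.y / c.s ∈ c.AA O := (c.mem_AA O).2 ⟨h.hx, fun i => by
    rw [δ_apply, V_x]; exact h.vδ i (c.d.dcr i)⟩
  have hF := (chart_coord O (c.AA_inv O) (c.AA_le O) hx hu h.ncst h.hu).mono c.K0_le_xu
  have h0 := inv_ne_zero c.s_ne
  rw [mem_AA] at hu
  exact c.stab_of O hS h0 hF h0 hu.1 (Zp.self _) (fun i => ⟨6, by rw [h.vh]; rfl⟩)
    (fun i => mul_le_of_le_one_right' (hu.2 i)) i

lemma CaseII.brk (h : c.CaseII O) (hS : Over c.S O) :
    ∃ a b, Tame c.S O a ∧ Tame c.S O b ∧ O.valuation (c.bb a b) = 1 := by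
  have hn := c.d.n0d
  obtain ⟨n, hn⟩ : ∃ n, n + 1 + 0 + 4 * c.d.n0 = c.d.del :=
    ⟨c.d.del - 4 * c.d.n0 - 1, by simp only [Dat.del]; omega⟩
  have m0 := subset_WW (c.mem_S (c.d.F0_mem (a := n + 1) (b := 0) hn.le))
  have m1 := subset_WW (c.mem_S (c.d.F0_mem (a := n) (b := 1) (by omega)))
  have m2 := subset_WW (c.mem_S (c.d.F0_mem (a := n) (b := 0) (by omega)))
  have hs := c.s_ne
  have h1 : O.valuation (c.φ (FF ^ c.d.n0 * XX ^ (n + 1) * YY ^ 0) / c.φ c.d.Θ) = 1 := by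
    rw [← mul_div_mul_left _ _ (pow_ne_zero c.d.del (inv_ne_zero hs)), map_div₀,
      c.Θ_inf O h.hu h.hx (Or.inl h.ncst), c.hom_F0 _ hn, inv_mul_cancel₀ hs]
    simp only [one_pow, map_pow, map_prod, h.vl, pow_zero, mul_one]
    simp
  refine ⟨c.y / c.s, c.s⁻¹, c.tame hS m0 h1 ?_ h.hx, c.tame hS m0 h1 ?_ h.hu.le, ?_⟩
  · convert m1 using 1
    simp only [map_mul, map_pow]
    change _ * c.s ^ _ * c.y ^ _ / _ * _ = _ * c.s ^ _ * c.y ^ _ / _
    field_simp; ring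
  · convert m2 using 1
    simp only [map_mul, map_pow]
    change _ * c.s ^ _ * c.y ^ _ / _ * _ = _ * c.s ^ _ * c.y ^ _ / _
    field_simp; ring
  · have h2 := c.newt_inf O h.hu h.hx (Or.inl h.ncst) c.d.newtTT
    have h3 : O.valuation (c.s⁻¹ ^ 4 * c.φ FF) = 1 := by
      have : c.s⁻¹ ^ 4 * c.φ FF = ∏ j, c.s⁻¹ * c.l j := by
        simp only [Fin.prod_univ_four, FF, map_mul, l]; ring
      rw [this, map_prod]; simp only [h.vl, Finset.prod_const_one]
    rw [map_mul, map_pow] at h2 h3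
    rw [bb_eq, brV_xu, brV]
    simp only [map_mul, map_pow, h.vh, v_alg O c.d.kap_ne]
    calc _ = (O.valuation c.s⁻¹ ^ 11 * O.valuation (c.φ c.d.TT)) *
        (O.valuation c.s⁻¹ ^ 4 * O.valuation (c.φ FF)) := by
          generalize O.valuation c.s⁻¹ = a
          rw [show a ^ 6 * a ^ 6 = a ^ 12 by rw [← pow_add], one_mul]
          rw [show 12 = 8 + 4 by rfl, show 11 = 8 + 3 by rfl, pow_add, pow_add]; ac_rfl
      _ = 1 := by rw [h2, h3, one_mul]

end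

/-! ### the exceptional curve over the origin -/

omit hO in
lemma s_transc {p : ℂ⟮c.y / c.s⟯[X]} (hp : aeval c.s p = 0) : p = 0 := by
  by_contra h0
  have halg : IsAlgebraic ℂ⟮c.y / c.s⟯ c.s := ⟨p, h0, hp⟩
  set D := brD (c.V 0) (c.V 1) (c.y / c.s) with hD
  have h1 : D (c.y / c.s) = 0 := by simp [hD, brD_apply, br]
  have h2 : ∀ z : ℂ⟮c.y / c.s⟯, D z = 0 := fun z => by
    obtain ⟨r, s, hrs⟩ := (mem_adjoin_simple_iff ℂ (z : K)).1 z.2
    rw [hrs, Derivation.leibniz_div, Derivation.map_aeval, Derivation.map_aeval, h1]; simp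
  have h3 : ∀ q : ℂ⟮c.y / c.s⟯[X], D (aeval c.s q) = aeval c.s (derivative q) * D c.s := by
    intro q
    induction q using Polynomial.induction_on' with
    | add p q hp hq => simp only [map_add, hp, hq]; ring
    | monomial n a =>
      rw [derivative_monomial, aeval_monomial, aeval_monomial, Derivation.leibniz,
        Derivation.leibniz_pow]
      have := h2 a
      simp only [IntermediateField.algebraMap_apply, this, map_mul, map_natCast]
      simp; ring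
  have h4 := h3 (minpoly _ c.s)
  have h5 := (minpoly.irreducible halg.isIntegral).separable.aeval_derivative_ne_zero
    (minpoly.aeval _ c.s)
  rw [minpoly.aeval, map_zero] at h4
  have h6 : D c.s = 0 := (mul_eq_zero.1 h4.symm).resolve_left h5
  have h7 : D c.s⁻¹ = 0 := by rw [Derivation.leibniz_inv, h6, smul_zero]
  rw [hD, brD_apply, brV_xu] at h7
  exact mul_ne_zero (pow_ne_zero _ (inv_ne_zero c.s_ne)) c.brV_ne h7

omit hO in
lemma exists_E : ∃ E : ValuationSubring K, HC E ∧ E.valuation c.s < 1 ∧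
    E.valuation (c.y / c.s) ≤ 1 ∧ ¬ Cst E (c.y / c.s) := by
  let A0 : Subring K := (aeval (R := ℂ⟮c.y / c.s⟯) c.s).range.toSubring
  have hs : c.s ∈ A0 := ⟨X, by simp⟩
  have hL : ∀ z ∈ ℂ⟮c.y / c.s⟯, z ∈ A0 := fun z hz => ⟨C ⟨z, hz⟩, by simp⟩
  obtain ⟨E, h1, h2⟩ := Ideal.image_subset_nonunits_valuationSubring (A := A0)
    (Ideal.span {⟨c.s, hs⟩}) (by
      rw [Ne, Ideal.span_singleton_eq_top, isUnit_iff_exists_inv]
      rintro ⟨⟨_, p, rfl⟩, hp⟩
      have h3 : c.s * aeval c.s p = 1 := congrArg Subtype.val hp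
      have h4 := c.s_transc (p := X * p - 1) (by simp [h3])
      have := congrArg (eval 0) h4
      simp at this)
  have hx : c.y / c.s ∈ ℂ⟮c.y / c.s⟯ := mem_adjoin_simple_self _ _
  refine ⟨E, ⟨fun k => h1 (hL _ (IntermediateField.algebraMap_mem _ k))⟩, ?_, ?_, ?_⟩
  · exact (E.mem_nonunits_iff).1 (h2 ⟨_, Ideal.subset_span rfl, rfl⟩)
  · exact (E.valuation_le_one_iff _).2 (h1 (hL _ hx))
  · rintro ⟨k, hk⟩
    have h3 : c.y / c.s - algebraMap ℂ K k ∈ ℂ⟮c.y / c.s⟯ := sub_mem hx (IntermediateField.algebraMap_mem _ k)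
    have h4 : c.y / c.s - algebraMap ℂ K k ≠ 0 := by
      intro h0
      have h5 : c.φ (YY - algebraMap ℂ R k * XX) = 0 := by
        have := c.s_ne
        rw [sub_eq_zero, div_eq_iff this] at h0
        rw [map_sub, map_mul, AlgHom.commutes]
        exact sub_eq_zero.2 h0
      refine c.φ_ne (fun h => ?_) h5
      have := congrArg (MvPolynomial.eval ![0, 1]) h
      simp [XX, YY] at this
    have h5 := (E.valuation_le_one_iff _).2 (h1 (hL _ (inv_mem h3)))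
    have h6 := v_mul_lt E hk h5
    rw [mul_inv_cancel₀ h4, map_one] at h6
    exact lt_irrefl _ h6

lemma at_E (hs : O.valuation c.s < 1) (hx : O.valuation (c.y / c.s) ≤ 1)
    (hc : ¬ Cst O (c.y / c.s)) : Over c.S O ∧ (∀ z ∈ c.S, O.valuation z < 1) ∧
      ∀ i, ∀ a ∈ WW c.S, O.valuation (c.δ i a) < 1 := by
  have hs0 := c.s_ne
  have hy : O.valuation c.y ≤ O.valuation c.s := by
    rw [← div_mul_cancel₀ c.y hs0]; exact v_mul_le' O hx le_rfl
  have hy1 := hy.trans hs.le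
  have hl : ∀ j, O.valuation (c.l j) ≤ O.valuation c.s := fun j => by
    rw [l_def]; exact O.valuation.map_sub_le hy (v_mul_le' O (v_alg_le O _) le_rfl)
  have hone : ∀ f : R, (res 0 f).eval 0 ≠ 0 → O.valuation (c.φ f) = 1 := fun f hf =>
    c.v_res_one O hs.le hy1 ((hl 0).trans_lt hs) (v_aeval_near O (σ := 0) (by simpa using hs) hf)
  have hΘ : O.valuation (c.φ c.d.Θ) = 1 := hone _ (by simp [Dat.res_Θ, DD_eval_zero (c.d.q0 0)])
  have hS : ∀ z ∈ c.S, O.valuation z < 1 := by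
    rintro _ ⟨f, hf, rfl⟩
    obtain ⟨ρ, rfl⟩ := Dat.Num_dvd hf 0
    simp only
    rw [map_div₀, hΘ, div_one, map_mul]
    exact v_mul_lt O ((hl 0).trans_lt hs) (c.vφ_le O hs.le hy1 ρ)
  have hO' : Over c.S O := ⟨hO.out, fun z hz => (O.valuation_le_one_iff _).1 (hS z hz).le⟩
  refine ⟨hO', hS, fun i => ?_⟩
  have hh : O.valuation (c.h i) < 1 := by
    have h1 := c.v_pow O i
    rw [hone _ (by simp [(c.d.newtT i).res_eq, DD_eval_zero (c.d.q0 0)]), mul_one,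
      ← Finset.mul_prod_erase _ _ (Finset.mem_univ 0)] at h1
    have h2 : O.valuation (c.h i) ^ c.d.N < 1 := by
      rw [h1]
      refine mul_lt_one_of_nonneg_of_lt_one_left zero_le
        (pow_lt_one₀ zero_le ((hl 0).trans_lt hs) (c.d.ph_pos i).ne') ?_
      exact Finset.prod_le_one' fun j _ => pow_le_one₀ zero_le ((hl j).trans hs.le)
    exact (pow_lt_one_iff_of_nonneg zero_le c.d.N_pos.ne').1 h2
  obtain ⟨E, rr, lin, e1, e2, -⟩ := c.d.loc i 0
  have hvx : O.valuation (c.φ (c.d.vx i)) ≤ O.valuation c.s := by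
    obtain ⟨ρ, hρ⟩ := c.res_split 0 (c.d.vx i)
    rw [hρ, e1, map_mul, aeval_X]
    exact O.valuation.map_add_le (v_mul_le O le_rfl (aeval_mem (A := OA O) hs.le _))
      (v_mul_le O (hl 0) (c.vφ_le O hs.le hy1 _))
  have hvy : O.valuation (c.φ (c.d.vy i)) ≤ O.valuation c.s := by
    rw [sub_eq_iff_eq_add.1 e2, map_add, map_mul, map_mul, AlgHom.commutes]
    exact O.valuation.map_add_le (v_mul_le O (hl 0) (c.vφ_le O hs.le hy1 _))
      (v_mul_le' O (v_alg_le O _) hvx)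
  have hdiv : ∀ z, O.valuation z ≤ O.valuation c.s → O.valuation (z / c.s) ≤ 1 := fun z hz => by
    rw [map_div₀]; exact div_le_one_of_le₀ hz zero_le
  have hsA : c.s ∈ St O (c.V i) := ⟨hs.le, by rw [Vs]; exact hvx.trans hs.le⟩
  have hxA : c.y / c.s ∈ St O (c.V i) := ⟨hx, by
    have : c.V i (c.y / c.s) = c.φ (c.d.vy i) / c.s - c.y / c.s * (c.φ (c.d.vx i) / c.s) := by
      rw [Derivation.leibniz_div, Vs, Vy']; simp only [smul_eq_mul]; field_simp
    rw [this]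
    exact O.valuation.map_sub_le (hdiv _ hvy) (v_mul_le O hx (hdiv _ hvx))⟩
  have hF := (chart_coord O (fun z => St_inv O) (fun z hz => hz.1) hxA hsA hc hs).mono
    (K1 := c.K0) (c.K0_le (subset_adjoin _ _ (by simp)) (by
      have := mul_mem (subset_adjoin ℂ {c.y / c.s, c.s} (a := c.y / c.s) (by simp))
        (subset_adjoin ℂ {c.y / c.s, c.s} (a := c.s) (by simp))
      rwa [div_mul_cancel₀ _ hs0] at this))
  have key := c.avg O (c.V i) fun a ha hp =>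
    stable O le_rfl hs0 hF c.d.N_pos.ne' (c.pure_pow hp) ((O.valuation_le_one_iff _).2 (ha O hO'))
      fun _ hlt => by rw [Vs]; exact (mul_le_of_le_one_left' hlt.le).trans hvx
  intro a ha
  exact v_mul_lt O hh (key a ha)

end Ctx

end Crest.Agent.R278
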