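import Crest.Agent.R278.Ctx

/-!
Row 278: classification of the good valuation rings.
-/

set_option autoImplicit false

open Polynomial IntermediateField

noncomputable section

namespace Crest.Agent.R278

variable {K : Type} [Field K] [Algebra ℂ K]

namespace Ctx
variable (c : Ctx K) (O : ValuationSubring K) [hO : HC O]

lemma vφ_le (hs : O.valuation c.s ≤ 1) (hy : O.valuation c.y ≤ 1) (f : R) :
    O.valuation (c.φ f) ≤ 1 := phi_mem c.φ (A := OA O) hs hy f

lemma v_res (hs : O.valuation c.s ≤ 1) (hy : O.valuation c.y ≤ 1) (j : Fin 4) (f : R) :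
    O.valuation (c.φ f - aeval c.s (res j f)) ≤ O.valuation (c.l j) := by
  obtain ⟨ρ, hρ⟩ := c.res_split j f
  rw [hρ, add_sub_cancel_left]
  exact v_mul_le O le_rfl (c.vφ_le O hs hy ρ)

lemma v_res_one (hs : O.valuation c.s ≤ 1) (hy : O.valuation c.y ≤ 1) {j : Fin 4}
    (hl : O.valuation (c.l j) < 1) {f : R} (h : O.valuation (aeval c.s (res j f)) = 1) :
    O.valuation (c.φ f) = 1 := by
  have h1 := (c.v_res O hs hy j f).trans_lt hl
  rw [← h] at h1 ⊢
  simpa using v_add_eq O h1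

/-- `O` is centred at a root of `q j g` -/
structure Near (j g : Fin 4) (σ : ℂ) : Prop where
  near : O.valuation (c.s - algebraMap ℂ K σ) < 1
  root : (c.d.q j g).eval σ = 0

/-- the value of `q j g` -/
def γ (j g : Fin 4) : O.ValueGroup := O.valuation (aeval c.s (c.d.q j g))

omit hO in
lemma γ_ne (j g : Fin 4) : c.γ O j g ≠ 0 := by
  refine (Valuation.ne_zero_iff _).2 (c.aeval_ne fun h => ?_)
  have := c.d.q0 j g
  simp [h] at this

omit hO in
lemma γ_pos (j g : Fin 4) : 0 < c.γ O j g := zero_lt_iff.2 (c.γ_ne O j g)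

section
variable {c O} {j g : Fin 4} {σ : ℂ}

omit hO in
lemma Near.σ_ne (h : c.Near O j g σ) : σ ≠ 0 := by
  rintro rfl
  have := h.root
  simp [c.d.q0] at this

lemma Near.vs (h : c.Near O j g σ) : O.valuation c.s = 1 := by
  simpa using v_aeval_near O h.near (p := X) (by simpa using h.σ_ne)

lemma Near.γ_le (h : c.Near O j g σ) : c.γ O j g ≤ O.valuation (c.s - algebraMap ℂ K σ) := by
  simpa [h.root, γ] using v_aeval_sub_le O h.near (c.d.q j g)

lemma Near.γ_lt (h : c.Near O j g σ) : c.γ O j g < 1 := h.γ_le.trans_lt h.near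

lemma Near.vD (h : c.Near O j g σ) (t : Fin 4 → ℕ) : O.valuation (c.D j t) = c.γ O j g ^ t g := by
  rw [D, DD, map_prod, map_prod, Finset.prod_eq_single g]
  · rw [map_pow, map_pow]; rfl
  · intro g' _ hg'
    rw [map_pow, map_pow, v_aeval_near O h.near (c.d.qcop j g g' σ hg'.symm h.root), one_pow]
  · simp

lemma Near.vFc (h : c.Near O j g σ) (hy : O.valuation c.y ≤ 1) (hl : O.valuation (c.l j) < 1) :
    O.valuation (c.φ (Fc j)) = 1 := by
  refine c.v_res_one O h.vs.le hy hl (v_aeval_near O h.near ?_)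
  simp [res_Fc_self, PP_ne, h.σ_ne]

lemma Near.vl (h : c.Near O j g σ) (hy : O.valuation c.y ≤ 1) (hl : O.valuation (c.l j) < 1)
    {j' : Fin 4} (hj : j' ≠ j) : O.valuation (c.l j') = 1 := by
  refine c.v_res_one O h.vs.le hy hl (v_aeval_near O h.near ?_)
  have : xx j - xx j' ≠ 0 := fun h0 => hj (xx_inj (sub_eq_zero.1 h0)).symm
  simp only [res_ell, eval_mul, eval_C, eval_X]
  exact mul_ne_zero this h.σ_ne

lemma Near.far (h : c.Near O j g σ) (hy : O.valuation c.y ≤ 1) (hl : O.valuation (c.l j) < 1)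
    (hw : 1 < O.valuation (c.w j)) {t : Fin 4 → Fin 4 → ℕ} {e : ℕ} {f : R}
    (hf : Newt c.d.q c.d.m t e f) :
    O.valuation (c.φ f) ^ c.d.m j g < O.valuation (c.l j) ^ t j g := by
  have hl0 : 0 < O.valuation (c.l j) := zero_lt_iff.2 (by simpa using c.l_ne j)
  have hm := c.d.m_pos j g
  have hγ : c.γ O j g ^ c.d.m j g < O.valuation (c.l j) := by
    rw [l_eq, map_mul, map_mul, h.vs, mul_one, h.vD]
    exact lt_mul_of_one_lt_left (pow_pos (c.γ_pos O j g) _) hw
  have hadd : ∀ a b : K, O.valuation a ^ c.d.m j g < O.valuation (c.l j) ^ t j g →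
      O.valuation b ^ c.d.m j g < O.valuation (c.l j) ^ t j g →
      O.valuation (a + b) ^ c.d.m j g < O.valuation (c.l j) ^ t j g := by
    intro a b ha hb
    rcases O.valuation.map_add' a b with h1 | h1
    · exact (pow_le_pow_left₀ zero_le h1 _).trans_lt ha
    · exact (pow_le_pow_left₀ zero_le h1 _).trans_lt hb
  have key : ∀ z ∈ NI j (c.d.q j) (c.d.m j) (t j),
      O.valuation (c.φ z) ^ c.d.m j g < O.valuation (c.l j) ^ t j g := by
    intro z hz
    induction hz using Submodule.span_induction with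
    | mem z hz =>
      obtain ⟨n, hn, rfl⟩ := hz
      rw [map_mul, map_pow, φ_up]
      change O.valuation (c.l j ^ n * c.D j _) ^ _ < _
      rw [map_mul, map_pow, h.vD, mul_pow, ← pow_mul, ← pow_mul, mul_comm (_ - _) (c.d.m j g),
        pow_mul (c.γ O j g)]
      calc _ ≤ O.valuation (c.l j) ^ (n * c.d.m j g) *
            O.valuation (c.l j) ^ (t j g + 1 - n * c.d.m j g) :=
            mul_le_mul' le_rfl (pow_le_pow_left₀ zero_le hγ.le _)
        _ < O.valuation (c.l j) ^ t j g := by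
          rw [← pow_add]
          exact pow_lt_pow_right_of_lt_one₀ hl0 hl (by omega)
    | zero => simpa [hm.ne'] using pow_pos hl0 _
    | add x y _ _ hx hy => rw [map_add]; exact hadd _ _ hx hy
    | smul r x _ hx =>
      rw [smul_eq_mul, map_mul]
      exact (pow_le_pow_left₀ zero_le (v_mul_le' O (c.vφ_le O h.vs.le hy r) le_rfl) _).trans_lt hx
  have h1 := key _ (hf.mem j)
  rw [map_sub, φ_up] at h1
  have h2 : O.valuation (c.D j (t j)) ^ c.d.m j g < O.valuation (c.l j) ^ t j g := by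
    rw [h.vD, ← pow_mul, mul_comm, pow_mul]
    exact pow_lt_pow_left₀ hγ zero_le (by have := hf.pos j g; omega)
  simpa [D] using hadd _ _ h1 h2

end

lemma top_exists (hu : O.valuation c.s⁻¹ < 1) (hx : O.valuation (c.y / c.s) ≤ 1) {e : ℕ} {f : R}
    (hf : Dg e f) : ∃ r : ℂ[X], (∀ j, r.eval (xx j) = (res j f).coeff e) ∧
      O.valuation (c.s⁻¹ ^ e * c.φ f - aeval (c.y / c.s) r) < 1 := by
  refine deg_induction (p := fun f => ∃ r : ℂ[X], (∀ j, r.eval (xx j) = (res j f).coeff e) ∧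
      O.valuation (c.s⁻¹ ^ e * c.φ f - aeval (c.y / c.s) r) < 1) ⟨0, by simp, by simp⟩ ?_ ?_ hf
  · rintro f g ⟨r, h1, h2⟩ ⟨r', h1', h2'⟩
    refine ⟨r + r', fun j => by simp [h1, h1'], ?_⟩
    have := O.valuation.map_add_lt h2 h2'
    convert this using 2
    rw [map_add, map_add]; ring
  · intro a b k hab
    obtain ⟨n, rfl⟩ := Nat.exists_eq_add_of_le hab
    have hs := c.s_ne
    have e1 : c.s⁻¹ ^ (a + b + n) * c.φ (algebraMap ℂ R k * XX ^ a * YY ^ b) =
        algebraMap ℂ K k * (c.y / c.s) ^ b * c.s⁻¹ ^ n := by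
      simp only [map_mul, map_pow, AlgHom.commutes]
      change _ * (_ * c.s ^ a * c.y ^ b) = _
      simp only [inv_pow, div_pow]
      field_simp
      ring
    have e2 : ∀ j, res j (algebraMap ℂ R k * XX ^ a * YY ^ b) =
        C (k * xx j ^ b) * X ^ (a + b) := fun j => by
      simp only [map_mul, map_pow, res_alg, res_XX, res_YY]; ring
    rw [e1]
    simp only [e2, coeff_C_mul, coeff_X_pow]
    rcases n with _ | n
    · exact ⟨C k * X ^ b, fun j => by simp, by simp⟩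
    · refine ⟨0, fun j => by simp, ?_⟩
      rw [map_zero, sub_zero]
      refine v_mul_lt' O (v_mul_le O (v_alg_le O k) ?_) ?_
      · rw [map_pow]; exact pow_le_one₀ zero_le hx
      · rw [map_pow]; exact pow_lt_one₀ zero_le hu (by omega)

lemma newt_inf (hu : O.valuation c.s⁻¹ < 1) (hx : O.valuation (c.y / c.s) ≤ 1)
    (hc : ¬ Cst O (c.y / c.s) ∨ ∃ j, O.valuation (c.y / c.s - algebraMap ℂ K (xx j)) < 1)
    {t : Fin 4 → Fin 4 → ℕ} {e : ℕ} {f : R} (hf : Newt c.d.q c.d.m t e f) :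
    O.valuation (c.s⁻¹ ^ e * c.φ f) = 1 := by
  obtain ⟨r, h1, h2⟩ := c.top_exists O hu hx hf.deg
  have h3 : ∀ j, r.eval (xx j) ≠ 0 := fun j => by
    rw [h1, hf.res_eq, ← hf.nd j]
    exact leadingCoeff_ne_zero.2 (DD_ne (c.d.q0 j) _)
  have h4 : O.valuation (aeval (c.y / c.s) r) = 1 := by
    rcases hc with hc | ⟨j, hj⟩
    · exact v_aeval_ncst O hx hc (by rintro rfl; simpa using h3 0)
    · exact v_aeval_near O hj (h3 j)
  rw [← h4] at h2 ⊢
  simpa using v_add_eq O h2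

omit hO in
lemma Θ_hom (u : K) : u ^ c.d.del * c.φ c.d.Θ =
    (u ^ 11 * c.φ c.d.TT * (u ^ c.d.e * c.φ (c.d.T 0)) * (u ^ c.d.e * c.φ (c.d.T 1))) ^ c.d.M := by
  rw [Dat.del, Dat.Θ, map_pow, map_mul, map_mul, mul_comm c.d.M, pow_mul, ← mul_pow]
  congr 1; ring

lemma Θ_inf (hu : O.valuation c.s⁻¹ < 1) (hx : O.valuation (c.y / c.s) ≤ 1)
    (hc : ¬ Cst O (c.y / c.s) ∨ ∃ j, O.valuation (c.y / c.s - algebraMap ℂ K (xx j)) < 1) :
    O.valuation (c.s⁻¹ ^ c.d.del * c.φ c.d.Θ) = 1 := by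
  rw [Θ_hom, map_pow, map_mul, map_mul, c.newt_inf O hu hx hc c.d.newtTT,
    c.newt_inf O hu hx hc (c.d.newtT 0), c.newt_inf O hu hx hc (c.d.newtT 1)]
  simp

/-- a curve in the plane -/
structure CaseI : Prop where
  hs : O.valuation c.s ≤ 1
  hy : O.valuation c.y ≤ 1
  ncst : ¬ Cst O c.s ∨ ¬ Cst O c.y
  vF : O.valuation (c.φ FF) = 1
  vΘ : O.valuation (c.φ c.d.Θ) = 1

/-- the line at infinity -/
structure CaseII : Prop where
  hu : O.valuation c.s⁻¹ < 1
  hx : O.valuation (c.y / c.s) ≤ 1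
  ncst : ¬ Cst O (c.y / c.s)

/-- the last exceptional curve over a root -/
structure CaseIII (j g : Fin 4) (σ : ℂ) : Prop extends c.Near O j g σ where
  hw : O.valuation (c.w j) ≤ 1
  ncst : ¬ Cst O (c.w j)

omit hO in
lemma vF_eq : O.valuation (c.φ FF) = ∏ j, O.valuation (c.l j) := by
  rw [FF_eq, map_prod, map_prod]; rfl

lemma Θ_near {A : Subalgebra ℂ K} {j g : Fin 4} {σ : ℂ} (h : c.Near O j g σ) (hA : A ≤ OA O)
    (hs : c.s ∈ A) (hw : c.w j ∈ A) {B : Subalgebra ℂ K}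
    (hB : ∀ ρ ∈ A, c.D j (fun _ => 1) * ρ ∈ B) :
    ∃ U ∈ B, O.valuation U = 1 ∧ c.φ c.d.Θ = c.D j (c.d.tΘ j) * U := by
  obtain ⟨ρ0, h0, e0⟩ := c.newt_near c.d.newtTT j hs hw
  obtain ⟨ρ1, h1, e1⟩ := c.newt_near (c.d.newtT 0) j hs hw
  obtain ⟨ρ2, h2, e2⟩ := c.newt_near (c.d.newtT 1) j hs hw
  have hv : ∀ ρ ∈ A, O.valuation (1 + c.D j (fun _ => 1) * ρ) = 1 := fun ρ hρ => by
    have : O.valuation (c.D j (fun _ => 1) * ρ) < O.valuation 1 := by
      rw [map_one]
      exact v_mul_lt O (by rw [h.vD, pow_one]; exact h.γ_lt) (hA hρ)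
    simpa using v_add_eq O this
  refine ⟨((1 + c.D j (fun _ => 1) * ρ0) * (1 + c.D j (fun _ => 1) * ρ1) *
    (1 + c.D j (fun _ => 1) * ρ2)) ^ c.d.M, ?_, ?_, ?_⟩
  · exact B.pow_mem (B.mul_mem (B.mul_mem (B.add_mem B.one_mem (hB _ h0))
      (B.add_mem B.one_mem (hB _ h1))) (B.add_mem B.one_mem (hB _ h2))) _
  · rw [map_pow, map_mul, map_mul, hv _ h0, hv _ h1, hv _ h2]; simp
  · have : c.D j (c.d.tΘ j) =
        (c.D j (c.d.tT j) * c.D j (c.d.tau 0 j) * c.D j (c.d.tau 1 j)) ^ c.d.M := by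
      rw [← D_add, ← D_add, ← D_mul]; rfl
    rw [this, Dat.Θ, map_pow, map_mul, map_mul, e0, e1, e2, ← mul_pow]
    congr 1; ring

/-- homogeneous normalisation at a closed point -/
lemma closed_pt (hG : Good c.S O) {u : K} (hu0 : u ≠ 0) (hu : u ∈ CA O) (hx : u * c.s ∈ CA O)
    (hy : u * c.y ∈ CA O) : O.valuation (u ^ c.d.del * c.φ c.d.Θ) < 1 ∧
      ∀ f ∈ c.d.Num, O.valuation (u ^ c.d.del * c.φ f) < 1 := by
  have hm : ∀ f, Dg c.d.del f → u ^ c.d.del * c.φ f ∈ CA O := fun f hf => hom_mem c.φ hu hx hy hf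
  have hΘ : Dg c.d.del c.d.Θ :=
    (((c.d.newtTT.deg.mul (c.d.newtT 0).deg).mul (c.d.newtT 1).deg).pow _).mono le_rfl
  have e : ∀ f, c.φ f / c.φ c.d.Θ = u ^ c.d.del * c.φ f * (u ^ c.d.del * c.φ c.d.Θ)⁻¹ := by
    intro f
    have := c.Θ_ne
    field_simp
  have h1 : O.valuation (u ^ c.d.del * c.φ c.d.Θ) < 1 := by
    refine lt_of_le_of_ne (Cst.le_one (hm _ hΘ)) fun h1 => ?_
    obtain ⟨_, ⟨f, hf, rfl⟩, hz⟩ := hG.2
    apply hz
    simp only [e]
    exact (CA O).mul_mem (hm _ (Dat.Num_deg hf)) (CA_inv O (hm _ hΘ) h1)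
  refine ⟨h1, fun f hf => ?_⟩
  have h2 := (O.valuation_le_one_iff _).2 (hG.1.2 _ (c.mem_S hf))
  have e' : u ^ c.d.del * c.φ f = c.φ f / c.φ c.d.Θ * (u ^ c.d.del * c.φ c.d.Θ) := by
    have := c.Θ_ne
    field_simp
  rw [e']
  exact v_mul_lt' O h2 h1

lemma classify_fin (hG : Good c.S O) (hs : O.valuation c.s ≤ 1) (hy : O.valuation c.y ≤ 1) :
    c.CaseI O ∨ ∃ j g σ, c.CaseIII O j g σ := by
  have hn := c.d.n0d
  have hS : ∀ f ∈ c.d.Num, O.valuation (c.φ f) ≤ O.valuation (c.φ c.d.Θ) := fun f hf => by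
    have h2 := (O.valuation_le_one_iff _).2 (hG.1.2 _ (c.mem_S hf))
    rwa [map_div₀, div_le_one₀ (zero_lt_iff.2 (by simpa using c.Θ_ne))] at h2
  have hF0 : O.valuation (c.φ FF) ^ c.d.n0 ≤ O.valuation (c.φ c.d.Θ) := by
    simpa using hS _ (c.d.F0_mem (a := 0) (b := 0) (by simp only [Dat.del]; omega))
  have hl : ∀ j, O.valuation (c.l j) ≤ 1 := fun j => c.vφ_le O hs hy _
  have hF : (∀ j, ¬ O.valuation (c.l j) < 1) → O.valuation (c.φ FF) = 1 := fun h => by
    rw [vF_eq]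
    exact Finset.prod_eq_one fun j _ => le_antisymm (hl j) (not_lt.1 (h j))
  by_cases hc : Cst O c.s ∧ Cst O c.y
  · right
    have h1 := (c.closed_pt O hG one_ne_zero (CA O).one_mem (by rw [one_mul]; exact hc.1)
      (by rw [one_mul]; exact hc.2)).1
    rw [one_pow, one_mul] at h1
    obtain ⟨j, hj⟩ : ∃ j, O.valuation (c.l j) < 1 := by
      by_contra h
      rw [hF (not_exists.1 h), one_pow] at hF0
      exact absurd h1 (not_lt.2 hF0)
    obtain ⟨σ, hσ⟩ := hc.1
    obtain ⟨g, hg⟩ : ∃ g, (c.d.q j g).eval σ = 0 := by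
      by_contra h
      refine h1.ne (c.v_res_one O hs hy hj (v_aeval_near O hσ ?_))
      rw [Dat.res_Θ, DD, eval_prod]
      exact Finset.prod_ne_zero_iff.2 fun g _ => by
        rw [eval_pow]; exact pow_ne_zero _ (not_exists.1 h g)
    have hN : c.Near O j g σ := ⟨hσ, hg⟩
    have hw : O.valuation (c.w j) ≤ 1 := by
      by_contra hw
      have hw := not_le.1 hw
      have f0 := hN.far hy hj hw c.d.newtTT
      have f1 := hN.far hy hj hw (c.d.newtT 0)
      have f2 := hN.far hy hj hw (c.d.newtT 1)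
      have f3 : O.valuation (c.φ c.d.Θ) ^ c.d.m j g < O.valuation (c.l j) ^ c.d.tΘ j g := by
        simp only [Dat.Θ, map_pow, map_mul]
        rw [← pow_mul, mul_comm c.d.M, pow_mul, Dat.tΘ, mul_comm c.d.M, pow_mul]
        refine pow_lt_pow_left₀ ?_ zero_le c.d.M_pos.ne'
        rw [mul_pow, mul_pow, pow_add, pow_add]
        exact mul_lt_mul'' (mul_lt_mul'' f0 f1 zero_le zero_le) f2 zero_le zero_le
      have f4 := hS _ (Or.inr ⟨j, g, Or.inl rfl⟩)
      simp only [Dat.fg, map_mul, map_pow, φ_up, hN.vFc hy hj] at f4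
      change O.valuation (c.l j) ^ _ * _ * O.valuation (c.D j _) ≤ _ at f4
      rw [hN.vD, c.d.km', Nat.sub_self, pow_zero, one_pow, mul_one, mul_one] at f4
      rw [← c.d.km', pow_mul] at f3
      exact absurd (pow_le_pow_left₀ zero_le f4 _) (not_le.2 f3)
    refine ⟨j, g, σ, hN, hw, fun hcw => ?_⟩
    obtain ⟨_, ⟨f, hf, rfl⟩, hz⟩ := hG.2
    apply hz
    have hsA : c.s ∈ CA O := ⟨σ, hσ⟩
    obtain ⟨U, hU, hU1, hΘ⟩ := c.Θ_near O (A := CA O) hN (fun z hz => Cst.le_one hz) hsA hcw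
      (B := CA O) (fun ρ hρ => (CA O).mul_mem (aeval_mem hsA _) hρ)
    obtain ⟨a, p, ρ, -, rfl, ⟨p', hp'⟩⟩ := Dat.Num_newt hf j
    have hp := congrArg (aeval c.s) hp'
    rw [map_mul, map_mul, map_pow] at hp
    change c.D j _ ^ a * _ = c.D j _ * _ at hp
    have e : c.φ (ell j ^ a * up p * ρ) / c.φ c.d.Θ =
        c.w j ^ a * c.s ^ a * aeval c.s p' * c.φ ρ * U⁻¹ := by
      have hU0 : U ≠ 0 := by rintro rfl; simp at hU1
      have := c.D_ne j (c.d.tΘ j)
      rw [hΘ, map_mul, map_mul, map_pow, φ_up]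
      change c.l j ^ a * _ * _ / _ = _
      rw [l_eq, mul_pow, mul_pow, mul_assoc _ (c.D j _ ^ a), hp]
      field_simp
    simp only [e]
    exact (CA O).mul_mem ((CA O).mul_mem ((CA O).mul_mem ((CA O).mul_mem ((CA O).pow_mem hcw _)
      ((CA O).pow_mem hsA _)) (aeval_mem hsA _)) (c.φ_mem_chart j hsA hcw _)) (CA_inv O hU hU1)
  · left
    have h1 : ∀ j, ¬ O.valuation (c.l j) < 1 := by
      intro j hj
      have hcs : ¬ Cst O c.s := fun h => hc ⟨h, by
        have : c.y = c.l j + algebraMap ℂ K (xx j) * c.s := by rw [l_def]; ring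
        rw [this]
        exact (CA O).add_mem (Cst.of_lt O hj) ((CA O).mul_mem ((CA O).algebraMap_mem _) h)⟩
      have hΘ : O.valuation (c.φ c.d.Θ) = 1 := c.v_res_one O hs hy hj (v_aeval_ncst O hs hcs (by
        rw [Dat.res_Θ]; exact DD_ne (c.d.q0 j) _))
      obtain ⟨_, ⟨f, hf, rfl⟩, hz⟩ := hG.2
      apply hz
      obtain ⟨ρ, rfl⟩ := Dat.Num_dvd hf j
      refine Cst.of_lt O ?_
      simp only
      rw [map_div₀, hΘ, div_one, map_mul]
      exact v_mul_lt O hj (c.vφ_le O hs hy ρ)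
    refine ⟨hs, hy, not_and_or.1 hc, hF h1, le_antisymm (c.vφ_le O hs hy _) ?_⟩
    rwa [hF h1, one_pow] at hF0

omit hO in
lemma hom_F0 (u : K) {a b : ℕ} (h : a + b + 4 * c.d.n0 = c.d.del) :
    u ^ c.d.del * c.φ (FF ^ c.d.n0 * XX ^ a * YY ^ b) =
      (∏ j, u * c.l j) ^ c.d.n0 * (u * c.s) ^ a * (u * c.y) ^ b := by
  rw [← h, Fin.prod_univ_four, map_mul, map_mul, map_pow, map_pow, map_pow, FF, map_mul, map_mul,
    map_mul]
  simp only [l, s, y]
  ring

lemma classify (hG : Good c.S O) : c.CaseI O ∨ c.CaseII O ∨ ∃ j g σ, c.CaseIII O j g σ := by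
  have hn := c.d.n0d
  by_cases h : O.valuation c.s ≤ 1 ∧ O.valuation c.y ≤ 1
  · rcases c.classify_fin O hG h.1 h.2 with h | h
    · exact Or.inl h
    · exact Or.inr (Or.inr h)
  right; left
  have hs0 := c.s_ne
  have hvs : 0 < O.valuation c.s := zero_lt_iff.2 (by simpa using hs0)
  rcases le_or_gt (O.valuation c.y) (O.valuation c.s) with hys | hys
  · have h1 : 1 < O.valuation c.s := by
      by_contra h1
      exact h ⟨not_lt.1 h1, hys.trans (not_lt.1 h1)⟩
    have hu : O.valuation c.s⁻¹ < 1 := by rw [map_inv₀]; exact inv_lt_one_of_one_lt₀ h1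
    have hx : O.valuation (c.y / c.s) ≤ 1 := by rw [map_div₀]; exact div_le_one_of_le₀ hys zero_le
    refine ⟨hu, hx, fun hc => ?_⟩
    obtain ⟨h2, h3⟩ := c.closed_pt O hG (inv_ne_zero hs0) (Cst.of_lt O hu)
      (by rw [inv_mul_cancel₀ hs0]; exact (CA O).one_mem) (by rwa [← div_eq_inv_mul])
    by_cases hj : ∃ j, O.valuation (c.y / c.s - algebraMap ℂ K (xx j)) < 1
    · exact h2.ne (c.Θ_inf O hu hx (Or.inr hj))
    · have h4 := h3 _ (c.d.F0_mem (a := c.d.del - 4 * c.d.n0) (b := 0)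
        (by simp only [Dat.del]; omega))
      rw [c.hom_F0 _ (by simp only [Dat.del]; omega), inv_mul_cancel₀ hs0, one_pow, pow_zero,
        mul_one, mul_one, map_pow, map_prod, Finset.prod_eq_one, one_pow] at h4
      · exact lt_irrefl _ h4
      · intro j _
        have e : c.s⁻¹ * c.l j = c.y / c.s - algebraMap ℂ K (xx j) := by
          rw [l_def]; field_simp
        rw [e]
        exact le_antisymm (O.valuation.map_sub_le hx (v_alg_le O _))
          (not_lt.1 (not_exists.1 hj j))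
  · exfalso
    have h1 : 1 < O.valuation c.y := by
      by_contra h1
      exact h ⟨hys.le.trans (not_lt.1 h1), not_lt.1 h1⟩
    have hy0 : c.y ≠ 0 := by rintro h0; simp [h0] at h1
    have hu : O.valuation c.y⁻¹ < 1 := by rw [map_inv₀]; exact inv_lt_one_of_one_lt₀ h1
    have hx : O.valuation (c.y⁻¹ * c.s) < 1 := by
      rw [← div_eq_inv_mul, map_div₀]; exact (div_lt_one₀ (hvs.trans hys)).2 hys
    obtain ⟨-, h3⟩ := c.closed_pt O hG (inv_ne_zero hy0) (Cst.of_lt O hu) (Cst.of_lt O hx)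
      (by rw [inv_mul_cancel₀ hy0]; exact (CA O).one_mem)
    have h4 := h3 _ (c.d.F0_mem (a := 0) (b := c.d.del - 4 * c.d.n0)
      (by simp only [Dat.del]; omega))
    rw [c.hom_F0 _ (by simp only [Dat.del]; omega), inv_mul_cancel₀ hy0, one_pow, pow_zero,
      mul_one, mul_one, map_pow, map_prod, Finset.prod_eq_one, one_pow] at h4
    · exact lt_irrefl _ h4
    · intro j _
      have e : c.y⁻¹ * c.l j = 1 + -(algebraMap ℂ K (xx j) * (c.y⁻¹ * c.s)) := by
        rw [l_def]; field_simp; ring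
      rw [e, v_add_eq O, map_one]
      rw [Valuation.map_neg, map_one]
      exact v_mul_lt' O (v_alg_le O _) hx

end Ctx

end Crest.Agent.R278
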