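import Crest.Agent.R278.Poly

/-!
Row 278: the package of polynomial data used by the geometric argument.
-/

set_option autoImplicit false

open Polynomial

noncomputable section

namespace Crest.Agent.R278

/-- the polynomial data -/
structure Dat where
  q : Fin 4 → Fin 4 → ℂ[X]
  m : Fin 4 → Fin 4 → ℕ
  dq : Fin 4 → Fin 4 → ℕ
  mu : Fin 2 → Fin 4 → Fin 4 → ℕ
  nu : Fin 2 → Fin 4 → Fin 4 → ℕ
  tau : Fin 2 → Fin 4 → Fin 4 → ℕ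
  tT : Fin 4 → Fin 4 → ℕ
  ph : Fin 2 → Fin 4 → ℕ
  N : ℕ
  e : ℕ
  M : ℕ
  n0 : ℕ
  k : Fin 4 → Fin 4 → ℕ
  kap : ℂ
  vx : Fin 2 → R
  vy : Fin 2 → R
  T : Fin 2 → R
  TT : R
  q0 : ∀ j g, (q j g).eval 0 = 1
  qcop : ∀ j g g' (σ : ℂ), g ≠ g' → (q j g).eval σ = 0 → (q j g').eval σ ≠ 0
  qdeg : ∀ j g, (q j g).natDegree ≤ dq j g
  kap_ne : kap ≠ 0
  N_pos : 0 < N
  M_pos : 0 < M
  newtT : ∀ i, Newt q m (tau i) e (T i)
  newtTT : Newt q m tT 11 TT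
  dvx : ∀ i, Dg 8 (vx i)
  dcr : ∀ i, Dg 8 (XX * vy i - YY * vx i)
  wedge : vx 0 * vy 1 - vy 0 * vx 1 = algebraMap ℂ R kap * TT * FF
  loc : ∀ i j, ∃ (E : R) (rr lin : ℂ[X]), res j (vx i) = X * (rr * DD (q j) (mu i j)) ∧
    vy i - algebraMap ℂ R (xx j) * vx i = ell j * E ∧
    (res j E - rr * DD (q j) (mu i j)) * DD (q j) (m j) -
      X * (rr * DD (q j) (mu i j)) * derivative (DD (q j) (m j)) =
      DD (q j) (m j) * (DD (q j) (nu i j) * lin)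
  mu_le : ∀ i j g, mu i j g ≤ m j g
  nu_le : ∀ i j g, nu i j g + 1 ≤ m j g
  sum_ph : ∀ i, ∑ j, ph i j + 6 * N = e
  ph_pos : ∀ i, 0 < ph i 0
  typ : ∀ j g,
    ((∀ i, mu i j g ≤ nu i j g ∧ tau i j g = N * mu i j g + ph i j * m j g) ∧
      tT j g = mu 0 j g + mu 1 j g) ∨
    (∃ o o' : Fin 2, o ≠ o' ∧ (∃ c : ℂ, q j g = 1 + C c * X) ∧ mu o j g = 1 ∧ mu o' j g = 1 ∧
      nu o' j g = 1 ∧ tau o j g = ph o j * m j g ∧ 2 * tau o' j g = N + 2 * (ph o' j * m j g) ∧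
      tT j g = 1)
  km : ∀ j g, k j g * m j g = M * (tT j g + tau 0 j g + tau 1 j g)
  n0m : ∀ j g, M * (tT j g + tau 0 j g + tau 1 j g) ≤ n0 * m j g
  n0d : 4 * n0 + 1 ≤ M * (11 + e + e)
  bud : ∀ j g, k j g + 3 * n0 +
    (∑ g', dq j g' * (M * (tT j g' + tau 0 j g' + tau 1 j g') - k j g * m j g')) + 1 ≤
      M * (11 + e + e)

end Crest.Agent.R278
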