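import Crest.Agent.R278.Val
import Crest.Agent.R278.Dat

/-!
Row 278: the geometric context and basic computations.
-/

set_option autoImplicit false

open Polynomial IntermediateField

noncomputable section

namespace Crest.Agent.R278

namespace Dat
variable (d : Dat)

def num (i : Fin 2) : R := ∏ j, ell j ^ d.ph i j
def tΘ (j g : Fin 4) : ℕ := d.M * (d.tT j g + d.tau 0 j g + d.tau 1 j g)
def del : ℕ := d.M * (11 + d.e + d.e)
def Θ : R := (d.TT * d.T 0 * d.T 1) ^ d.M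
def fg (j g : Fin 4) : R :=
  ell j ^ d.k j g * Fc j ^ d.n0 * up (DD (d.q j) fun g' => d.tΘ j g' - d.k j g * d.m j g')
def Num : Set R :=
  {f | (∃ a b, a + b + 4 * d.n0 ≤ d.del ∧ f = FF ^ d.n0 * XX ^ a * YY ^ b) ∨
    ∃ j g, f = d.fg j g ∨ f = d.fg j g * XX}

lemma num_ne (i : Fin 2) : d.num i ≠ 0 :=
  Finset.prod_ne_zero_iff.2 fun j _ => pow_ne_zero _ (ell_ne j)

lemma newt_ne {t : Fin 4 → Fin 4 → ℕ} {e : ℕ} {f : R} (h : Newt d.q d.m t e f) : f ≠ 0 := by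
  rintro rfl
  exact DD_ne (d.q0 0) _ (by simpa using (h.res_eq 0).symm)

lemma T_ne (i : Fin 2) : d.T i ≠ 0 := d.newt_ne (d.newtT i)
lemma TT_ne : d.TT ≠ 0 := d.newt_ne d.newtTT
lemma Θ_ne : d.Θ ≠ 0 := pow_ne_zero _ (mul_ne_zero (mul_ne_zero d.TT_ne (d.T_ne 0)) (d.T_ne 1))

lemma tΘ_pos (j g : Fin 4) : 0 < d.tΘ j g :=
  Nat.mul_pos d.M_pos (by have := d.newtTT.pos j g; omega)

lemma km' (j g : Fin 4) : d.k j g * d.m j g = d.tΘ j g := d.km j g

lemma k_pos (j g : Fin 4) : 0 < d.k j g := by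
  have := d.tΘ_pos j g
  rw [← d.km'] at this
  exact Nat.pos_of_mul_pos_right this

lemma m_pos (j g : Fin 4) : 0 < d.m j g := by have := d.nu_le 0 j g; omega

lemma n0_pos : 0 < d.n0 := Nat.pos_of_mul_pos_right ((d.tΘ_pos 0 0).trans_le (d.n0m 0 0))

lemma res_Θ (j : Fin 4) : res j d.Θ = DD (d.q j) (d.tΘ j) := by
  rw [Θ, map_pow, map_mul, map_mul, d.newtTT.res_eq, (d.newtT 0).res_eq, (d.newtT 1).res_eq,
    ← DD_add, ← DD_add, ← DD_mul]
  rfl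

lemma Num_finite : d.Num.Finite := by
  have h1 : {f : R | ∃ a b, a + b + 4 * d.n0 ≤ d.del ∧ f = FF ^ d.n0 * XX ^ a * YY ^ b}.Finite := by
    refine (((Set.finite_le_nat d.del).prod (Set.finite_le_nat d.del)).image
      fun p => FF ^ d.n0 * XX ^ p.1 * YY ^ p.2).subset ?_
    rintro _ ⟨a, b, hab, rfl⟩
    exact ⟨(a, b), ⟨by simp; omega, by simp; omega⟩, rfl⟩
  have h2 : {f : R | ∃ j g, f = d.fg j g ∨ f = d.fg j g * XX}.Finite := by
    refine ((Set.finite_range fun p : Fin 4 × Fin 4 => d.fg p.1 p.2).union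
      (Set.finite_range fun p : Fin 4 × Fin 4 => d.fg p.1 p.2 * XX)).subset ?_
    rintro _ ⟨j, g, rfl | rfl⟩
    · exact Or.inl ⟨(j, g), rfl⟩
    · exact Or.inr ⟨(j, g), rfl⟩
  exact h1.union h2

lemma fg_deg (j g : Fin 4) : Dg (d.del - 1) (d.fg j g) := by
  refine ((((Dg.ell j).pow _).mul ((Dg.fc j).pow _)).mul
    (Dg.up (DD_natDegree_le (d.qdeg j) _))).mono ?_
  have := d.bud j g
  simp only [del, tΘ]
  omega

lemma del_pos : 1 ≤ d.del := by have := d.n0d; simp only [del]; omega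

variable {d} in
lemma Num_deg {f : R} (hf : f ∈ d.Num) : Dg d.del f := by
  obtain ⟨a, b, hab, rfl⟩ | ⟨j, g, rfl | rfl⟩ := hf
  · exact (((Dg.ff.pow _).mul (Dg.xX.pow _)).mul (Dg.yY.pow _)).mono (by omega)
  · exact (d.fg_deg j g).mono (by omega)
  · exact ((d.fg_deg j g).mul Dg.xX).mono (by have := d.del_pos; omega)

lemma fg_newt (j g l : Fin 4) : ∃ (a : ℕ) (p : ℂ[X]) (ρ : R), 0 < a ∧
    d.fg j g = ell l ^ a * up p * ρ ∧ DD (d.q l) (d.tΘ l) ∣ DD (d.q l) (d.m l) ^ a * p := by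
  by_cases h : l = j
  · subst h
    refine ⟨d.k l g, DD (d.q l) fun g' => d.tΘ l g' - d.k l g * d.m l g', Fc l ^ d.n0,
      d.k_pos l g, by rw [fg]; ring, ?_⟩
    rw [← DD_mul, ← DD_add]
    exact DD_dvd _ fun g' => by omega
  · obtain ⟨c, hc⟩ := ell_dvd_Fc h
    refine ⟨d.n0, 1, ell j ^ d.k j g * c ^ d.n0 *
      up (DD (d.q j) fun g' => d.tΘ j g' - d.k j g * d.m j g'), d.n0_pos, ?_, ?_⟩
    · rw [fg, hc, map_one]; ring
    · rw [← DD_mul, mul_one]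
      exact DD_dvd _ fun g' => d.n0m l g'

variable {d} in
lemma Num_newt {f : R} (hf : f ∈ d.Num) (l : Fin 4) : ∃ (a : ℕ) (p : ℂ[X]) (ρ : R), 0 < a ∧
    f = ell l ^ a * up p * ρ ∧ DD (d.q l) (d.tΘ l) ∣ DD (d.q l) (d.m l) ^ a * p := by
  obtain ⟨a, b, hab, rfl⟩ | ⟨j, g, rfl | rfl⟩ := hf
  · refine ⟨d.n0, 1, Fc l ^ d.n0 * XX ^ a * YY ^ b, d.n0_pos, ?_, ?_⟩
    · rw [← ell_mul_Fc l, map_one]; ring
    · rw [← DD_mul, mul_one]
      exact DD_dvd _ fun g' => d.n0m l g'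
  · exact d.fg_newt j g l
  · obtain ⟨a, p, ρ, h0, h1, h2⟩ := d.fg_newt j g l
    exact ⟨a, p, ρ * XX, h0, by rw [h1]; ring, h2⟩

variable {d} in
lemma Num_dvd {f : R} (hf : f ∈ d.Num) (l : Fin 4) : ell l ∣ f := by
  obtain ⟨a, p, ρ, h0, rfl, -⟩ := Num_newt hf l
  exact ((dvd_pow_self _ h0.ne').mul_right _).mul_right _

lemma F0_mem {a b : ℕ} (h : a + b + 4 * d.n0 ≤ d.del) : FF ^ d.n0 * XX ^ a * YY ^ b ∈ d.Num :=
  Or.inl ⟨a, b, h, rfl⟩

end Dat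

/-- the geometric context -/
structure Ctx (K : Type) [Field K] [Algebra ℂ K] where
  d : Dat
  φ : R →ₐ[ℂ] K
  h : Fin 2 → K
  V : Fin 2 → Derivation ℂ K K
  pkg : FieldPkg d.N d.num d.T K φ h
  Vx : ∀ i, V i (φ XX) = φ (d.vx i)
  Vy : ∀ i, V i (φ YY) = φ (d.vy i)
  VR : ∀ i r, ∃ r', V i (φ r) = φ r'

variable {K : Type} [Field K] [Algebra ℂ K]

lemma br_smul (d0 d1 : Derivation ℂ K K) (a0 a1 a b : K) :
    br (a0 • d0) (a1 • d1) a b = a0 * a1 * br d0 d1 a b := by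
  simp [br]; ring

namespace Ctx
variable (c : Ctx K)

def s : K := c.φ XX
def y : K := c.φ YY
def l (j : Fin 4) : K := c.φ (ell j)
def D (j : Fin 4) (t : Fin 4 → ℕ) : K := aeval c.s (DD (c.d.q j) t)
def w (j : Fin 4) : K := c.l j / (c.s * c.D j (c.d.m j))
def δ (i : Fin 2) : Derivation ℂ K K := c.h i • c.V i
def S : Set K := (fun f => c.φ f / c.φ c.d.Θ) '' c.d.Num
def K0 : IntermediateField ℂ K := ℂ⟮c.s, c.y⟯
def bb (a b : K) : K := br (c.δ 0) (c.δ 1) a b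

lemma φ_ne {f : R} (hf : f ≠ 0) : c.φ f ≠ 0 := by
  rwa [Ne, map_eq_zero_iff _ c.pkg.inj]

lemma s_ne : c.s ≠ 0 := c.φ_ne XX_ne
lemma l_ne (j : Fin 4) : c.l j ≠ 0 := c.φ_ne (ell_ne j)
lemma Θ_ne : c.φ c.d.Θ ≠ 0 := c.φ_ne c.d.Θ_ne
lemma φ_up (p : ℂ[X]) : c.φ (up p) = aeval c.s p := phi_up _ _

lemma aeval_ne {p : ℂ[X]} (hp : p ≠ 0) : aeval c.s p ≠ 0 := by
  rw [← φ_up]
  refine c.φ_ne fun h => hp ?_
  rw [← res_up 0 p, h, map_zero]

lemma D_ne (j : Fin 4) (t : Fin 4 → ℕ) : c.D j t ≠ 0 := c.aeval_ne (DD_ne (c.d.q0 j) t)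
lemma w_ne (j : Fin 4) : c.w j ≠ 0 := div_ne_zero (c.l_ne j) (mul_ne_zero c.s_ne (c.D_ne j _))

lemma l_eq (j : Fin 4) : c.l j = c.w j * c.s * c.D j (c.d.m j) := by
  have := c.s_ne
  have := c.D_ne j (c.d.m j)
  rw [w]; field_simp

lemma l_def (j : Fin 4) : c.l j = c.y - algebraMap ℂ K (xx j) * c.s := by
  simp [l, ell, s, y]

lemma h_ne (i : Fin 2) : c.h i ≠ 0 := by
  intro h
  have := c.pkg.pow i
  rw [h, zero_pow c.d.N_pos.ne', zero_mul] at this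
  exact c.φ_ne (c.d.num_ne i) this.symm

lemma δ_apply (i : Fin 2) (a : K) : c.δ i a = c.h i * c.V i a := rfl

lemma res_split (j : Fin 4) (f : R) : ∃ ρ : R, c.φ f = aeval c.s (res j f) + c.l j * c.φ ρ := by
  obtain ⟨ρ, hρ⟩ := exists_res j f
  refine ⟨ρ, ?_⟩
  conv_lhs => rw [hρ]
  rw [map_add, map_mul, φ_up]; rfl

lemma s_mem_K0 : c.s ∈ c.K0 := subset_adjoin _ _ (by simp)
lemma y_mem_K0 : c.y ∈ c.K0 := subset_adjoin _ _ (by simp)
lemma φ_mem_K0 (f : R) : c.φ f ∈ c.K0 :=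
  phi_mem c.φ (A := c.K0.toSubalgebra) c.s_mem_K0 c.y_mem_K0 f

lemma K0_le {E : IntermediateField ℂ K} (hs : c.s ∈ E) (hy : c.y ∈ E) : c.K0 ≤ E := by
  rw [K0, adjoin_le_iff]
  rintro _ (rfl | rfl) <;> assumption

lemma hN_mem (i : Fin 2) : c.h i ^ c.d.N ∈ c.K0 := by
  rw [eq_div_of_mul_eq (c.φ_ne (c.d.T_ne i)) (c.pkg.pow i)]
  exact div_mem (c.φ_mem_K0 _) (c.φ_mem_K0 _)

lemma pure_pow {a : K} (ha : Pure c.φ c.h a) : a ^ c.d.N ∈ c.K0 := by
  obtain ⟨f, g, i, j, -, rfl⟩ := ha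
  rw [mul_pow, mul_pow, ← pow_mul, ← pow_mul, mul_comm i, mul_comm j, pow_mul, pow_mul]
  exact mul_mem (mul_mem (pow_mem (div_mem (c.φ_mem_K0 _) (c.φ_mem_K0 _)) _)
    (pow_mem (c.hN_mem 0) _)) (pow_mem (c.hN_mem 1) _)

lemma V_mem_K0 (i : Fin 2) (f g : R) : c.V i (c.φ f / c.φ g) ∈ c.K0 := by
  obtain ⟨f', hf⟩ := c.VR i f
  obtain ⟨g', hg⟩ := c.VR i g
  rw [Derivation.leibniz_div, hf, hg]
  simp only [smul_eq_mul]
  exact mul_mem (pow_mem (inv_mem (c.φ_mem_K0 _)) _)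
    (sub_mem (mul_mem (c.φ_mem_K0 _) (c.φ_mem_K0 _)) (mul_mem (c.φ_mem_K0 _) (c.φ_mem_K0 _)))

lemma Vs (i : Fin 2) : c.V i c.s = c.φ (c.d.vx i) := c.Vx i
lemma Vy' (i : Fin 2) : c.V i c.y = c.φ (c.d.vy i) := c.Vy i

lemma brV : br (c.V 0) (c.V 1) c.s c.y = algebraMap ℂ K c.d.kap * c.φ c.d.TT * c.φ FF := by
  rw [br, Vs, Vs, Vy', Vy', ← map_mul, ← map_mul, ← map_sub, c.d.wedge, map_mul, map_mul,
    AlgHom.commutes]

lemma brV_ne : br (c.V 0) (c.V 1) c.s c.y ≠ 0 := by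
  rw [brV]
  exact mul_ne_zero (mul_ne_zero (by simpa using c.d.kap_ne) (c.φ_ne c.d.TT_ne)) (c.φ_ne FF_ne)

lemma bb_eq (a b : K) : c.bb a b = c.h 0 * c.h 1 * br (c.V 0) (c.V 1) a b := br_smul _ _ _ _ _ _

lemma mem_S {f : R} (hf : f ∈ c.d.Num) : c.φ f / c.φ c.d.Θ ∈ c.S := ⟨f, hf, rfl⟩

lemma gen : Gen c.S where
  fin := c.d.Num_finite.image _
  trdeg := c.pkg.trdeg
  gen := by
    have hn := c.d.n0d
    have h0 : c.φ (FF ^ c.d.n0) / c.φ c.d.Θ ≠ 0 := div_ne_zero (c.φ_ne (pow_ne_zero _ FF_ne)) c.Θ_ne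
    have m0 : c.φ (FF ^ c.d.n0) / c.φ c.d.Θ ∈ adjoin ℂ c.S := subset_adjoin _ _
      (by simpa using c.mem_S (c.d.F0_mem (a := 0) (b := 0) (by simp only [Dat.del]; omega)))
    have m1 : c.φ (FF ^ c.d.n0) / c.φ c.d.Θ * c.s ∈ adjoin ℂ c.S := subset_adjoin _ _ (by
      have := c.mem_S (c.d.F0_mem (a := 1) (b := 0) (by simp only [Dat.del]; omega))
      simp only [pow_one, pow_zero, mul_one, map_mul] at this
      convert this using 1; rw [s]; ring)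
    have m2 : c.φ (FF ^ c.d.n0) / c.φ c.d.Θ * c.y ∈ adjoin ℂ c.S := subset_adjoin _ _ (by
      have := c.mem_S (c.d.F0_mem (a := 0) (b := 1) (by simp only [Dat.del]; omega))
      simp only [pow_one, pow_zero, mul_one, map_mul] at this
      convert this using 1; rw [y]; ring)
    have hs : c.s ∈ adjoin ℂ c.S := by
      have := div_mem m1 m0
      rwa [mul_div_cancel_left₀ _ h0] at this
    have hy : c.y ∈ adjoin ℂ c.S := by
      have := div_mem m2 m0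
      rwa [mul_div_cancel_left₀ _ h0] at this
    refine ⟨_, Set.toFinite _, c.pkg.gen, ?_⟩
    rintro _ (rfl | rfl | rfl | rfl)
    · exact ⟨1, one_pos, by rw [pow_one]; exact hs⟩
    · exact ⟨1, one_pos, by rw [pow_one]; exact hy⟩
    · exact ⟨_, c.d.N_pos, c.K0_le hs hy (c.hN_mem 0)⟩
    · exact ⟨_, c.d.N_pos, c.K0_le hs hy (c.hN_mem 1)⟩

/-- reduction of the stability of `WW S` to pure elements -/
lemma avg (O : ValuationSubring K) (δ : Derivation ℂ K K)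
    (h : ∀ a ∈ WW c.S, Pure c.φ c.h a → O.valuation (δ a) ≤ 1) :
    ∀ a ∈ WW c.S, O.valuation (δ a) ≤ 1 := by
  let U : AddSubmonoid K :=
    { carrier := {a | O.valuation (δ a) ≤ 1}
      add_mem' := fun {a b} ha hb => by
        have : O.valuation (δ (a + b)) ≤ 1 := by
          rw [map_add]; exact O.valuation.map_add_le ha hb
        exact this
      zero_mem' := by simp }
  refine c.pkg.avg (WW c.S).toSubmodule U (fun σ hσ a ha O' hO' => ?_) h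
  have : Over c.S (O'.comap (σ : K →+* K)) := by
    refine ⟨fun z => ?_, ?_⟩
    · rw [ValuationSubring.mem_comap]
      simpa using hO'.1 z
    · rintro _ ⟨f, hf, rfl⟩
      rw [ValuationSubring.mem_comap]
      have := hO'.2 _ (c.mem_S hf)
      simpa [hσ] using this
  exact ha _ this

lemma tame {O : ValuationSubring K} (hO : Over c.S O) {u z : K} (hu : u ∈ WW c.S)
    (h1 : O.valuation u = 1) (huz : u * z ∈ WW c.S) (hz : O.valuation z ≤ 1) : Tame c.S O z := by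
  intro D hD
  have hu0 : u ≠ 0 := by rintro rfl; simp at h1
  have e : D z = (D (u * z) - z * D u) / u := by
    rw [Derivation.leibniz]; simp only [smul_eq_mul]; field_simp; ring
  rw [← O.valuation_le_one_iff, e, map_div₀, h1, div_one]
  refine O.valuation.map_sub_le ?_ (v_mul_le O hz ?_)
  · exact (O.valuation_le_one_iff _).2 (hD _ huz O hO)
  · exact (O.valuation_le_one_iff _).2 (hD _ hu O hO)

lemma tame_of_mem {O : ValuationSubring K} (hO : Over c.S O) {z : K} (hz : z ∈ WW c.S) :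
    Tame c.S O z := fun _ hD => hD _ hz O hO

/-! ### Newton shape: algebraic consequence in the chart `(w, s)` -/

lemma φ_mem_chart {A : Subalgebra ℂ K} (j : Fin 4) (hs : c.s ∈ A) (hw : c.w j ∈ A) (f : R) :
    c.φ f ∈ A := by
  refine phi_mem c.φ hs ?_ f
  have : c.φ YY = c.w j * c.s * c.D j (c.d.m j) + algebraMap ℂ K (xx j) * c.s := by
    rw [← l_eq, l_def]; simp [y]
  rw [this]
  exact A.add_mem (A.mul_mem (A.mul_mem hw hs) (aeval_mem hs _))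
    (A.mul_mem (A.algebraMap_mem _) hs)

lemma D_add (j : Fin 4) (t t' : Fin 4 → ℕ) :
    c.D j (fun g => t g + t' g) = c.D j t * c.D j t' := by
  rw [D, DD_add, map_mul]; rfl

lemma D_mul (j : Fin 4) (n : ℕ) (t : Fin 4 → ℕ) : c.D j (fun g => n * t g) = c.D j t ^ n := by
  rw [D, DD_mul, map_pow]; rfl

lemma newt_near {t : Fin 4 → Fin 4 → ℕ} {e : ℕ} {f : R} (h : Newt c.d.q c.d.m t e f)
    {A : Subalgebra ℂ K} (j : Fin 4) (hs : c.s ∈ A) (hw : c.w j ∈ A) :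
    ∃ ρ ∈ A, c.φ f = c.D j (t j) * (1 + c.D j (fun _ => 1) * ρ) := by
  have key : ∀ z ∈ NI j (c.d.q j) (c.d.m j) (t j),
      ∃ ρ ∈ A, c.φ z = c.D j (t j) * c.D j (fun _ => 1) * ρ := by
    intro z hz
    induction hz using Submodule.span_induction with
    | mem z hz =>
      obtain ⟨n, hn, rfl⟩ := hz
      obtain ⟨p, hp⟩ : DD (c.d.q j) (fun g => t j g + 1) ∣
          DD (c.d.q j) fun g => n * c.d.m j g + (t j g + 1 - n * c.d.m j g) :=
        DD_dvd _ fun g => by omega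
      have hp' := congrArg (aeval c.s) hp
      rw [map_mul] at hp'
      change c.D j _ = c.D j _ * _ at hp'
      rw [D_add, D_add, D_mul] at hp'
      refine ⟨c.w j ^ n * c.s ^ n * aeval c.s p,
        A.mul_mem (A.mul_mem (A.pow_mem hw _) (A.pow_mem hs _)) (aeval_mem hs _), ?_⟩
      rw [map_mul, map_pow, φ_up]
      change c.l j ^ n * c.D j _ = _
      rw [l_eq, mul_pow, mul_pow]
      linear_combination c.w j ^ n * c.s ^ n * hp'
    | zero => exact ⟨0, A.zero_mem, by simp⟩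
    | add x y _ _ hx hy =>
      obtain ⟨a, ha, ha'⟩ := hx
      obtain ⟨b, hb, hb'⟩ := hy
      exact ⟨a + b, A.add_mem ha hb, by rw [map_add, ha', hb']; ring⟩
    | smul r x _ hx =>
      obtain ⟨a, ha, ha'⟩ := hx
      exact ⟨c.φ r * a, A.mul_mem (c.φ_mem_chart j hs hw r) ha, by
        rw [smul_eq_mul, map_mul, ha']; ring⟩
  obtain ⟨ρ, h1, h2⟩ := key _ (h.mem j)
  rw [map_sub, φ_up] at h2
  exact ⟨ρ, h1, by rw [D]; rw [D] at h2; linear_combination h2⟩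

end Ctx

end Crest.Agent.R278
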