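import Crest.Agent.R278.Dat

/-!
Row 278: the explicit data.
-/

set_option autoImplicit false

open Polynomial

noncomputable section

namespace Crest.Agent.R278

namespace Ex

def pol (c : Fin 5 → ℂ) : ℂ[X] :=
  C (c 0) + C (c 1) * X + C (c 2) * X ^ 2 + C (c 3) * X ^ 3 + C (c 4) * X ^ 4

lemma pol_jet (c : Fin 5 → ℂ) (h : c 0 = 1) : Jet (pol c) (c 1) (c 2 - c 1 ^ 2 / 2) := by
  refine ⟨C (c 3) + C (c 4) * X, ?_⟩
  rw [show c 1 ^ 2 / 2 + (c 2 - c 1 ^ 2 / 2) = c 2 by ring, pol, h]; ring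

lemma pol_eval (c : Fin 5 → ℂ) (s : ℂ) :
    (pol c).eval s = c 0 + c 1 * s + c 2 * s ^ 2 + c 3 * s ^ 3 + c 4 * s ^ 4 := by
  simp [pol]

lemma pol_deval (c : Fin 5 → ℂ) (s : ℂ) :
    (derivative (pol c)).eval s = c 1 + 2 * c 2 * s + 3 * c 3 * s ^ 2 + 4 * c 4 * s ^ 3 := by
  simp [pol]; ring

lemma pol_deg (c : Fin 5 → ℂ) : (pol c).natDegree ≤ 4 := by
  unfold pol; compute_degree

def qA : Fin 4 → Fin 5 → ℂ :=
  ![![1, 247/6, 0, 0, 0], ![1, -1477/12, 639852121/55296, 0, 0],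
    ![1, -3485/288, 0, 0, 0], ![1, -19667/288, 0, 0, 0]]
def qB : Fin 4 → Fin 5 → ℂ :=
  ![![1, 89/6, 194837/12, -16796732477507/1889568, -2217953012399215735/5804752896],
    ![1, -2855/18, 0, 0, 0], ![1, 0, 0, 0, 0], ![1, 0, 0, 0, 0]]
def qc : Fin 4 → Fin 4 → Fin 5 → ℂ := ![qA, qB, qA, qB]
def q (j g : Fin 4) : ℂ[X] := pol (qc j g)
def m : Fin 4 → Fin 4 → ℕ := ![![9, 4, 6, 6], ![5, 9, 9, 9], ![9, 4, 6, 6], ![5, 9, 9, 9]]
def dq : Fin 4 → Fin 4 → ℕ := ![![1, 2, 1, 1], ![4, 1, 0, 0], ![1, 2, 1, 1], ![4, 1, 0, 0]]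
def mu : Fin 2 → Fin 4 → Fin 4 → ℕ :=
  ![![![1, 1, 2, 1], ![1, 1, 1, 1], ![1, 1, 1, 2], ![1, 2, 1, 1]],
    ![![1, 1, 1, 2], ![1, 2, 1, 1], ![1, 1, 2, 1], ![1, 1, 1, 1]]]
def nu : Fin 2 → Fin 4 → Fin 4 → ℕ :=
  ![![![0, 1, 2, 1], ![1, 1, 1, 1], ![1, 1, 1, 2], ![1, 2, 1, 1]],
    ![![1, 1, 1, 2], ![1, 2, 1, 1], ![0, 1, 2, 1], ![1, 1, 1, 1]]]
def tau : Fin 2 → Fin 4 → Fin 4 → ℕ :=
  ![![![99, 334, 646, 356], ![345, 389, 389, 389], ![199, 314, 326, 616], ![295, 589, 299, 299]],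
    ![![199, 314, 326, 616], ![295, 589, 299, 299], ![99, 334, 646, 356], ![345, 389, 389, 389]]]
def tT : Fin 4 → Fin 4 → ℕ := ![![1, 2, 3, 3], ![2, 3, 2, 2], ![1, 2, 3, 3], ![2, 3, 2, 2]]
def ph : Fin 2 → Fin 4 → ℕ := ![![11, 11, 6, 1], ![6, 1, 11, 11]]
def k (j g : Fin 4) : ℕ := 180 / m j g * (tT j g + tau 0 j g + tau 1 j g)
def kap : ℂ := -29/882
def rc : Fin 2 → Fin 4 → Fin 5 → ℂ :=
  ![![![1, -61/3, 0, 0, 0], ![1, 140/3, -13480/3, 0, 0], ![1, -125/6, 0, 0, 0],
      ![1, -140/3, 0, 0, 0]],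
    ![![1, -125/6, 0, 0, 0], ![1, -140/3, 0, 0, 0], ![1, -61/3, 0, 0, 0],
      ![1, 140/3, -13480/3, 0, 0]]]
def dr : Fin 2 → Fin 4 → ℕ := ![![1, 2, 1, 1], ![1, 1, 1, 2]]
def lc : Fin 2 → Fin 4 → Fin 5 → ℂ :=
  ![![![0, 3625/6, 436943/18, 0, 0], ![0, 4060/3, 390920/3, 0, 0], ![0, 3625/6, 0, 0, 0],
      ![0, 4060/3, 0, 0, 0]],
    ![![0, 3625/6, 0, 0, 0], ![0, 4060/3, 0, 0, 0], ![0, 3625/6, 436943/18, 0, 0],
      ![0, 4060/3, 390920/3, 0, 0]]]
def gc : Fin 2 → Fin 4 → Fin 5 → ℂ :=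
  ![![![-1/2, 149104991591/15427584, -40338875807249041/35545153536,
        220517092750116845413/10237004218368, -6854875249139047160585/61422025310208],
      ![-1/2, 738856786531/17356032, -1261339908518887/1481048064,
        -2663379744101391649781/2879157436416, -48709990848921733668065/1079684038656],
      ![-1/2, -145663354727/15427584, 58696861646734561/35545153536,
        -793953154199361818107/10237004218368, 4707891303547548686515/7677753163776],
      ![-1/2, -734984945059/17356032, 461122509739908061/39988297728,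
        -805070748275495079415/2879157436416, -3962377773759376416944275/51824833855488]],
    ![![1/2, 145663354727/15427584, -58696861646734561/35545153536,
        793953154199361818107/10237004218368, -4707891303547548686515/7677753163776],
      ![1/2, 734984945059/17356032, -461122509739908061/39988297728,
        805070748275495079415/2879157436416, 3962377773759376416944275/51824833855488],
      ![1/2, -149104991591/15427584, 40338875807249041/35545153536,
        -220517092750116845413/10237004218368, 6854875249139047160585/61422025310208],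
      ![1/2, -738856786531/17356032, 1261339908518887/1481048064,
        2663379744101391649781/2879157436416, 48709990848921733668065/1079684038656]]]
def g0 : Fin 2 → ℂ := ![-1/2, 1/2]

def rr (i : Fin 2) (j : Fin 4) : ℂ[X] := pol (rc i j)
def gg (i : Fin 2) (j : Fin 4) : ℂ[X] := pol (gc i j)
def lin (i : Fin 2) (j : Fin 4) : ℂ[X] := pol (lc i j)
def pp (i : Fin 2) (j : Fin 4) : ℂ[X] := rr i j * DD (q j) (mu i j)

lemma qc0 (j g : Fin 4) : qc j g 0 = 1 := by
  fin_cases j <;> fin_cases g <;> rfl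
lemma rc0 (i : Fin 2) (j : Fin 4) : rc i j 0 = 1 := by
  fin_cases i <;> fin_cases j <;> rfl
lemma gc0 (i : Fin 2) (j : Fin 4) : gc i j 0 = g0 i := by
  fin_cases i <;> fin_cases j <;> rfl

lemma q0 (j g : Fin 4) : (q j g).eval 0 = 1 := by simp [q, pol_eval, qc0]

lemma qdeg (j g : Fin 4) : (q j g).natDegree = dq j g := by
  fin_cases j <;> fin_cases g <;> simp [q, qc, qA, qB, dq, pol] <;> compute_degree!

lemma rdeg (i : Fin 2) (j : Fin 4) : (rr i j).natDegree ≤ dr i j := by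
  fin_cases i <;> fin_cases j <;> simp [rr, rc, dr, pol] <;> compute_degree

lemma qcopA (g g' : Fin 4) (σ : ℂ) (h : g ≠ g') (h1 : (pol (qA g)).eval σ = 0) :
    (pol (qA g')).eval σ ≠ 0 := by
  intro h2
  rw [pol_eval] at h1 h2
  have e0 : 1 + 247 / 6 * σ = 0 → σ = -6 / 247 := fun h => by linear_combination 6 / 247 * h
  have e2 : 1 + -3485 / 288 * σ = 0 → σ = 288 / 3485 := fun h => by
    linear_combination -288 / 3485 * h
  have e3 : 1 + -19667 / 288 * σ = 0 → σ = 288 / 19667 := fun h => by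
    linear_combination -288 / 19667 * h
  fin_cases g <;> fin_cases g' <;> simp [qA] at h h1 h2 <;>
    first
      | (have := e0 h1; subst this; norm_num at h2)
      | (have := e2 h1; subst this; norm_num at h2)
      | (have := e3 h1; subst this; norm_num at h2)
      | (have := e0 h2; subst this; norm_num at h1)
      | (have := e2 h2; subst this; norm_num at h1)
      | (have := e3 h2; subst this; norm_num at h1)

lemma qcopB (g g' : Fin 4) (σ : ℂ) (h : g ≠ g') (h1 : (pol (qB g)).eval σ = 0) :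
    (pol (qB g')).eval σ ≠ 0 := by
  intro h2
  rw [pol_eval] at h1 h2
  have e0 : 1 + -2855 / 18 * σ = 0 → σ = 18 / 2855 := fun h => by
    linear_combination -18 / 2855 * h
  fin_cases g <;> fin_cases g' <;> simp [qB] at h h1 h2 <;>
    first
      | (have := e0 h1; subst this; norm_num at h2)
      | (have := e0 h2; subst this; norm_num at h1)

lemma qcop (j g g' : Fin 4) (σ : ℂ) (h : g ≠ g') (h1 : (q j g).eval σ = 0) :
    (q j g').eval σ ≠ 0 := by
  fin_cases j
  · exact qcopA g g' σ h h1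
  · exact qcopB g g' σ h h1
  · exact qcopA g g' σ h h1
  · exact qcopB g g' σ h h1

lemma DD_eval (j : Fin 4) (t : Fin 4 → ℕ) (s : ℂ) : (DD (q j) t).eval s =
    (q j 0).eval s ^ t 0 * (q j 1).eval s ^ t 1 * (q j 2).eval s ^ t 2 * (q j 3).eval s ^ t 3 := by
  simp [DD, Fin.prod_univ_four]

lemma idT (j : Fin 4) : pp 0 j * gg 1 j - pp 1 j * gg 0 j = DD (q j) (tT j) := by
  apply Polynomial.funext
  intro s
  simp only [pp, eval_sub, eval_mul, DD_eval, q, rr, gg, pol_eval]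
  fin_cases j <;> simp [qc, qA, qB, rc, gc, mu, tT] <;> ring

/-- numerator of the logarithmic derivative -/
def Lam (q : Fin 4 → ℂ[X]) (m : Fin 4 → ℕ) : ℂ[X] :=
  (m 0 : ℂ[X]) * derivative (q 0) * q 1 * q 2 * q 3 + m 1 * derivative (q 1) * q 0 * q 2 * q 3 +
    m 2 * derivative (q 2) * q 0 * q 1 * q 3 + m 3 * derivative (q 3) * q 0 * q 1 * q 2

lemma dDD (q : Fin 4 → ℂ[X]) (m : Fin 4 → ℕ) (hm : ∀ g, 1 ≤ m g) :
    derivative (DD q m) * DD q (fun _ => 1) = DD q m * Lam q m := by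
  obtain ⟨a, ha⟩ := Nat.exists_eq_add_of_le' (hm 0)
  obtain ⟨b, hb⟩ := Nat.exists_eq_add_of_le' (hm 1)
  obtain ⟨c, hc⟩ := Nat.exists_eq_add_of_le' (hm 2)
  obtain ⟨d, hd⟩ := Nat.exists_eq_add_of_le' (hm 3)
  simp only [DD, Fin.prod_univ_four, Lam, ha, hb, hc, hd, derivative_mul, derivative_pow,
    Nat.add_sub_cancel, map_natCast]
  ring

lemma idn (i : Fin 2) (j : Fin 4) : C (kap * PP j) * X ^ 2 * gg i j -
    X * (rr i j * DD (q j) (fun g => mu i j g - 1)) * Lam (q j) (m j) =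
    DD (q j) (nu i j) * lin i j := by
  apply Polynomial.funext
  intro s
  simp only [Lam, eval_sub, eval_add, eval_mul, eval_pow, eval_C, eval_X, eval_natCast, DD_eval,
    q, rr, gg, lin, pol_eval, pol_deval]
  fin_cases i <;> fin_cases j <;> simp [qc, qA, qB, rc, gc, lc, mu, nu, m, kap, PP] <;> ring

lemma idn' (i : Fin 2) (j : Fin 4) : C (kap * PP j) * X ^ 2 * gg i j * DD (q j) (m j) -
    X * pp i j * derivative (DD (q j) (m j)) = DD (q j) (m j) * (DD (q j) (nu i j) * lin i j) := by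
  have h1 := dDD (q j) (m j) (by revert j; decide)
  have h2 : DD (q j) (mu i j) = DD (q j) (fun g => mu i j g - 1) * DD (q j) (fun _ => 1) := by
    rw [← DD_add]
    congr 1
    funext g
    have : 1 ≤ mu i j g := (by decide : ∀ i j g, 1 ≤ mu i j g) i j g
    omega
  rw [← idn, pp, h2]
  linear_combination (-X * rr i j * DD (q j) (fun g => mu i j g - 1)) * h1

lemma q_jet (j g : Fin 4) : Jet (q j g) (qc j g 1) (qc j g 2 - qc j g 1 ^ 2 / 2) :=
  pol_jet _ (qc0 j g)

lemma exists_G (i : Fin 2) : ∃ G : R, Dg 4 G ∧ ∀ j, res j G = gg i j := by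
  refine interp 4 (by norm_num) _ (g0 i) (fun j => gc i j 1) (fun j => gc i j 2)
    (fun j => pol_deg _) (fun j => ⟨C (gc i j 3) + C (gc i j 4) * X, ?_⟩) ?_ ?_ ?_
  · rw [gg, pol, gc0]; ring
  all_goals fin_cases i <;> simp [Fin.sum_univ_four, gc, PP, xx] <;> norm_num

lemma exists_P (i : Fin 2) :
    ∃ P : R, Dg 7 P ∧ ∀ j, res j P = pp i j + C (kap * PP j / 4) * X ^ 2 * gg i j := by
  refine interp 7 (by norm_num) _ 1 (fun j => rc i j 1 + ∑ g, mu i j g * qc j g 1)
    (fun j => (rc i j 1 + ∑ g, mu i j g * qc j g 1) ^ 2 / 2 + ((rc i j 2 - rc i j 1 ^ 2 / 2) +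
      ∑ g, mu i j g * (qc j g 2 - qc j g 1 ^ 2 / 2)) + kap * PP j / 4 * g0 i)
    (fun j => ?_) (fun j => ?_) ?_ ?_ ?_
  · refine (natDegree_add_le _ _).trans (max_le ?_ ?_)
    · refine natDegree_mul_le.trans ?_
      have h1 := rdeg i j
      have h2 := DD_natDegree_le (fun g => (qdeg j g).le) (mu i j)
      have h3 := (by decide : ∀ i j, dr i j + ∑ g, dq j g * mu i j g ≤ 7) i j
      omega
    · refine natDegree_mul_le.trans ?_
      have h1 := pol_deg (gc i j)
      have h2 : (C (kap * PP j / 4) * X ^ 2).natDegree ≤ 2 := by compute_degree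
      unfold gg; omega
  · obtain ⟨u, hu⟩ := (pol_jet _ (rc0 i j)).mul (Jet.dd (q_jet j) (mu i j))
    refine ⟨u + C (kap * PP j / 4) * (C (gc i j 1) + C (gc i j 2) * X + C (gc i j 3) * X ^ 2 +
      C (gc i j 4) * X ^ 3), ?_⟩
    rw [map_add _ _ (kap * PP j / 4 * g0 i), map_mul _ _ (g0 i), gg, pol, gc0, pp, rr]
    linear_combination hu
  all_goals fin_cases i <;>
    simp [Fin.sum_univ_four, rc, mu, qc, qA, qB, PP, xx, kap, g0] <;> norm_num

lemma nd_tau (i : Fin 2) (j : Fin 4) : (DD (q j) (tau i j)).natDegree = 1769 := by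
  rw [DD_natDegree (q0 j) (qdeg j)]; revert i j; decide

lemma exists_T (i : Fin 2) : ∃ T : R, Newt q m (tau i) 1769 T := by
  obtain ⟨T0, h0, h1⟩ : ∃ T0 : R, Dg 1769 T0 ∧ ∀ j, res j T0 = DD (q j) (tau i j) := by
    refine interp 1769 (by norm_num) _ 1 (fun j => ∑ g, tau i j g * qc j g 1)
      (fun j => (∑ g, tau i j g * qc j g 1) ^ 2 / 2 +
        ∑ g, tau i j g * (qc j g 2 - qc j g 1 ^ 2 / 2))
      (fun j => (nd_tau i j).le) (fun j => Jet.dd (q_jet j) (tau i j)) ?_ ?_ ?_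
    all_goals fin_cases i <;> simp [Fin.sum_univ_four, tau, qc, qA, qB, PP, xx] <;> norm_num
  obtain ⟨T, h2, h3⟩ := exists_newt q m (tau i) dq 1769 110 q0 (fun j g => (qdeg j g).le) T0 h0 h1
    ((by decide : ∀ i j g, tau i j g + 1 ≤ (110 + 1) * m j g) i)
    ((by decide +kernel : ∀ i, ∀ n < 110, ∀ j,
      ∑ g, dq j g * (tau i j g + 1 - (n + 1) * m j g) + 3 + 4 * (n + 1) ≤ 1769) i)
  exact ⟨T, h2, h3, nd_tau i, (by decide : ∀ i j g, 1 ≤ tau i j g) i⟩

lemma exists_E (j : Fin 4) : ∃ E : R,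
    algebraMap ℂ R (xx j) * (∑ l, Fc l) - ∑ l, algebraMap ℂ R (xx l) * Fc l = ell j * E ∧
      res j E = C (3 * PP j) * X ^ 2 := by
  set a : Fin 4 → R := fun l => algebraMap ℂ R (xx l) with ha
  have hr : ∀ l, res j (a l) = C (xx l) := fun l => res_alg _ _
  change ∃ E : R, a j * (∑ l, Fc l) - ∑ l, a l * Fc l = ell j * E ∧ _
  clear_value a
  fin_cases j
  · refine ⟨(a 0 - a 1) * ell 2 * ell 3 + (a 0 - a 2) * ell 1 * ell 3 +
      (a 0 - a 3) * ell 1 * ell 2, ?_, ?_⟩
    · simp [Fin.sum_univ_four, Fc]; ring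
    · simp only [map_add, map_mul, map_sub, hr, res_ell]; simp [xx, PP, map_ofNat]; ring
  · refine ⟨(a 1 - a 0) * ell 2 * ell 3 + (a 1 - a 2) * ell 0 * ell 3 +
      (a 1 - a 3) * ell 0 * ell 2, ?_, ?_⟩
    · simp [Fin.sum_univ_four, Fc]; ring
    · simp only [map_add, map_mul, map_sub, hr, res_ell]; simp [xx, PP, map_ofNat]; ring
  · refine ⟨(a 2 - a 0) * ell 1 * ell 3 + (a 2 - a 1) * ell 0 * ell 3 +
      (a 2 - a 3) * ell 0 * ell 1, ?_, ?_⟩
    · simp [Fin.sum_univ_four, Fc]; ring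
    · simp only [map_add, map_mul, map_sub, hr, res_ell]; simp [xx, PP, map_ofNat]; ring
  · refine ⟨(a 3 - a 0) * ell 1 * ell 2 + (a 3 - a 1) * ell 0 * ell 2 +
      (a 3 - a 2) * ell 0 * ell 1, ?_, ?_⟩
    · simp [Fin.sum_univ_four, Fc]; ring
    · simp only [map_add, map_mul, map_sub, hr, res_ell]; simp [xx, PP, map_ofNat]; ring

lemma euler : YY * (∑ l, Fc l) - XX * ∑ l, algebraMap ℂ R (xx l) * Fc l = 4 * FF := by
  have : ∀ l, YY * Fc l - XX * (algebraMap ℂ R (xx l) * Fc l) = FF := fun l => by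
    rw [← ell_mul_Fc l, ell]; ring
  rw [Finset.mul_sum, Finset.mul_sum, ← Finset.sum_sub_distrib]
  simp only [this, Fin.sum_univ_four]; ring

lemma res_sumFc (j : Fin 4) : res j (∑ l, Fc l) = C (PP j) * X ^ 3 := by
  simpa using res_sum_Fc (fun _ => 1) j

end Ex

open Ex in
theorem exists_dat : Nonempty Dat := by
  choose G hGd hG using exists_G
  choose P hPd hP using exists_P
  choose T hT using exists_T
  have h4 : algebraMap ℂ R (kap / 4) * 4 = algebraMap ℂ R kap := by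
    rw [show (4 : R) = algebraMap ℂ R 4 from (map_ofNat _ 4).symm, ← map_mul]; congr 1; ring
  have hA : Dg 3 (∑ l, Fc l) := Dg.sum _ _ fun l _ => Dg.fc l
  refine ⟨{
    q := q, m := m, dq := dq, mu := mu, nu := nu, tau := tau, tT := tT, ph := ph, N := 290
    e := 1769, M := 180, n0 := 29250, k := k, kap := kap
    vx := fun i => P i * XX - algebraMap ℂ R (kap / 4) * (G i * ∑ l, Fc l)
    vy := fun i => P i * YY - algebraMap ℂ R (kap / 4) * (G i * ∑ l, algebraMap ℂ R (xx l) * Fc l)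
    T := T
    TT := P 0 * G 1 - P 1 * G 0
    q0 := q0
    qcop := qcop
    qdeg := fun j g => (qdeg j g).le
    kap_ne := by norm_num [kap]
    N_pos := by norm_num
    M_pos := by norm_num
    newtT := hT
    newtTT := ⟨((hPd 0).mul (hGd 1)).sub ((hPd 1).mul (hGd 0)), fun j => ?_, fun j => ?_,
      by decide⟩
    dvx := fun i => ((hPd i).mul Dg.xX).sub ((((hGd i).mul hA).mono (by norm_num)).cmul _)
    dcr := fun i => ?_
    wedge := ?_
    loc := fun i j => ?_
    mu_le := by decide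
    nu_le := by decide
    sum_ph := by decide
    ph_pos := by decide
    typ := fun j g => ?_
    km := by decide
    n0m := by decide
    n0d := by norm_num
    bud := by decide +kernel }⟩
  · obtain ⟨ρ, hρ⟩ := exists_res j (P 0 * G 1 - P 1 * G 0)
    have h1 : res j (P 0 * G 1 - P 1 * G 0) = DD (q j) (tT j) := by
      rw [map_sub, map_mul, map_mul, hP, hP, hG, hG, ← idT]; ring
    rw [h1] at hρ
    have h2 : ell j ^ 1 * up (DD (q j) fun g => tT j g + 1 - 1 * m j g) ∈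
      NI j (q j) (m j) (tT j) := Ideal.subset_span ⟨1, le_rfl, rfl⟩
    have h5 : (DD (q j) fun g => tT j g + 1 - 1 * m j g) = 1 := by
      refine Finset.prod_eq_one fun g _ => ?_
      have := (by decide : ∀ j g, tT j g + 1 - 1 * m j g = 0) j g
      simp only [this, pow_zero]
    rw [h5, map_one, mul_one, pow_one] at h2
    rw [hρ, add_sub_cancel_left]
    exact Ideal.mul_mem_right _ _ h2
  · rw [DD_natDegree (q0 j) (qdeg j)]; revert j; decide
  · have : XX * (P i * YY - algebraMap ℂ R (kap / 4) * (G i * ∑ l, algebraMap ℂ R (xx l) * Fc l)) -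
        YY * (P i * XX - algebraMap ℂ R (kap / 4) * (G i * ∑ l, Fc l)) =
        algebraMap ℂ R kap * (G i * FF) := by
      linear_combination algebraMap ℂ R (kap / 4) * G i * euler + G i * FF * h4
    simp only [this]
    exact ((hGd i).mul Dg.ff).cmul _
  · linear_combination algebraMap ℂ R (kap / 4) * (P 0 * G 1 - P 1 * G 0) * euler +
      (P 0 * G 1 - P 1 * G 0) * FF * h4
  · obtain ⟨E, hE, hE'⟩ := exists_E j
    have c1 : C (kap * PP j / 4) = C (kap / 4) * C (PP j) := by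
      rw [← map_mul]; congr 1; ring
    have c2 : C (kap * PP j) = C (kap / 4) * C (3 * PP j) + C (kap * PP j / 4) := by
      rw [← map_mul, ← map_add]; congr 1; ring
    refine ⟨P i + algebraMap ℂ R (kap / 4) * G i * E, rr i j, lin i j, ?_, ?_, ?_⟩
    · simp only [map_sub, map_mul, res_alg, res_XX, res_sumFc, hP, hG, c1, pp]; ring
    · simp only [ell] at hE ⊢
      linear_combination algebraMap ℂ R (kap / 4) * G i * hE
    · rw [← idn' i j, c2]
      simp only [map_add, map_mul, res_alg, hP, hG, hE', pp]; ring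
  · by_cases h : (j = 0 ∨ j = 2) ∧ g = 0
    · right
      obtain ⟨rfl | rfl, rfl⟩ := h
      · exact ⟨0, 1, by decide, ⟨247 / 6, by simp [q, qc, qA, pol]⟩, by decide⟩
      · exact ⟨1, 0, by decide, ⟨247 / 6, by simp [q, qc, qA, pol]⟩, by decide⟩
    · left
      revert j g; decide

end Crest.Agent.R278
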