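import Mathlib

/-!
Row 278 (Lipman-Zariski counterexample): basic definitions.
-/

set_option autoImplicit false

namespace Crest.Agent.R278

section Val
variable {K : Type} [Field K] [Algebra ℂ K]

/-- `O` contains the constants and the set `S`. -/
def Over (S : Set K) (O : ValuationSubring K) : Prop :=
  (∀ c : ℂ, algebraMap ℂ K c ∈ O) ∧ ∀ z ∈ S, z ∈ O

/-- `z` has constant residue at `O`. -/
def Cst (O : ValuationSubring K) (z : K) : Prop :=
  ∃ c : ℂ, O.valuation (z - algebraMap ℂ K c) < 1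

/-- valuation rings over `S` at which some element of `S` has a non-constant residue -/
def Good (S : Set K) (O : ValuationSubring K) : Prop :=
  Over S O ∧ ∃ z ∈ S, ¬ Cst O z

/-- intersection of all valuation rings over `S` (= integral closure of `ℂ[S]` in `K`) -/
def WW (S : Set K) : Subalgebra ℂ K where
  carrier := {z | ∀ O : ValuationSubring K, Over S O → z ∈ O}
  mul_mem' ha hb O hO := O.mul_mem _ _ (ha O hO) (hb O hO)
  add_mem' ha hb O hO := O.add_mem _ _ (ha O hO) (hb O hO)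
  algebraMap_mem' c _ hO := hO.1 c

lemma mem_WW {S : Set K} {z : K} :
    z ∈ WW S ↔ ∀ O : ValuationSubring K, Over S O → z ∈ O := Iff.rfl

lemma subset_WW {S : Set K} {z : K} (hz : z ∈ S) : z ∈ WW S := fun _ hO => hO.2 z hz

/-- the bracket (Jacobian determinant) of two elements w.r.t. two derivations -/
def br (d0 d1 : Derivation ℂ K K) (a b : K) : K := d0 a * d1 b - d0 b * d1 a

/-- every derivation preserving `WW S` maps `z` into `O` -/
def Tame (S : Set K) (O : ValuationSubring K) (z : K) : Prop :=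
  ∀ D : Derivation ℂ K K, (∀ a ∈ WW S, D a ∈ WW S) → D z ∈ O

/-- finiteness hypotheses on `S` and `K` -/
structure Gen (S : Set K) : Prop where
  fin : S.Finite
  trdeg : Algebra.trdeg ℂ K = 2
  gen : ∃ Z : Set K, Z.Finite ∧ IntermediateField.adjoin ℂ Z = ⊤ ∧
    ∀ z ∈ Z, ∃ n : ℕ, 0 < n ∧ z ^ n ∈ IntermediateField.adjoin ℂ S

end Val

/-- the conclusion of S0421 -/
def Goal : Prop :=
  ∃ (A : Type) (_ : CommRing A) (_ : Algebra ℂ A),
      IsDomain A ∧ Algebra.FiniteType ℂ A ∧ IsIntegrallyClosed A ∧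
      ringKrullDim A = 2 ∧
      Nonempty (Derivation ℂ A A ≃ₗ[A] (Fin 2 → A)) ∧
      ∃ (m : Ideal A) (_ : m.IsMaximal), ¬ IsRegularLocalRing (Localization.AtPrime m)

/-- polynomial ring of the plane -/
abbrev R : Type := MvPolynomial (Fin 2) ℂ

/-- pure elements of the Kummer extension -/
def Pure {K : Type} [Field K] [Algebra ℂ K] (φ : R →ₐ[ℂ] K) (h : Fin 2 → K) (a : K) : Prop :=
  ∃ (f g : R) (i j : ℕ), g ≠ 0 ∧ a = φ f / φ g * h 0 ^ i * h 1 ^ j

/-- statement of Noether normalisation for `WW S` -/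
def NoetherStmt : Prop :=
  ∀ (K : Type) [Field K] [Algebra ℂ K] (S : Set K), Gen S →
    ∃ g : R →ₐ[ℂ] K, Function.Injective g ∧ (∀ r, g r ∈ Algebra.adjoin ℂ S) ∧
      (letI : Algebra R K := g.toRingHom.toAlgebra
       (∀ z : K, z ∈ WW S ↔ IsIntegral R z) ∧ Algebra.IsAlgebraic R K ∧
         Module.Finite R (integralClosure R K))

/-- statement of the Hartogs lemma -/
def HartogsStmt : Prop :=
  ∀ (K : Type) [Field K] [Algebra ℂ K] (S : Set K), Gen S →
    ∀ f : K, (∀ O, Good S O → f ∈ O) → f ∈ WW S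

/-- statement of the abstract criterion -/
def AbstractStmt : Prop :=
  ∀ (K : Type) [Field K] [Algebra ℂ K] (S : Set K), Gen S →
    ∀ (d0 d1 : Derivation ℂ K K), (∀ a ∈ WW S, d0 a ∈ WW S) → (∀ a ∈ WW S, d1 a ∈ WW S) →
    (∃ a b, br d0 d1 a b ≠ 0) →
    (∀ O, Good S O → ∃ a b, Tame S O a ∧ Tame S O b ∧ O.valuation (br d0 d1 a b) = 1) →
    ∀ E : ValuationSubring K, Over S E → (∀ z ∈ S, E.valuation z < 1) →
    (∀ a ∈ WW S, E.valuation (d0 a) < 1) → (∀ a ∈ WW S, E.valuation (d1 a) < 1) → Goal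

/-- the properties of the Kummer extension `ℂ(X,Y)(h 0, h 1)` -/
structure FieldPkg (N : ℕ) (num den : Fin 2 → R) (K : Type) [Field K] [Algebra ℂ K]
    (φ : R →ₐ[ℂ] K) (h : Fin 2 → K) : Prop where
  inj : Function.Injective φ
  trdeg : Algebra.trdeg ℂ K = 2
  pow : ∀ i, h i ^ N * φ (den i) = φ (num i)
  gen : IntermediateField.adjoin ℂ
    ({φ (MvPolynomial.X 0), φ (MvPolynomial.X 1), h 0, h 1} : Set K) = ⊤
  ext : ∀ d : Derivation ℂ R R, ∃ D : Derivation ℂ K K, ∀ r, D (φ r) = φ (d r)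
  avg : ∀ (W : Submodule ℂ K) (U : AddSubmonoid K),
    (∀ σ : K ≃ₐ[ℂ] K, (∀ r, σ (φ r) = φ r) → ∀ a ∈ W, σ a ∈ W) →
    (∀ a ∈ W, Pure φ h a → a ∈ U) → ∀ a ∈ W, a ∈ U

/-- statement of the existence of the Kummer extension -/
def FieldStmt : Prop :=
  ∀ (N : ℕ) (num den : Fin 2 → R), 0 < N → (∀ i, num i ≠ 0) → (∀ i, den i ≠ 0) →
    ∃ (K : Type) (_ : Field K) (_ : Algebra ℂ K) (φ : R →ₐ[ℂ] K) (h : Fin 2 → K),
      FieldPkg N num den K φ h

end Crest.Agent.R278
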