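import Crest.Agent.R278.Defs

/-!
Row 278: existence of the Kummer extension.
-/

set_option autoImplicit false

namespace Crest.Agent.R278
open Polynomial

/-- roots of unity are constants -/
lemma field_root_unity {K : Type} [Field K] [Algebra ℂ K] {N : ℕ} (hN : 0 < N) {z : K}
    (hz : z ^ N = 1) : ∃ c : ℂ, algebraMap ℂ K c = z := by
  have h1 : (X ^ N - 1 : ℂ[X]) ≠ 0 := by
    simpa using X_pow_sub_C_ne_zero hN (1 : ℂ)
  obtain ⟨c, hc⟩ := (IsAlgClosed.splits (X ^ N - 1 : ℂ[X])).mem_range_of_isRoot h1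
    (i := algebraMap ℂ K) (x := z) (by simp [hz])
  exact ⟨c, hc⟩

lemma field_ratio {K : Type} [Field K] [Algebra ℂ K] {N : ℕ} (hN : 0 < N) {x y : K} (hy : y ≠ 0)
    (h : x ^ N = y ^ N) : ∃ c : ℂ, x = algebraMap ℂ K c * y := by
  obtain ⟨c, hc⟩ := field_root_unity (K := K) hN (z := x / y) (by
    rw [div_pow, h, div_self (pow_ne_zero _ hy)])
  exact ⟨c, by rw [hc, div_mul_cancel₀ _ hy]⟩

/-- averaging over the Galois group against eigenvectors -/
lemma field_avg {F K : Type} [Field F] [Field K] [Algebra F K] [Algebra ℂ F] [Algebra ℂ K]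
    [IsScalarTower ℂ F K] [FiniteDimensional F K] [IsGalois F K] (M : Set K)
    (hM0 : ∀ m ∈ M, m ≠ 0)
    (hM : ∀ m ∈ M, ∀ σ : K ≃ₐ[F] K, ∃ c : ℂ, σ m = algebraMap ℂ K c * m)
    (W : Submodule ℂ K) (U : AddSubmonoid K) (hW : ∀ σ : K ≃ₐ[F] K, ∀ a ∈ W, σ a ∈ W)
    (hU : ∀ m ∈ M, ∀ c : F, algebraMap F K c * m ∈ W → algebraMap F K c * m ∈ U) :
    ∀ a ∈ Submodule.span F M, a ∈ W → a ∈ U := by
  classical
  intro a ha
  obtain ⟨T, hT, haT⟩ := Submodule.mem_span_finite_of_mem_span ha
  clear ha
  induction T using Finset.induction_on generalizing a with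
  | empty =>
    intro _
    have : a = 0 := by simpa using haT
    rw [this]; exact U.zero_mem
  | insert m T hm ih =>
    intro haW
    have hmM : m ∈ M := hT (by simp)
    have hTM : (T : Set K) ⊆ M := fun x hx => hT (by simp [Finset.mem_coe.mp hx])
    have hm0 := hM0 m hmM
    choose c hc using hM m hmM
    have hc0 : ∀ σ, c σ ≠ 0 := fun σ h0 => by
      have := hc σ
      rw [h0, map_zero, zero_mul, map_eq_zero_iff _ σ.injective] at this
      exact hm0 this
    set g : ℂ := (Fintype.card (K ≃ₐ[F] K) : ℂ) with hg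
    have hg0 : g ≠ 0 := by rw [hg]; exact_mod_cast Fintype.card_ne_zero
    let π : K →ₗ[F] K := ∑ σ : K ≃ₐ[F] K, algebraMap ℂ F (g⁻¹ * (c σ)⁻¹) • σ.toLinearMap
    have hπ : ∀ x, π x = ∑ σ : K ≃ₐ[F] K, (g⁻¹ * (c σ)⁻¹) • σ x := fun x => by
      simp only [π, LinearMap.sum_apply, LinearMap.smul_apply, AlgEquiv.toLinearMap_apply,
        algebraMap_smul]
    have h1 : π a ∈ W := by
      rw [hπ]; exact W.sum_mem fun σ _ => W.smul_mem _ (hW σ a haW)
    have h2 : π m = m := by
      rw [hπ]
      have : ∀ σ : K ≃ₐ[F] K, (g⁻¹ * (c σ)⁻¹) • σ m = g⁻¹ • m := fun σ => by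
        rw [hc, ← Algebra.smul_def, smul_smul, mul_assoc, inv_mul_cancel₀ (hc0 σ), mul_one]
      simp only [this, Finset.sum_const, Finset.card_univ]
      rw [← Nat.cast_smul_eq_nsmul ℂ, smul_smul, ← hg, mul_inv_cancel₀ hg0, one_smul]
    have h3 : ∀ x ∈ Submodule.span F ((insert m T : Finset K) : Set K),
        x - π x ∈ Submodule.span F (T : Set K) := by
      intro x hx
      have : Submodule.span F ((insert m T : Finset K) : Set K) ≤
          (Submodule.span F (T : Set K)).comap (LinearMap.id - π) := by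
        refine Submodule.span_le.mpr fun y hy => ?_
        rw [Finset.coe_insert] at hy
        simp only [SetLike.mem_coe, Submodule.mem_comap, LinearMap.sub_apply, LinearMap.id_apply]
        rcases hy with rfl | hy
        · rw [h2, sub_self]; exact Submodule.zero_mem _
        · have hy' : y ∈ Submodule.span F (T : Set K) := Submodule.subset_span hy
          refine Submodule.sub_mem _ hy' ?_
          rw [hπ]
          refine Submodule.sum_mem _ fun σ _ => ?_
          obtain ⟨c', hc'⟩ := hM y (hTM hy) σ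
          rw [hc', ← Algebra.smul_def, smul_smul, ← algebraMap_smul F]
          exact Submodule.smul_mem _ _ hy'
      exact this hx
    have h4 : ∃ b : F, π a = algebraMap F K b * m := by
      have e : π a = (∑ σ : K ≃ₐ[F] K, σ (g⁻¹ • (a / m))) * m := by
        rw [hπ, Finset.sum_mul]
        refine Finset.sum_congr rfl fun σ _ => ?_
        have h5 : algebraMap ℂ K (c σ) ≠ 0 := by simpa using hc0 σ
        rw [Algebra.smul_def, Algebra.smul_def, map_mul, map_mul, map_div₀, hc,
          IsScalarTower.algebraMap_apply ℂ F K g⁻¹, AlgEquiv.commutes, map_inv₀ _ (c σ)]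
        field_simp
      obtain ⟨b, hb⟩ := (IsGalois.mem_range_algebraMap_iff_fixed (F := F)
        (∑ σ : K ≃ₐ[F] K, σ (g⁻¹ • (a / m)))).mpr (fun τ => by
          rw [map_sum]
          exact Fintype.sum_equiv (Equiv.mulLeft τ) _ _ (fun σ => rfl))
      exact ⟨b, by rw [e, hb]⟩
    obtain ⟨b, hb⟩ := h4
    have h5 : π a ∈ U := by rw [hb] at h1 ⊢; exact hU m hmM b h1
    have h6 := ih (a - π a) hTM (h3 a haT) (W.sub_mem haW h1)
    simpa using U.add_mem h5 h6

theorem field_pkg {N : ℕ} {num den : Fin 2 → R} (hN : 0 < N) (hnum : ∀ i, num i ≠ 0)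
    (hden : ∀ i, den i ≠ 0) (F K : Type) [Field F] [Field K] [Algebra R F] [IsFractionRing R F]
    [Algebra ℂ F] [IsScalarTower ℂ R F] [Algebra F K] [Algebra R K] [Algebra ℂ K]
    [IsScalarTower ℂ F K] [IsScalarTower R F K] [IsScalarTower ℂ R K] (H : Fin 2 → F)
    (hH : ∀ i, H i = algebraMap R F (num i) / algebraMap R F (den i))
    [IsSplittingField F K ((X ^ N - C (H 0)) * (X ^ N - C (H 1)))] :
    ∃ h : Fin 2 → K, FieldPkg N num den K (IsScalarTower.toAlgHom ℂ R K) h := by
  classical
  set f : F[X] := (X ^ N - C (H 0)) * (X ^ N - C (H 1)) with hf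
  have : CharZero F := charZero_of_injective_algebraMap (algebraMap ℂ F).injective
  have : FiniteDimensional F K := IsSplittingField.finiteDimensional K f
  have : Normal F K := Normal.of_isSplittingField f
  have : IsGalois F K := {}
  have hne : ∀ i, (X ^ N - C (H i) : F[X]) ≠ 0 := fun i => X_pow_sub_C_ne_zero hN _
  have hf0 : f ≠ 0 := mul_ne_zero (hne 0) (hne 1)
  have hsp := IsSplittingField.splits K f
  have hex : ∀ i, ∃ x : K, x ^ N = algebraMap F K (H i) := fun i => by
    have h1 : (X ^ N - C (H i) : F[X]) ∣ f := by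
      fin_cases i
      · exact dvd_mul_right _ _
      · exact dvd_mul_left _ _
    have h2 : ((X ^ N - C (H i) : F[X]).map (algebraMap F K)).Splits :=
      hsp.of_dvd (Polynomial.map_ne_zero hf0) (Polynomial.map_dvd _ h1)
    obtain ⟨x, hx⟩ := h2.exists_eval_eq_zero (by
      rw [degree_map, degree_X_pow_sub_C hN]; exact_mod_cast hN.ne')
    exact ⟨x, by simpa [sub_eq_zero] using hx⟩
  choose h hh using hex
  have hRF : Function.Injective (algebraMap R F) := IsFractionRing.injective R F
  have hRK : Function.Injective (algebraMap R K) := by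
    rw [IsScalarTower.algebraMap_eq R F K]; exact (algebraMap F K).injective.comp hRF
  have hH0 : ∀ i, H i ≠ 0 := fun i => by
    rw [hH]
    exact div_ne_zero ((map_ne_zero_iff _ hRF).mpr (hnum i)) ((map_ne_zero_iff _ hRF).mpr (hden i))
  have hh0 : ∀ i, h i ≠ 0 := fun i h0 => by
    have := hh i
    rw [h0, zero_pow hN.ne', eq_comm, map_eq_zero] at this
    exact hH0 i this
  have hfrac : ∀ c : F, ∃ a b : R, b ≠ 0 ∧ algebraMap F K c = algebraMap R K a / algebraMap R K b :=
    fun c => by
      obtain ⟨a, b, hb, rfl⟩ := IsFractionRing.div_surjective (A := R) c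
      exact ⟨a, b, nonZeroDivisors.ne_zero hb, by
        rw [map_div₀, ← IsScalarTower.algebraMap_apply, ← IsScalarTower.algebraMap_apply]⟩
  have hadj : Algebra.adjoin F ({h 0, h 1} : Set K) = ⊤ := by
    rw [eq_top_iff, ← IsSplittingField.adjoin_rootSet K f]
    refine Algebra.adjoin_le fun x hx => ?_
    have h1 := (mem_rootSet.mp hx).2
    have h2 : ∃ i, x ^ N = h i ^ N := by
      rw [hf, map_mul, mul_eq_zero] at h1
      rcases h1 with h1 | h1
      · exact ⟨0, by rw [hh]; simpa [sub_eq_zero] using h1⟩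
      · exact ⟨1, by rw [hh]; simpa [sub_eq_zero] using h1⟩
    obtain ⟨i, hi⟩ := h2
    obtain ⟨c, rfl⟩ := field_ratio hN (hh0 i) hi
    refine Subalgebra.mul_mem _ ?_ (Algebra.subset_adjoin (by fin_cases i <;> simp))
    rw [IsScalarTower.algebraMap_apply ℂ F K]
    exact Subalgebra.algebraMap_mem _ _
  refine ⟨h, hRK, ?_, fun i => ?_, ?_, fun d => ?_, fun W U hW hU a ha => ?_⟩
  · have : FaithfulSMul R K := (faithfulSMul_iff_algebraMap_injective R K).mpr hRK
    have : Algebra.IsAlgebraic R F := IsLocalization.isAlgebraic F (nonZeroDivisors R)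
    have : Algebra.IsAlgebraic R K := Algebra.IsAlgebraic.trans R F K
    rw [← trdeg_add_eq ℂ R, trdeg_eq_zero (R := R) (A := K), MvPolynomial.trdeg_of_isDomain]
    simp
  · have h1 : algebraMap R K (den i) ≠ 0 := (map_ne_zero_iff _ hRK).mpr (hden i)
    rw [hh, hH, map_div₀, ← IsScalarTower.algebraMap_apply, ← IsScalarTower.algebraMap_apply,
      IsScalarTower.toAlgHom_apply, IsScalarTower.toAlgHom_apply, div_mul_cancel₀ _ h1]
  · set E := IntermediateField.adjoin ℂ
      ({IsScalarTower.toAlgHom ℂ R K (MvPolynomial.X 0),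
        IsScalarTower.toAlgHom ℂ R K (MvPolynomial.X 1), h 0, h 1} : Set K) with hE
    have h1 : ∀ r : R, algebraMap R K r ∈ E := fun r => by
      induction r using MvPolynomial.induction_on with
      | C c =>
        rw [← MvPolynomial.algebraMap_eq, ← IsScalarTower.algebraMap_apply]
        exact E.algebraMap_mem c
      | add p q hp hq => rw [map_add]; exact E.add_mem hp hq
      | mul_X p i hp =>
        rw [map_mul]
        exact E.mul_mem hp (IntermediateField.subset_adjoin _ _ (by fin_cases i <;> simp))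
    rw [eq_top_iff]
    intro x _
    have hx : x ∈ Algebra.adjoin F ({h 0, h 1} : Set K) := by rw [hadj]; trivial
    induction hx using Algebra.adjoin_induction with
    | mem y hy =>
      refine IntermediateField.subset_adjoin _ _ ?_
      rcases hy with rfl | rfl <;> simp
    | algebraMap c =>
      obtain ⟨a, b, -, hc⟩ := hfrac c
      rw [hc]; exact E.div_mem (h1 a) (h1 b)
    | add y z _ _ hy hz => exact E.add_mem (hy trivial) (hz trivial)
    | mul y z _ _ hy hz => exact E.mul_mem (hy trivial) (hz trivial)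
  · have : Algebra.FormallyEtale R F := Algebra.FormallyEtale.of_isLocalization (nonZeroDivisors R)
    have : Algebra.FormallyEtale F K := Algebra.FormallyEtale.of_isSeparable F K
    have : Algebra.FormallyEtale R K := Algebra.FormallyEtale.comp R F K
    have hb := KaehlerDifferential.isBaseChange_of_formallyEtale ℂ R K
    refine ⟨(hb.lift ((Algebra.linearMap R K) ∘ₗ d.liftKaehlerDifferential)).compDer
      (KaehlerDifferential.D ℂ K), fun r => ?_⟩
    have h1 := hb.lift_eq ((Algebra.linearMap R K) ∘ₗ d.liftKaehlerDifferential)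
      (KaehlerDifferential.D ℂ R r)
    rw [KaehlerDifferential.map_D] at h1
    simpa using h1
  · refine field_avg (F := F) {m | ∃ i j : ℕ, m = h 0 ^ i * h 1 ^ j} ?_ ?_ W U
      (fun σ => hW (σ.restrictScalars ℂ) fun r => ?_) ?_ a ?_ ha
    · rintro m ⟨i, j, rfl⟩
      exact mul_ne_zero (pow_ne_zero _ (hh0 0)) (pow_ne_zero _ (hh0 1))
    · rintro m ⟨i, j, rfl⟩ σ
      have h1 : ∀ k, ∃ c : ℂ, σ (h k) = algebraMap ℂ K c * h k := fun k =>
        field_ratio hN (hh0 k) (by rw [← map_pow, hh, AlgEquiv.commutes])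
      obtain ⟨c0, hc0⟩ := h1 0
      obtain ⟨c1, hc1⟩ := h1 1
      exact ⟨c0 ^ i * c1 ^ j, by simp only [map_mul, map_pow, hc0, hc1]; ring⟩
    · simp only [IsScalarTower.toAlgHom_apply, AlgEquiv.coe_restrictScalars]
      rw [IsScalarTower.algebraMap_apply R F K, AlgEquiv.commutes]
    · rintro m ⟨i, j, rfl⟩ c hc
      obtain ⟨u, v, hv, huv⟩ := hfrac c
      exact hU _ hc ⟨u, v, i, j, hv, by rw [huv, mul_assoc]; rfl⟩
    · have hx : a ∈ Algebra.adjoin F ({h 0, h 1} : Set K) := by rw [hadj]; trivial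
      have hx' : a ∈ Subalgebra.toSubmodule (Algebra.adjoin F ({h 0, h 1} : Set K)) := hx
      rw [Algebra.adjoin_eq_span] at hx'
      refine Submodule.span_mono (fun m hm => ?_) hx'
      induction hm using Submonoid.closure_induction with
      | mem y hy =>
        rcases hy with rfl | rfl
        · exact ⟨1, 0, by simp⟩
        · exact ⟨0, 1, by simp⟩
      | one => exact ⟨0, 0, by simp⟩
      | mul y z _ _ hy hz =>
        obtain ⟨i, j, rfl⟩ := hy
        obtain ⟨i', j', rfl⟩ := hz
        exact ⟨i + i', j + j', by ring⟩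

theorem exists_field : FieldStmt := by
  intro N num den hN hnum hden
  let H : Fin 2 → FractionRing R := fun i =>
    algebraMap R (FractionRing R) (num i) / algebraMap R (FractionRing R) (den i)
  let K := ((X ^ N - C (H 0)) * (X ^ N - C (H 1)) : (FractionRing R)[X]).SplittingField
  have : IsScalarTower ℂ R K := IsScalarTower.of_algebraMap_eq fun c => by
    rw [IsScalarTower.algebraMap_apply R (FractionRing R) K,
      ← IsScalarTower.algebraMap_apply ℂ R (FractionRing R),
      ← IsScalarTower.algebraMap_apply ℂ (FractionRing R) K]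
  obtain ⟨h, hh⟩ := field_pkg hN hnum hden (FractionRing R) K H (fun _ => rfl)
  exact ⟨K, inferInstance, inferInstance, _, h, hh⟩

end Crest.Agent.R278
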