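import Crest.Agent.R278.Cases

/-!
Row 278: local analysis at the last exceptional curves over the roots.
-/

set_option autoImplicit false

open Polynomial IntermediateField

noncomputable section

namespace Crest.Agent.R278

variable {K : Type} [Field K] [Algebra ℂ K]

namespace Ctx
variable (c : Ctx K)

lemma brV_sw (j : Fin 4) : br (c.V 0) (c.V 1) c.s (c.w j) =
    algebraMap ℂ K c.d.kap * c.φ c.d.TT * c.φ (Fc j) * c.w j := by
  set D := brD (c.V 0) (c.V 1) c.s with hD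
  have h1 : D c.s = 0 := by simp [hD, brD_apply, br]
  have h2 : D (c.s * c.D j (c.d.m j)) = 0 := by
    rw [Derivation.leibniz, Ctx.D, Derivation.map_aeval, h1]; simp
  have h3 : D (c.l j) = br (c.V 0) (c.V 1) c.s c.y := by
    rw [l_def, map_sub, Derivation.leibniz, h1, ← brD_apply]; simp [hD]
  rw [← brD_apply, ← hD, w, Derivation.leibniz_div_const _ _ _ h2, h3, brV, ← ell_mul_Fc j, map_mul]
  simp only [smul_eq_mul, l]
  ring

lemma V_w (i : Fin 2) (j : Fin 4) : ∃ (lin : ℂ[X]) (ρ1 ρ2 : R),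
    c.V i (c.w j) = c.w j * (c.D j (c.d.nu i j) * aeval c.s lin +
      c.w j * (c.D j (c.d.m j) * (c.s * c.φ ρ2 - c.φ ρ1) -
        aeval c.s (derivative (DD (c.d.q j) (c.d.m j))) * (c.s * c.φ ρ1))) := by
  obtain ⟨E, rr, lin, e1, e2, e3⟩ := c.d.loc i j
  obtain ⟨ρ1, h1⟩ := c.res_split j (c.d.vx i)
  obtain ⟨ρ2, h2⟩ := c.res_split j E
  refine ⟨lin, ρ1, ρ2, ?_⟩
  have h3 : c.V i (c.l j) = c.l j * c.φ E := by
    have := congrArg c.φ e2
    rw [map_sub, map_mul, map_mul, AlgHom.commutes] at this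
    rw [l_def, map_sub, Derivation.leibniz, Vs, Vy', ← l_def]
    simpa [l] using this
  have h4 := congrArg (aeval c.s) e3
  rw [e1] at h1
  simp only [map_sub, map_mul, aeval_X] at h4 h1
  have h5 : c.V i (c.D j (c.d.m j)) =
      aeval c.s (derivative (DD (c.d.q j) (c.d.m j))) * c.V i c.s := by
    rw [D, Derivation.map_aeval, smul_eq_mul]
  have hl := c.l_eq j
  rw [hl, Derivation.leibniz, Derivation.leibniz, h5, Vs] at h3
  simp only [smul_eq_mul] at h3
  apply mul_left_cancel₀ (mul_ne_zero c.s_ne (c.D_ne j (c.d.m j)))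
  simp only [D] at *
  rw [hl] at h1 h2
  rw [h1, h2] at h3
  linear_combination h3 + c.w j * c.s * h4

lemma K0_le_ws (j : Fin 4) (σ : ℂ) : c.K0 ≤ ℂ⟮c.w j, c.s - algebraMap ℂ K σ⟯ := by
  have h1 : c.s ∈ ℂ⟮c.w j, c.s - algebraMap ℂ K σ⟯ := by
    have := add_mem (subset_adjoin ℂ {c.w j, c.s - algebraMap ℂ K σ}
      (a := c.s - algebraMap ℂ K σ) (by simp)) (IntermediateField.algebraMap_mem _ σ)
    rwa [sub_add_cancel] at this
  exact c.K0_le h1 (c.φ_mem_chart (A := IntermediateField.toSubalgebra _) j h1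
    (subset_adjoin ℂ {c.w j, c.s - algebraMap ℂ K σ} (a := c.w j) (by simp)) YY)

lemma π_ne (σ : ℂ) : c.s - algebraMap ℂ K σ ≠ 0 := by
  simpa using c.aeval_ne (X_sub_C_ne_zero σ)

lemma δ_π (i : Fin 2) (σ : ℂ) : c.δ i (c.s - algebraMap ℂ K σ) = c.δ i c.s := by simp

variable {c} {O : ValuationSubring K} [hO : HC O] {j g : Fin 4} {σ : ℂ}

omit hO in
lemma v_bb {o o' : Fin 2} (h : o ≠ o') (a b : K) :
    O.valuation (c.δ o a * c.δ o' b - c.δ o b * c.δ o' a) = O.valuation (c.bb a b) := by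
  fin_cases o <;> fin_cases o'
  · exact absurd rfl h
  · rfl
  · rw [← Valuation.map_neg]; congr 1; simp [bb, br]; ring
  · exact absurd rfl h

lemma CaseIII.vw (h : c.CaseIII O j g σ) : O.valuation (c.w j) = 1 := by
  simpa using v_aeval_ncst O h.hw h.ncst X_ne_zero

lemma CaseIII.vl0 (h : c.CaseIII O j g σ) : O.valuation (c.l j) = c.γ O j g ^ c.d.m j g := by
  rw [l_eq, map_mul, map_mul, h.vw, h.vs, h.vD, one_mul, one_mul]

lemma CaseIII.vl_lt (h : c.CaseIII O j g σ) : O.valuation (c.l j) < 1 := by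
  rw [h.vl0]; exact pow_lt_one₀ zero_le h.γ_lt (c.d.m_pos j g).ne'

lemma CaseIII.vφ (h : c.CaseIII O j g σ) (f : R) : O.valuation (c.φ f) ≤ 1 :=
  c.φ_mem_chart (A := OA O) j h.vs.le h.hw f

lemma CaseIII.newt (h : c.CaseIII O j g σ) {t : Fin 4 → Fin 4 → ℕ} {e : ℕ} {f : R}
    (hf : Newt c.d.q c.d.m t e f) : O.valuation (c.φ f) = c.γ O j g ^ t j g := by
  obtain ⟨ρ, h1, h2⟩ := c.newt_near hf (A := OA O) j h.vs.le h.hw
  have : O.valuation (c.D j (fun _ => 1) * ρ) < O.valuation 1 := by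
    rw [map_one]
    exact v_mul_lt O (by rw [h.vD, pow_one]; exact h.γ_lt) h1
  rw [h2, map_mul, v_add_eq O this, h.vD, map_one, mul_one]

lemma CaseIII.vh (h : c.CaseIII O j g σ) (i : Fin 2) :
    O.valuation (c.h i) ^ c.d.N * c.γ O j g ^ c.d.tau i j g =
      c.γ O j g ^ (c.d.ph i j * c.d.m j g) := by
  have := c.v_pow O i
  rw [h.newt (c.d.newtT i), Finset.prod_eq_single j, h.vl0, ← pow_mul, mul_comm (c.d.m j g)] at this
  · exact this
  · intro j' _ hj
    rw [h.vl (h.vφ _) h.vl_lt hj, one_pow]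
  · simp

lemma CaseIII.γ_anti (h : c.CaseIII O j g σ) {a b : ℕ} (hab : a ≤ b) :
    c.γ O j g ^ b ≤ c.γ O j g ^ a := pow_le_pow_right_of_le_one' h.γ_lt.le hab

lemma CaseIII.vVs (h : c.CaseIII O j g σ) (i : Fin 2) :
    O.valuation (c.V i c.s) ≤ c.γ O j g ^ c.d.mu i j g := by
  obtain ⟨E, rr, lin, e1, -, -⟩ := c.d.loc i j
  obtain ⟨ρ1, h1⟩ := c.res_split j (c.d.vx i)
  rw [Vs, h1, e1, map_mul, map_mul, aeval_X]
  refine O.valuation.map_add_le (v_mul_le' O h.vs.le (v_mul_le' O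
    (aeval_mem (A := OA O) h.vs.le _) (h.vD _).le)) (v_mul_le O ?_ (h.vφ _))
  rw [h.vl0]; exact h.γ_anti (c.d.mu_le i j g)

lemma CaseIII.vVw (h : c.CaseIII O j g σ) (i : Fin 2) :
    O.valuation (c.V i (c.w j)) ≤ c.γ O j g ^ c.d.nu i j g := by
  obtain ⟨lin, ρ1, ρ2, e⟩ := c.V_w i j
  have hn := c.d.nu_le i j g
  have h1 : O.valuation (c.s * c.φ ρ1) ≤ 1 := v_mul_le O h.vs.le (h.vφ _)
  rw [e]
  refine v_mul_le' O h.hw (O.valuation.map_add_le
    (v_mul_le O (h.vD _).le (aeval_mem (A := OA O) h.vs.le _))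
    (v_mul_le' O h.hw (O.valuation.map_sub_le (v_mul_le O ?_ ?_) (v_mul_le O ?_ h1))))
  · rw [h.vD]; exact h.γ_anti (by omega)
  · exact O.valuation.map_sub_le (v_mul_le O h.vs.le (h.vφ _)) (h.vφ _)
  · obtain ⟨p, hp⟩ := pow_sub_one_dvd_derivative_of_pow_dvd (p := DD (c.d.q j) (c.d.m j))
      (Finset.dvd_prod_of_mem (fun g => c.d.q j g ^ c.d.m j g) (Finset.mem_univ g))
    rw [hp, map_mul, map_pow]
    refine v_mul_le O ?_ (aeval_mem (A := OA O) h.vs.le _)
    rw [map_pow]; exact h.γ_anti (by omega)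

lemma CaseIII.vbb (h : c.CaseIII O j g σ) : O.valuation (c.bb c.s (c.w j)) =
    O.valuation (c.h 0) * O.valuation (c.h 1) * c.γ O j g ^ c.d.tT j g := by
  rw [bb_eq, brV_sw]
  simp only [map_mul, v_alg O c.d.kap_ne, h.newt c.d.newtTT, h.vFc (h.vφ _) h.vl_lt, h.vw, one_mul,
    mul_one]

lemma CaseIII.vh_unram (h : c.CaseIII O j g σ) {i : Fin 2}
    (hi : c.d.tau i j g = c.d.N * c.d.mu i j g + c.d.ph i j * c.d.m j g) :
    O.valuation (c.h i) * c.γ O j g ^ c.d.mu i j g = 1 := by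
  have := h.vh i
  rw [hi, pow_add, ← mul_assoc, mul_eq_right₀ (pow_ne_zero _ (c.γ_ne O j g)), mul_comm c.d.N,
    pow_mul, ← mul_pow] at this
  exact (pow_eq_one_iff_of_nonneg zero_le c.d.N_pos.ne').1 this

lemma CaseIII.vh_own (h : c.CaseIII O j g σ) {i : Fin 2}
    (hi : c.d.tau i j g = c.d.ph i j * c.d.m j g) : O.valuation (c.h i) = 1 := by
  have := h.vh i
  rw [hi, mul_eq_right₀ (pow_ne_zero _ (c.γ_ne O j g))] at this
  exact (pow_eq_one_iff_of_nonneg zero_le c.d.N_pos.ne').1 this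

lemma CaseIII.vh_oth (h : c.CaseIII O j g σ) {i : Fin 2}
    (hi : 2 * c.d.tau i j g = c.d.N + 2 * (c.d.ph i j * c.d.m j g)) :
    c.γ O j g = O.valuation (c.h i)⁻¹ ^ 2 := by
  have h1 := congrArg (· ^ 2) (h.vh i)
  simp only [mul_pow, ← pow_mul] at h1
  rw [mul_comm (c.d.tau i j g), hi, pow_add, mul_comm 2, ← mul_assoc,
    mul_eq_right₀ (pow_ne_zero _ (c.γ_ne O j g)), mul_comm c.d.N, pow_mul, ← mul_pow] at h1
  have h2 := (pow_eq_one_iff_of_nonneg zero_le c.d.N_pos.ne').1 h1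
  rw [map_inv₀, inv_pow]
  exact eq_inv_of_mul_eq_one_right h2

lemma CaseIII.γ_lin (h : c.CaseIII O j g σ) {k : ℂ} (hk : c.d.q j g = 1 + C k * X) :
    c.γ O j g = O.valuation (c.s - algebraMap ℂ K σ) := by
  have h1 := h.root
  simp only [hk, eval_add, eval_one, eval_mul, eval_C, eval_X] at h1
  have hk0 : k ≠ 0 := by rintro rfl; simp at h1
  have h2 : aeval c.s (c.d.q j g) = algebraMap ℂ K k * (c.s - algebraMap ℂ K σ) := by
    have := congrArg (algebraMap ℂ K) h1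
    simp only [map_add, map_one, map_mul, map_zero] at this
    simp only [hk, map_add, map_one, map_mul, aeval_C, aeval_X]
    linear_combination this
  rw [γ, h2, map_mul, v_alg O hk0, one_mul]

/-- the local data at an exceptional curve -/
structure Pack (c : Ctx K) (O : ValuationSubring K) [HC O] (j : Fin 4) (π t : K) : Prop where
  hs : c.s ∈ c.AA O
  hw : c.w j ∈ c.AA O
  fac : Fac O (c.AA O) π c.K0
  t_ne : t ≠ 0
  t_lt : O.valuation t < 1
  zπ : Zp O t π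
  zh : ∀ i, Zp O t (c.h i)
  tδ : ∀ i, O.valuation t * O.valuation (c.δ i c.s) ≤ O.valuation π
  vb : O.valuation (c.bb c.s (c.w j)) * O.valuation t = O.valuation π
  exb : (∀ i, ∀ a ∈ WW c.S, c.δ i a ∈ WW c.S) → ∀ a ∈ c.AA O, O.valuation a = 1 →
    a * π ∈ WW c.S → (∃ f g, a * π = c.φ f / c.φ g) →
    ∃ b ∈ WW c.S, b ^ c.d.N ∈ c.K0 ∧ O.valuation b = O.valuation t

lemma CaseIII.fac (h : c.CaseIII O j g σ) (hs : c.s ∈ c.AA O) (hw : c.w j ∈ c.AA O) :
    Fac O (c.AA O) (c.s - algebraMap ℂ K σ) c.K0 :=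
  (chart_coord O (c.AA_inv O) (c.AA_le O) hw
    ((c.AA O).sub_mem hs ((c.AA O).algebraMap_mem σ)) h.ncst h.near).mono (c.K0_le_ws j σ)

lemma CaseIII.pack (h : c.CaseIII O j g σ) : ∃ t, Pack c O j (c.s - algebraMap ℂ K σ) t := by
  have hπ := c.π_ne σ
  rcases c.d.typ j g with ⟨h1, h2⟩ | ⟨o, o', hoo, ⟨k, hk⟩, m1, m2, n2, t1, t2, tT⟩
  · have hh := fun i => h.vh_unram (h1 i).2
    have hδs : ∀ i, O.valuation (c.δ i c.s) ≤ 1 := fun i => by
      rw [δ_apply, map_mul, ← hh i]; exact mul_le_mul' le_rfl (h.vVs i)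
    have hs : c.s ∈ c.AA O := (c.mem_AA O).2 ⟨h.vs.le, hδs⟩
    have hw : c.w j ∈ c.AA O := (c.mem_AA O).2 ⟨h.hw, fun i => by
      rw [δ_apply, map_mul, ← hh i]
      exact mul_le_mul' le_rfl ((h.vVw i).trans (h.γ_anti (h1 i).1))⟩
    have hF := h.fac hs hw
    refine ⟨_, hs, hw, hF, hπ, h.near, Zp.self _, fun i => ?_,
      fun i => mul_le_of_le_one_right' (hδs i), ?_, fun _ a _ ha haπ hfg => ?_⟩
    · have h3 : Zp O (c.s - algebraMap ℂ K σ) (aeval c.s (c.d.q j g)) :=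
        hF.zp hπ (Zp.self _) (by rw [← φ_up]; exact c.φ_mem_K0 _)
          ((Valuation.ne_zero_iff _).1 (c.γ_ne O j g))
      obtain ⟨n, hn⟩ := (h3.pow (c.d.mu i j g)).zpow (-1)
      refine ⟨n, ?_⟩
      rw [← hn, zpow_neg_one, map_inv₀, map_pow]
      exact eq_inv_of_mul_eq_one_left (hh i)
    · rw [h.vbb, h2, pow_add, mul_mul_mul_comm, hh, hh, one_mul, one_mul]
    · obtain ⟨f, g', hfg⟩ := hfg
      exact ⟨_, haπ, pow_mem (hfg ▸ div_mem (c.φ_mem_K0 _) (c.φ_mem_K0 _)) _, by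
        rw [map_mul, ha, one_mul]⟩
  · have ho := h.vh_own t1
    have ho' := h.vh_oth t2
    have hγ := h.γ_lin hk
    set t := (c.h o')⁻¹ with ht
    have ht0 : t ≠ 0 := inv_ne_zero (c.h_ne o')
    have hv0 : O.valuation t ≠ 0 := by simpa using ht0
    have ht1 : O.valuation t < 1 := by
      have := h.γ_lt
      rw [ho'] at this
      exact (pow_lt_one_iff_of_nonneg zero_le two_ne_zero).1 this
    have hht : O.valuation (c.h o') * c.γ O j g = O.valuation t := by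
      rw [ho', pow_two, ← mul_assoc, ← map_mul, ht, mul_inv_cancel₀ (c.h_ne o'), map_one, one_mul]
    have hγt : c.γ O j g < O.valuation t := by
      rw [ho', pow_two]; exact mul_lt_of_lt_one_right (zero_lt_iff.2 hv0) ht1
    have hcases : ∀ i, i = o ∨ i = o' := by
      intro i; revert hoo; fin_cases o <;> fin_cases o' <;> fin_cases i <;> simp
    have s1 : O.valuation (c.δ o c.s) ≤ c.γ O j g := by
      rw [δ_apply, map_mul, ho, one_mul]; simpa [m1] using h.vVs o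
    have s2 : O.valuation (c.δ o' c.s) ≤ O.valuation t := by
      rw [δ_apply, map_mul, ← hht]; exact mul_le_mul' le_rfl (by simpa [m2] using h.vVs o')
    have w1 : O.valuation (c.δ o (c.w j)) ≤ 1 := by
      rw [δ_apply, map_mul, ho, one_mul]; simpa using (h.vVw o).trans (h.γ_anti (Nat.zero_le _))
    have w2 : O.valuation (c.δ o' (c.w j)) ≤ O.valuation t := by
      rw [δ_apply, map_mul, ← hht]; exact mul_le_mul' le_rfl (by simpa [n2] using h.vVw o')
    have hs : c.s ∈ c.AA O := (c.mem_AA O).2 ⟨h.vs.le, fun i => by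
      rcases hcases i with rfl | rfl
      · exact s1.trans h.γ_lt.le
      · exact s2.trans ht1.le⟩
    have hw : c.w j ∈ c.AA O := (c.mem_AA O).2 ⟨h.hw, fun i => by
      rcases hcases i with rfl | rfl
      · exact w1
      · exact w2.trans ht1.le⟩
    have hb : O.valuation (c.bb c.s (c.w j)) = O.valuation t := by
      have : O.valuation (c.h 0) * O.valuation (c.h 1) =
          O.valuation (c.h o) * O.valuation (c.h o') := by
        revert hoo; fin_cases o <;> fin_cases o' <;> simp [mul_comm]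
      rw [h.vbb, this, ho, tT, one_mul, pow_one, hht]
    have s3 : O.valuation (c.δ o' c.s) = O.valuation t := by
      refine le_antisymm s2 ?_
      by_contra hlt
      have hlt := not_le.1 hlt
      rw [← v_bb hoo] at hb
      refine hb.not_lt (O.valuation.map_sub_lt ?_ (v_mul_lt' O w1 hlt))
      exact v_mul_lt O (s1.trans_lt hγt) (w2.trans ht1.le)
    refine ⟨t, hs, hw, h.fac hs hw, ht0, ht1, ⟨2, by rw [← hγ, ho']; rfl⟩, fun i => ?_,
      fun i => ?_, ?_, fun hW a ha ha1 haπ hfg => ?_⟩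
    · rcases hcases i with rfl | rfl
      · exact Zp.of_one ho
      · exact ⟨-1, by simp [ht]⟩
    · rw [← hγ]
      rcases hcases i with rfl | rfl
      · exact (mul_le_of_le_one_left' ht1.le).trans s1
      · rw [ho', pow_two]; exact mul_le_mul' le_rfl s2
    · rw [hb, ← hγ, ho', pow_two]
    · obtain ⟨f, g', hfg⟩ := hfg
      refine ⟨_, hW o' _ haπ, ?_, ?_⟩
      · rw [δ_apply, mul_pow, hfg]
        exact mul_mem (c.hN_mem o') (pow_mem (c.V_mem_K0 _ _ _) _)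
      · rw [Derivation.leibniz, δ_π, smul_eq_mul, smul_eq_mul, v_add_eq O]
        · rw [map_mul, ha1, one_mul, s3]
        · rw [map_mul _ a, ha1, one_mul, s3]
          exact v_mul_lt O (hγ ▸ hγt) (((c.mem_AA O).1 ha).2 o')

lemma CaseIII.stab (h : c.CaseIII O j g σ) (hS : Over c.S O) (i : Fin 2) :
    ∀ a ∈ WW c.S, O.valuation (c.δ i a) ≤ 1 := by
  obtain ⟨t, P⟩ := h.pack
  exact c.stab_of O hS (c.π_ne σ) P.fac P.t_ne P.t_lt.le P.zπ P.zh
    (fun i => by rw [δ_π]; exact P.tδ i) i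

/-- elements whose bracket with `s` is small -/
def ZS (c : Ctx K) (O : ValuationSubring K) [HC O] (π : K) : Subalgebra ℂ K where
  carrier := {z | z ∈ c.AA O ∧ O.valuation (brD (c.δ 0) (c.δ 1) c.s z) ≤ O.valuation π}
  mul_mem' {a b} ha hb := ⟨(c.AA O).mul_mem ha.1 hb.1, by
    rw [Derivation.leibniz]
    exact O.valuation.map_add_le (v_mul_le' O (c.AA_le O ha.1) hb.2)
      (v_mul_le' O (c.AA_le O hb.1) ha.2)⟩
  add_mem' ha hb := ⟨(c.AA O).add_mem ha.1 hb.1, by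
    rw [map_add]; exact O.valuation.map_add_le ha.2 hb.2⟩
  algebraMap_mem' k := ⟨(c.AA O).algebraMap_mem k, by simp⟩

lemma ZS_inv {π z : K} (hz : z ∈ ZS c O π) (h1 : O.valuation z = 1) : z⁻¹ ∈ ZS c O π := by
  refine ⟨c.AA_inv O z hz.1 h1, ?_⟩
  rw [Derivation.leibniz_inv]
  simpa [h1] using hz.2

lemma CaseIII.brk (h : c.CaseIII O j g σ) (hS : Over c.S O)
    (hW : ∀ i, ∀ a ∈ WW c.S, c.δ i a ∈ WW c.S) :
    ∃ a b, Tame c.S O a ∧ Tame c.S O b ∧ O.valuation (c.bb a b) = 1 := by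
  obtain ⟨t, P⟩ := h.pack
  set π := c.s - algebraMap ℂ K σ with hπ
  have hπ0 : π ≠ 0 := c.π_ne σ
  have hvπ : O.valuation π ≠ 0 := by simpa using hπ0
  have hss : brD (c.δ 0) (c.δ 1) c.s c.s = 0 := by simp [brD_apply, br]
  have hsZ : c.s ∈ ZS c O π := ⟨P.hs, by simp [hss]⟩
  have hroot : ∀ p : ℂ[X], p.eval σ = 0 → ∀ ρ ∈ c.AA O, aeval c.s p * ρ ∈ ZS c O π := by
    intro p hp ρ hρ
    refine ⟨(c.AA O).mul_mem (aeval_mem P.hs p) hρ, ?_⟩
    rw [Derivation.leibniz, Derivation.map_aeval, hss, smul_zero, smul_zero, add_zero, smul_eq_mul,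
      brD_apply]
    exact v_mul_le O (by simpa [hp] using v_aeval_sub_le O h.near p) (c.bb_le O P.hs hρ)
  have hDD : ∀ t : Fin 4 → ℕ, 0 < t g → (DD (c.d.q j) t).eval σ = 0 := fun t ht => by
    rw [DD, eval_prod]
    exact Finset.prod_eq_zero (Finset.mem_univ g) (by rw [eval_pow, h.root, zero_pow ht.ne'])
  have hφZ : ∀ f, c.φ f ∈ ZS c O π := fun f => by
    obtain ⟨ρ, hρ⟩ := c.res_split j f
    rw [hρ, l_eq]
    refine (ZS c O π).add_mem (aeval_mem hsZ _) ?_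
    have := hroot _ (hDD _ (c.d.m_pos j g)) (c.w j * c.s * c.φ ρ) ((c.AA O).mul_mem
      ((c.AA O).mul_mem P.hw P.hs) (c.φ_mem_chart j P.hs P.hw ρ))
    convert this using 1
    rw [D]; ring
  obtain ⟨U, hU, hU1, hΘ⟩ := c.Θ_near O h.toNear (c.AA_le O) P.hs P.hw (B := ZS c O π)
    (fun ρ hρ => hroot _ (hDD _ one_pos) ρ hρ)
  have hU0 : U ≠ 0 := by rintro rfl; simp at hU1
  set ex : Fin 4 → ℕ := fun g' => c.d.k j g * c.d.m j g' +
    (c.d.tΘ j g' - c.d.k j g * c.d.m j g') - c.d.tΘ j g' with hex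
  have hD : c.D j (c.d.m j) ^ c.d.k j g * c.D j (fun g' => c.d.tΘ j g' - c.d.k j g * c.d.m j g') =
      c.D j (c.d.tΘ j) * c.D j ex := by
    rw [← D_mul, ← D_add, ← D_add]
    congr 1; funext g'; simp only [hex]; omega
  set ε := c.s ^ c.d.k j g * c.φ (Fc j) ^ c.d.n0 * c.D j ex * U⁻¹ with hε
  have hεZ : ε ∈ ZS c O π := (ZS c O π).mul_mem ((ZS c O π).mul_mem ((ZS c O π).mul_mem
    ((ZS c O π).pow_mem hsZ _) ((ZS c O π).pow_mem (hφZ _) _)) (aeval_mem hsZ _)) (ZS_inv hU hU1)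
  have hε1 : O.valuation ε = 1 := by
    have : ex g = 0 := by simp only [hex, c.d.km']; omega
    simp [hε, h.vs, h.vFc (h.vφ _) h.vl_lt, h.vD, this, hU1]
  set a := c.φ (c.d.fg j g) / c.φ c.d.Θ with ha
  have ha' : a = c.w j ^ c.d.k j g * ε := by
    have := c.D_ne j (c.d.tΘ j)
    rw [ha, hΘ, Dat.fg, map_mul, map_mul, map_pow, map_pow, φ_up, hε]
    change c.l j ^ _ * _ * c.D j _ / _ = _
    rw [l_eq, mul_pow, mul_pow, mul_assoc _ (c.D j _ ^ _), mul_comm (c.D j _ ^ _), mul_assoc _ (_ * _),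
      mul_assoc (c.φ _ ^ _), hD]
    field_simp
  have haW : a ∈ WW c.S := subset_WW (c.mem_S (Or.inr ⟨j, g, Or.inl rfl⟩))
  have haA : a ∈ c.AA O := by
    rw [ha']; exact (c.AA O).mul_mem ((c.AA O).pow_mem P.hw _) hεZ.1
  have ha1 : O.valuation a = 1 := by rw [ha']; simp [h.vw, hε1]
  have haπ : a * π ∈ WW c.S := by
    have h1 := subset_WW (c.mem_S (Or.inr ⟨j, g, Or.inr rfl⟩))
    have := (WW c.S).sub_mem h1 ((WW c.S).mul_mem ((WW c.S).algebraMap_mem σ) haW)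
    convert this using 1
    rw [map_mul, ha, hπ, s]; ring
  obtain ⟨b, hbW, hbN, hb⟩ := P.exb hW a haA ha1 haπ
    ⟨c.d.fg j g * (XX - algebraMap ℂ R σ), c.d.Θ, by
      rw [map_mul, map_sub, AlgHom.commutes, ha, hπ, s]; ring⟩
  have hb0 : b ≠ 0 := by
    rintro rfl
    exact P.t_ne (by simpa using hb.symm)
  refine ⟨a, b, c.tame_of_mem hS haW, c.tame_of_mem hS hbW, ?_⟩
  have hlt : O.valuation π < O.valuation (c.bb c.s (c.w j)) := by
    rw [← P.vb]
    refine mul_lt_of_lt_one_right (zero_lt_iff.2 fun h0 => hvπ ?_) P.t_lt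
    rw [← P.vb, h0, zero_mul]
  have has : O.valuation (c.bb c.s a) = O.valuation (c.bb c.s (c.w j)) := by
    have e1 : O.valuation (ε * (c.d.k j g * (c.w j ^ (c.d.k j g - 1) * c.bb c.s (c.w j)))) =
        O.valuation (c.bb c.s (c.w j)) := by
      simp [hε1, h.vw, v_nat O (c.d.k_pos j g).ne']
    rw [bb, ← brD_apply, ha', Derivation.leibniz, Derivation.leibniz_pow, add_comm, brD_apply]
    simp only [smul_eq_mul, nsmul_eq_mul]
    rw [← e1]
    refine v_add_eq O ?_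
    change _ < O.valuation (ε * (c.d.k j g * (c.w j ^ (c.d.k j g - 1) * c.bb c.s (c.w j))))
    rw [e1]
    refine v_mul_lt' O ?_ (hεZ.2.trans_lt hlt)
    simp [h.vw]
  obtain ⟨n, η, h1, h2, h3, -⟩ := P.fac _ hbN (pow_ne_zero _ hb0)
  have hη : η ≠ 0 := by rintro rfl; simp at h2
  have hn : n ≠ 0 := by
    rintro rfl
    have := congrArg O.valuation h3
    rw [zpow_zero, one_mul, h2, map_pow, hb, pow_eq_one_iff_of_nonneg zero_le c.d.N_pos.ne'] at this
    exact P.t_lt.ne this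
  have h5 := congrArg O.valuation (der_root (brD (c.δ 0) (c.δ 1) a) hb0 hπ0 hη h3)
  rw [map_mul, v_nat O c.d.N_pos.ne', one_mul, brD_apply] at h5
  have h6 : brD (c.δ 0) (c.δ 1) a π = -c.bb c.s a := by
    rw [hπ, map_sub, brD_apply, br_swap]; simp [bb]
  have h7 : O.valuation (b * (n * brD (c.δ 0) (c.δ 1) a π / π)) = 1 := by
    rw [h6, map_mul, map_div₀, map_mul, v_int O hn, Valuation.map_neg, has, hb, one_mul,
      ← mul_div_assoc, mul_comm, P.vb, div_self hvπ]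
  rw [bb, h5, mul_add, v_add_eq O, h7]
  rw [h7]
  refine v_mul_lt O (hb ▸ P.t_lt) ?_
  rw [map_div₀, h2, div_one, brD_apply]
  exact c.bb_le O haA h1

end Ctx

end Crest.Agent.R278
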