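import Crest.Agent.R278.Defs

/-!
Row 278: Noether normalisation for `WW S` and the Hartogs lemma.
-/

set_option autoImplicit false

namespace Crest.Agent.R278

open MvPolynomial

/-- integrality tested by valuation rings -/
theorem isIntegral_iff_val {P K : Type} [CommRing P] [Field K] [Algebra P K] (z : K) :
    IsIntegral P z ↔ ∀ O : ValuationSubring K, (∀ r, algebraMap P K r ∈ O) → z ∈ O := by
  constructor
  · intro hz O hO
    let f : P →+* O := (algebraMap P K).codRestrict O.toSubring hO
    have h1 : IsIntegral O z := hz.map_of_comp_eq f (RingHom.id K) rfl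
    obtain ⟨y, hy⟩ := (IsIntegrallyClosedIn.isIntegral_iff (R := O) (A := K)).1 h1
    rw [← hy]; exact y.2
  · intro h
    by_contra hz
    have hz' : z ∉ (integralClosure P K).toSubring := hz
    have : IsIntegrallyClosedIn (integralClosure P K).toSubring K :=
      inferInstanceAs (IsIntegrallyClosedIn (integralClosure P K) K)
    obtain ⟨V, hV, hzV⟩ := Subring.exists_le_valuationSubring_of_isIntegrallyClosedIn hz'
    exact hzV (h V fun r => hV ((integralClosure P K).algebraMap_mem r))

theorem finDim_of_gen {K : Type} [Field K] [Algebra ℂ K] {S : Set K} (hS : Gen S)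
    {L : Type} [Field L] [Algebra L K] (hC : ∀ c : ℂ, ∃ l : L, algebraMap L K l = algebraMap ℂ K c)
    (hint : ∀ z ∈ S, IsIntegral L z) : FiniteDimensional L K := by
  obtain ⟨Z, hZ, hZtop, hZpow⟩ := hS.gen
  have hrange : ∀ F : IntermediateField L K, Set.range (algebraMap ℂ K) ⊆ F.toSubfield := by
    rintro F _ ⟨c, rfl⟩
    obtain ⟨l, hl⟩ := hC c
    rw [← hl]; exact F.algebraMap_mem l
  have h1 : ∀ z ∈ Z, IsIntegral L z := by
    intro z hz
    obtain ⟨n, hn, hzn⟩ := hZpow z hz
    have h2 : (IntermediateField.adjoin ℂ S).toSubfield ≤ (algebraicClosure L K).toSubfield :=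
      IntermediateField.adjoin_le_subfield ℂ S (hrange _) (fun z hz => hint z hz)
    have h3 : IsAlgebraic L (z ^ n) := mem_algebraicClosure_iff.1 (h2 hzn)
    exact (h3.of_pow hn).isIntegral
  have : Finite Z := hZ
  have h4 := IntermediateField.finiteDimensional_adjoin h1
  have h5 : IntermediateField.adjoin L Z = ⊤ := by
    rw [eq_top_iff]
    intro x _
    have h6 : (IntermediateField.adjoin ℂ Z).toSubfield ≤ (IntermediateField.adjoin L Z).toSubfield :=
      IntermediateField.adjoin_le_subfield ℂ Z (hrange _) (IntermediateField.subset_adjoin L Z)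
    apply h6
    rw [hZtop]; trivial
  rw [h5] at h4
  exact IntermediateField.topEquiv.toLinearEquiv.finiteDimensional

theorem noether_aux {K : Type} [Field K] [Algebra ℂ K] {S : Set K} (hS : Gen S) {s : ℕ}
    [Algebra (MvPolynomial (Fin s) ℂ) K] [IsScalarTower ℂ (MvPolynomial (Fin s) ℂ) K]
    [FaithfulSMul (MvPolynomial (Fin s) ℂ) K]
    (hint : ∀ z ∈ S, IsIntegral (MvPolynomial (Fin s) ℂ) z) :
    s = 2 ∧ Algebra.IsAlgebraic (MvPolynomial (Fin s) ℂ) K ∧
      Module.Finite (MvPolynomial (Fin s) ℂ) (integralClosure (MvPolynomial (Fin s) ℂ) K) := by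
  set P := MvPolynomial (Fin s) ℂ with hP
  let L := FractionRing P
  let : Algebra L K := FractionRing.liftAlgebra P K
  have : IsScalarTower P L K := FractionRing.isScalarTower_liftAlgebra P K
  have hfin : FiniteDimensional L K := finDim_of_gen hS
    (fun c => ⟨algebraMap P L (algebraMap ℂ P c), by
      rw [← IsScalarTower.algebraMap_apply P L K, ← IsScalarTower.algebraMap_apply ℂ P K]⟩)
    (fun z hz => (hint z hz).tower_top)
  have halg : Algebra.IsAlgebraic P K :=
    (IsFractionRing.comap_isAlgebraic_iff (K := L)).2 inferInstance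
  refine ⟨?_, halg, IsIntegralClosure.finite P L K _⟩
  have h1 := trdeg_add_eq ℂ P (A := K)
  rw [hS.trdeg, trdeg_eq_zero (R := P) (A := K), add_zero, MvPolynomial.trdeg_of_isDomain] at h1
  simp only [Cardinal.mk_fintype, Fintype.card_fin, Cardinal.lift_natCast] at h1
  exact_mod_cast h1

theorem noether : NoetherStmt := by
  intro K _ _ S hS
  let B := Algebra.adjoin ℂ S
  have : Algebra.FiniteType ℂ B := by
    rw [← Subalgebra.fg_iff_finiteType]
    exact Subalgebra.fg_def.2 ⟨S, hS.fin, rfl⟩
  obtain ⟨s, g0, hinj, hint⟩ := exists_integral_inj_algHom_of_fg ℂ B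
  let g := B.val.comp g0
  have hginj : Function.Injective g := Subtype.val_injective.comp hinj
  let : Algebra (MvPolynomial (Fin s) ℂ) K := g.toRingHom.toAlgebra
  have : IsScalarTower ℂ (MvPolynomial (Fin s) ℂ) K :=
    IsScalarTower.of_algebraMap_eq fun c => (g.commutes c).symm
  have : FaithfulSMul (MvPolynomial (Fin s) ℂ) K :=
    (faithfulSMul_iff_algebraMap_injective _ _).2 hginj
  have hSint : ∀ z ∈ S, IsIntegral (MvPolynomial (Fin s) ℂ) z := by
    intro z hz
    obtain ⟨p, hp, hp2⟩ := hint ⟨z, Algebra.subset_adjoin hz⟩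
    refine ⟨p, hp, ?_⟩
    have := congrArg B.val.toRingHom hp2
    rw [Polynomial.hom_eval₂, map_zero] at this
    exact this
  obtain ⟨rfl, halg, hfin⟩ := noether_aux hS hSint
  refine ⟨g, hginj, fun r => (g0 r).2, fun z => ?_, halg, hfin⟩
  rw [mem_WW, isIntegral_iff_val]
  constructor
  · intro h O hO
    refine h O ⟨fun c => ?_, fun w hw => (isIntegral_iff_val w).1 (hSint w hw) O hO⟩
    rw [← g.commutes c]; exact hO _
  · intro h O hO
    refine h O fun r => ?_
    exact (Algebra.adjoin_le (S := WW S) (fun _ hw => subset_WW hw) (g0 r).2) O hO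

/-- elements of `O` with constant residue -/
def cstAlg {K : Type} [Field K] [Algebra ℂ K] (O : ValuationSubring K)
    (hO : ∀ c : ℂ, algebraMap ℂ K c ∈ O) : Subalgebra ℂ K where
  carrier := {z | Cst O z}
  mul_mem' := by
    rintro a b ⟨c, hc⟩ ⟨d, hd⟩
    refine ⟨c * d, ?_⟩
    have e : a * b - algebraMap ℂ K (c * d) =
        (a - algebraMap ℂ K c) * (b - algebraMap ℂ K d) +
          ((a - algebraMap ℂ K c) * algebraMap ℂ K d + algebraMap ℂ K c * (b - algebraMap ℂ K d)) := by
      rw [map_mul]; ring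
    have hc' := (O.valuation_le_one_iff _).2 (hO c)
    have hd' := (O.valuation_le_one_iff _).2 (hO d)
    rw [e]
    refine Valuation.map_add_lt _ ?_ (Valuation.map_add_lt _ ?_ ?_)
    · rw [map_mul]; exact mul_lt_one_of_nonneg_of_lt_one_left zero_le hc hd.le
    · rw [map_mul]; exact mul_lt_one_of_nonneg_of_lt_one_left zero_le hc hd'
    · rw [map_mul]; exact mul_lt_one_of_nonneg_of_lt_one_right hc' zero_le hd
  add_mem' := by
    rintro a b ⟨c, hc⟩ ⟨d, hd⟩
    refine ⟨c + d, ?_⟩
    have e : a + b - algebraMap ℂ K (c + d) = (a - algebraMap ℂ K c) + (b - algebraMap ℂ K d) := by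
      rw [map_add]; ring
    rw [e]
    exact Valuation.map_add_lt _ hc hd
  algebraMap_mem' c := ⟨c, by simp⟩

theorem not_dvd_both {π : R} (hπ : Prime π) (c0 c1 : ℂ) (h0 : π ∣ X 0 - C c0)
    (h1 : π ∣ X 1 - C c1) : False := by
  -- substitute `X 0 ↦ c0`: `π` is associated to `X 0 - C c0`
  have hirr : Irreducible (X 0 - C c0 : R) := by
    let e : R ≃ₐ[ℂ] R := AlgEquiv.ofAlgHom
      (aeval fun i => X i + C c0) (aeval fun i => X i - C c0)
      (by ext i; simp) (by ext i; simp)
    have h2 : e (X 0 - C c0) = X 0 := by simp [e]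
    have h3 : Irreducible (X 0 : R) := (MvPolynomial.X_prime (i := (0 : Fin 2)) (R := ℂ)).irreducible
    rw [← h2] at h3
    exact (MulEquiv.irreducible_iff e).1 h3
  have h2 : (X 0 - C c0 : R) ∣ π := ((hπ.irreducible.associated_of_dvd hirr h0).symm).dvd
  have h3 := map_dvd (eval (fun i : Fin 2 => if i = 0 then c0 else c1 + 1)) (h2.trans h1)
  simp at h3

theorem hartogs : HartogsStmt := by
  intro K _ _ S hS f hf
  obtain ⟨g, hginj, hgS, h⟩ := noether K S hS
  let : Algebra R K := g.toRingHom.toAlgebra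
  obtain ⟨hW, halg, -⟩ := h
  have : FaithfulSMul R K := (faithfulSMul_iff_algebraMap_injective _ _).2 hginj
  have hg : ∀ r, algebraMap R K r = g r := fun _ => rfl
  let L := FractionRing R
  let : Algebra L K := FractionRing.liftAlgebra R K
  have : IsScalarTower R L K := FractionRing.isScalarTower_liftAlgebra R K
  have halgL : Algebra.IsAlgebraic L K := (IsFractionRing.comap_isAlgebraic_iff (K := L)).1 halg
  have hfL : IsIntegral L f := (halgL.isAlgebraic f).isIntegral
  rw [hW]
  have key : ∀ π : R, Prime π → ∀ n, ∃ a b : R, ¬ π ∣ b ∧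
      (minpoly L f).coeff n = algebraMap R L a * (algebraMap R L b)⁻¹ := by
    intro π hπ n
    have hprime : (Ideal.span {π}).IsPrime := (Ideal.span_singleton_prime hπ.ne_zero).2 hπ
    let M := (Ideal.span {π}).primeCompl
    have hM : M ≤ nonZeroDivisors R := Ideal.primeCompl_le_nonZeroDivisors _
    let T := Localization.subalgebra.ofField L M hM
    have hT : ∀ x : L, x ∈ T ↔ ∃ (a s : R) (_ : s ∈ M), x = algebraMap R L a * (algebraMap R L s)⁻¹ :=
      fun _ => Iff.rfl
    have hMd : ∀ s, s ∈ M ↔ ¬ π ∣ s := fun s => by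
      simp only [M, Ideal.mem_primeCompl_iff, Ideal.mem_span_singleton]
    have : IsIntegrallyClosed T := isIntegrallyClosed_of_isLocalization T M hM
    have hfT : IsIntegral T f := by
      rw [isIntegral_iff_val]
      intro O hO
      have hTK : ∀ x : T, algebraMap T K x = algebraMap L K x := fun _ => rfl
      have hRO : ∀ r, algebraMap R K r ∈ O := fun r => by
        rw [IsScalarTower.algebraMap_apply R L K]
        exact hO ⟨_, T.algebraMap_mem r⟩
      have hunit : ∀ s, ¬ π ∣ s → ¬ O.valuation (g s) < 1 := by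
        intro s hs hlt
        have h1 : (algebraMap R L s)⁻¹ ∈ T := (hT _).2 ⟨1, s, (hMd s).2 hs, by simp⟩
        have h2 := hO ⟨_, h1⟩
        rw [hTK, map_inv₀, ← IsScalarTower.algebraMap_apply R L K, hg] at h2
        have h3 := (O.valuation_le_one_iff _).2 h2
        have hs0 : g s ≠ 0 := by
          rw [map_ne_zero_iff _ hginj]
          rintro rfl
          exact hs (dvd_zero π)
        have h4 : O.valuation (g s * (g s)⁻¹) < 1 := by
          rw [map_mul]; exact mul_lt_one_of_nonneg_of_lt_one_left zero_le hlt h3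
        rw [mul_inv_cancel₀ hs0, map_one] at h4
        exact lt_irrefl _ h4
      have hCO : ∀ c : ℂ, algebraMap ℂ K c ∈ O := fun c => by
        rw [← g.commutes c]; exact hRO _
      refine hf O ⟨⟨hCO, fun z hz => (isIntegral_iff_val z).1 ((hW z).1 (subset_WW hz)) O hRO⟩, ?_⟩
      by_contra hall
      push Not at hall
      have hle : Algebra.adjoin ℂ S ≤ cstAlg O hCO := Algebra.adjoin_le hall
      obtain ⟨c0, hc0⟩ : Cst O (g (X 0)) := hle (hgS _)
      obtain ⟨c1, hc1⟩ : Cst O (g (X 1)) := hle (hgS _)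
      refine not_dvd_both hπ c0 c1 ?_ ?_
      · by_contra h0
        exact hunit _ h0 (by rwa [map_sub, algHom_C])
      · by_contra h0
        exact hunit _ h0 (by rwa [map_sub, algHom_C])
    rw [minpoly.isIntegrallyClosed_eq_field_fractions' L hfT, Polynomial.coeff_map]
    obtain ⟨a, b, hb, e⟩ := (hT _).1 ((minpoly T f).coeff n).2
    exact ⟨a, b, (hMd b).1 hb, e⟩
  have hlift : minpoly L f ∈ Polynomial.lifts (algebraMap R L) := by
    rw [Polynomial.lifts_iff_coeff_lifts]
    intro n
    obtain ⟨a, b, hab, e⟩ := IsFractionRing.exists_reduced_fraction R ((minpoly L f).coeff n)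
    have hb0 : (b : R) ≠ 0 := nonZeroDivisors.coe_ne_zero b
    by_cases hu : IsUnit (b : R)
    · obtain ⟨u, hu⟩ := hu
      refine ⟨a * ↑u⁻¹, ?_⟩
      rw [← e, eq_comm, IsLocalization.mk'_eq_iff_eq_mul, ← map_mul, ← hu]
      simp
    · exfalso
      obtain ⟨π, hπ, hπb⟩ := WfDvdMonoid.exists_irreducible_factor hu hb0
      obtain ⟨a', b', hb', e'⟩ := key π hπ.prime n
      have hb'0 : algebraMap R L b' ≠ 0 := by
        rw [map_ne_zero_iff _ (IsFractionRing.injective R L)]
        rintro rfl
        exact hb' (dvd_zero π)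
      rw [e', IsLocalization.mk'_eq_iff_eq_mul] at e
      have e2 : a * b' = a' * b := by
        apply IsFractionRing.injective R L
        rw [map_mul, map_mul, e, mul_right_comm, inv_mul_cancel_right₀ hb'0]
      have h1 : π ∣ a * b' := e2 ▸ Dvd.dvd.mul_left hπb a'
      rcases hπ.prime.dvd_or_dvd h1 with h2 | h2
      · exact hπ.not_isUnit (hab h2 hπb)
      · exact hb' h2
  obtain ⟨q, hq, -, hqm⟩ := Polynomial.lifts_and_degree_eq_and_monic hlift (minpoly.monic hfL)
  refine ⟨q, hqm, ?_⟩
  have := minpoly.aeval L f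
  rwa [← hq, Polynomial.aeval_map_algebraMap] at this

end Crest.Agent.R278
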