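import Crest.Agent.R278.Gamma
import Crest.Agent.R278.Data
import Crest.Agent.R278.Noether
import Crest.Agent.R278.Abstract
import Crest.Agent.R278.Field

/-!
Row 278: the counterexample.
-/

set_option autoImplicit false

noncomputable section

namespace Crest.Agent.R278

theorem Ctx.goal {K : Type} [Field K] [Algebra ℂ K] (c : Ctx K) : Goal := by
  have hW : ∀ i, ∀ a ∈ WW c.S, c.δ i a ∈ WW c.S := by
    intro i a ha
    refine hartogs K c.S c.gen _ fun O hG => ?_
    haveI : HC O := ⟨hG.1.1⟩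
    rw [← O.valuation_le_one_iff]
    rcases c.classify O hG with h | h | ⟨j, g, σ, h⟩
    · exact h.stab hG.1 i a ha
    · exact h.stab hG.1 i a ha
    · exact h.stab hG.1 i a ha
  obtain ⟨E, hE, h1, h2, h3⟩ := c.exists_E
  obtain ⟨h4, h5, h6⟩ := c.at_E E h1 h2 h3
  refine abstract_main noether hartogs K c.S c.gen (c.δ 0) (c.δ 1) (hW 0) (hW 1)
    ⟨c.s, c.y, ?_⟩ (fun O hG => ?_) E h4 h5 (h6 0) (h6 1)
  · change c.bb _ _ ≠ 0
    rw [Ctx.bb_eq]
    exact mul_ne_zero (mul_ne_zero (c.h_ne 0) (c.h_ne 1)) c.brV_ne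
  · haveI : HC O := ⟨hG.1.1⟩
    rcases c.classify O hG with h | h | ⟨j, g, σ, h⟩
    · exact h.brk hG.1
    · exact h.brk hG.1
    · exact h.brk hG.1 hW

theorem goal : Goal := by
  obtain ⟨d⟩ := exists_dat
  obtain ⟨K, _, _, φ, h, pkg⟩ := exists_field d.N d.num d.T d.N_pos d.num_ne d.T_ne
  choose V hV using fun i : Fin 2 => pkg.ext (MvPolynomial.mkDerivation ℂ ![d.vx i, d.vy i])
  exact Ctx.goal (K := K)
    { d := d, φ := φ, h := h, V := V, pkg := pkg
      Vx := fun i => by rw [hV, XX, MvPolynomial.mkDerivation_X]; rfl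
      Vy := fun i => by rw [hV, YY, MvPolynomial.mkDerivation_X]; rfl
      VR := fun i r => ⟨_, hV i r⟩ }

end Crest.Agent.R278
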