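import Crest.Agent.R278.Defs

/-!
Row 278: polynomials in the plane, four lines through the origin, interpolation on the lines.
-/

set_option autoImplicit false

open Polynomial

noncomputable section

namespace Crest.Agent.R278

def xx : Fin 4 → ℂ := ![9, 40, -9, -40]
def XX : R := MvPolynomial.X 0
def YY : R := MvPolynomial.X 1
def ell (j : Fin 4) : R := YY - algebraMap ℂ R (xx j) * XX
def FF : R := ell 0 * ell 1 * ell 2 * ell 3
def Fc : Fin 4 → R :=
  ![ell 1 * ell 2 * ell 3, ell 0 * ell 2 * ell 3, ell 0 * ell 1 * ell 3, ell 0 * ell 1 * ell 2]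
def PP : Fin 4 → ℂ := ![-27342, 121520, 27342, -121520]
/-- restriction to the line `j` -/
def res (j : Fin 4) : R →ₐ[ℂ] ℂ[X] := MvPolynomial.aeval ![X, C (xx j) * X]
/-- a polynomial in the first variable -/
def up : ℂ[X] →ₐ[ℂ] R := Polynomial.aeval XX
/-- total degree bound -/
def Dg (e : ℕ) (f : R) : Prop := f.totalDegree ≤ e

@[simp] lemma res_XX (j : Fin 4) : res j XX = X := by simp [res, XX]
@[simp] lemma res_YY (j : Fin 4) : res j YY = C (xx j) * X := by simp [res, YY]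
@[simp] lemma up_X : up X = XX := by simp [up]
@[simp] lemma up_C (c : ℂ) : up (C c) = algebraMap ℂ R c := by simp [up]
@[simp] lemma res_alg (j : Fin 4) (c : ℂ) : res j (algebraMap ℂ R c) = C c := by
  rw [AlgHom.commutes]; rfl

@[simp] lemma res_up (j : Fin 4) (p : ℂ[X]) : res j (up p) = p := by
  have : (res j).comp up = AlgHom.id ℂ _ := by
    apply Polynomial.algHom_ext; simp
  exact DFunLike.congr_fun this p

lemma res_ell (j l : Fin 4) : res j (ell l) = C (xx j - xx l) * X := by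
  simp only [ell, map_sub, map_mul, res_XX, res_YY, res_alg]; ring

@[simp] lemma res_ell_self (j : Fin 4) : res j (ell j) = 0 := by simp [res_ell]

lemma xx_inj {j l : Fin 4} (h : xx j = xx l) : j = l := by
  fin_cases j <;> fin_cases l <;> simp_all [xx] <;> norm_num at h

lemma PP_ne (j : Fin 4) : PP j ≠ 0 := by fin_cases j <;> simp [PP]

lemma ell_mul_Fc (j : Fin 4) : ell j * Fc j = FF := by
  fin_cases j <;> simp [Fc, FF] <;> ring

lemma res_Fc_self (j : Fin 4) : res j (Fc j) = C (PP j) * X ^ 3 := by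
  fin_cases j <;> simp [Fc, res_ell, xx, PP, map_ofNat] <;> ring

lemma ell_ne (j : Fin 4) : ell j ≠ 0 := by
  intro h
  have := congrArg (MvPolynomial.eval ![0, 1]) h
  simp [ell, XX, YY] at this

lemma FF_eq : FF = ∏ l, ell l := by rw [FF, Fin.prod_univ_four]

lemma Fc_eq (j : Fin 4) : Fc j = ∏ l ∈ Finset.univ.erase j, ell l := by
  apply mul_left_cancel₀ (ell_ne j)
  rw [ell_mul_Fc, FF_eq, Finset.mul_prod_erase _ _ (Finset.mem_univ j)]

lemma ell_dvd_Fc {j l : Fin 4} (h : l ≠ j) : ell l ∣ Fc j := by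
  rw [Fc_eq]; exact Finset.dvd_prod_of_mem _ (by simp [h])

lemma res_Fc_ne {j l : Fin 4} (h : j ≠ l) : res j (Fc l) = 0 := by
  obtain ⟨c, hc⟩ := ell_dvd_Fc h
  rw [hc]; simp

lemma exists_res (j : Fin 4) (f : R) : ∃ ρ : R, f = up (res j f) + ell j * ρ := by
  induction f using MvPolynomial.induction_on with
  | C a =>
    refine ⟨0, ?_⟩
    have : (MvPolynomial.C a : R) = algebraMap ℂ R a := rfl
    rw [this]; simp
  | add p q hp hq =>
    obtain ⟨a, ha⟩ := hp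
    obtain ⟨b, hb⟩ := hq
    refine ⟨a + b, ?_⟩
    rw [map_add, map_add]; linear_combination ha + hb
  | mul_X p n hp =>
    obtain ⟨a, ha⟩ := hp
    fin_cases n
    · refine ⟨a * XX, ?_⟩
      change p * XX = up (res j (p * XX)) + _
      rw [map_mul, map_mul, res_XX, up_X]; linear_combination XX * ha
    · refine ⟨a * YY + up (res j p), ?_⟩
      change p * YY = up (res j (p * YY)) + _
      rw [map_mul, map_mul, res_YY, map_mul, up_X, up_C]
      simp only [ell] at ha ⊢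
      linear_combination YY * ha

lemma XX_ne : XX ≠ 0 := MvPolynomial.X_ne_zero _

lemma FF_ne : FF ≠ 0 := by
  simp [FF, ell_ne]

/-! ### degree bounds -/

namespace Dg
variable {a b : ℕ} {f g : R}
lemma mono (h : Dg a f) (hab : a ≤ b) : Dg b f := le_trans h hab
lemma mul (hf : Dg a f) (hg : Dg b g) : Dg (a + b) (f * g) :=
  (MvPolynomial.totalDegree_mul _ _).trans (add_le_add hf hg)
lemma add (hf : Dg a f) (hg : Dg a g) : Dg a (f + g) :=
  (MvPolynomial.totalDegree_add _ _).trans (max_le hf hg)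
lemma neg (hf : Dg a f) : Dg a (-f) := by
  unfold Dg; rwa [MvPolynomial.totalDegree_neg]
lemma sub (hf : Dg a f) (hg : Dg a g) : Dg a (f - g) := by
  rw [sub_eq_add_neg]; exact hf.add hg.neg
lemma pow (hf : Dg a f) (n : ℕ) : Dg (n * a) (f ^ n) :=
  (MvPolynomial.totalDegree_pow _ _).trans (Nat.mul_le_mul_left _ hf)
lemma zero (a : ℕ) : Dg a 0 := by simp [Dg]
lemma alg (c : ℂ) : Dg 0 (algebraMap ℂ R c) := by
  simp [Dg]
lemma cmul (c : ℂ) (hf : Dg a f) : Dg a (algebraMap ℂ R c * f) := by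
  simpa using (alg c).mul hf
lemma sum {ι : Type} (s : Finset ι) (F : ι → R) (h : ∀ i ∈ s, Dg a (F i)) :
    Dg a (∑ i ∈ s, F i) :=
  Finset.sum_induction _ (Dg a) (fun _ _ => add) (zero a) h
lemma xX : Dg 1 XX := by simp [Dg, XX]
lemma yY : Dg 1 YY := by simp [Dg, YY]
lemma ell (j : Fin 4) : Dg 1 (ell j) := yY.sub (xX.cmul _)
lemma ff : Dg 4 FF := (((ell 0).mul (ell 1)).mul (ell 2)).mul (ell 3)
lemma fc (j : Fin 4) : Dg 3 (Fc j) := by
  fin_cases j <;> exact ((ell _).mul (ell _)).mul (ell _)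
lemma up {p : ℂ[X]} (hp : p.natDegree ≤ a) : Dg a (up p) := by
  rw [R278.up, aeval_eq_sum_range]
  refine sum _ _ fun i hi => ?_
  rw [Algebra.smul_def]
  refine cmul _ ((xX.pow i).mono ?_)
  simp at hi; omega
end Dg

lemma deg_induction {e : ℕ} {p : R → Prop} (h0 : p 0) (hadd : ∀ f g, p f → p g → p (f + g))
    (hmono : ∀ (a b : ℕ) (c : ℂ), a + b ≤ e → p (algebraMap ℂ R c * XX ^ a * YY ^ b))
    {f : R} (hf : Dg e f) : p f := by
  rw [f.as_sum]
  refine Finset.sum_induction _ p hadd h0 fun d hd => ?_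
  have h1 : MvPolynomial.monomial d (f.coeff d) =
      algebraMap ℂ R (f.coeff d) * XX ^ d 0 * YY ^ d 1 := by
    rw [MvPolynomial.monomial_eq, Finsupp.prod_fintype _ _ (by simp), Fin.prod_univ_two, mul_assoc]
    rfl
  rw [h1]
  apply hmono
  have := (MvPolynomial.le_totalDegree hd).trans hf
  rwa [Finsupp.sum_fintype _ _ (by simp), Fin.sum_univ_two] at this

/-! ### interpolation -/

lemma res_sum_Fc (u : Fin 4 → ℂ[X]) (j : Fin 4) :
    res j (∑ l, Fc l * up (u l)) = C (PP j) * X ^ 3 * u j := by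
  rw [map_sum, Finset.sum_eq_single j]
  · rw [map_mul, res_Fc_self, res_up]
  · intro l _ hl
    rw [map_mul, res_Fc_ne hl.symm, zero_mul]
  · simp

theorem interp (e : ℕ) (he : 3 ≤ e) (p : Fin 4 → ℂ[X]) (c0 : ℂ) (a b : Fin 4 → ℂ)
    (hdeg : ∀ j, (p j).natDegree ≤ e)
    (hj : ∀ j, X ^ 3 ∣ p j - (C c0 + C (a j) * X + C (b j) * X ^ 2))
    (ha1 : ∑ j, a j / PP j = 0) (ha2 : ∑ j, a j * xx j / PP j = 0) (hb : ∑ j, b j / PP j = 0) :
    ∃ f : R, Dg e f ∧ ∀ j, res j f = p j := by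
  obtain ⟨α, β, hαβ⟩ : ∃ α β : ℂ, ∀ j, a j = α + β * xx j := by
    refine ⟨a 0 - 9 * ((a 1 - a 0) / 31), (a 1 - a 0) / 31, fun j => ?_⟩
    simp only [Fin.sum_univ_four, PP, xx] at ha1 ha2
    simp at ha1 ha2
    fin_cases j
    · simp [xx]; ring
    · simp [xx]; ring
    · simp [xx]; linear_combination 35280 * ha1 + 882 * ha2
    · simp [xx]; linear_combination 35280 * ha1 + 3920 * ha2
  obtain ⟨γ0, γ1, γ2, hγ⟩ : ∃ γ0 γ1 γ2 : ℂ, ∀ j, b j = γ0 + γ1 * xx j + γ2 * xx j ^ 2 := by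
    refine ⟨(b 0 + b 2) / 2 - 81 * ((b 1 - (b 0 + b 2) / 2 - 40 * ((b 0 - b 2) / 18)) / 1519),
      (b 0 - b 2) / 18, (b 1 - (b 0 + b 2) / 2 - 40 * ((b 0 - b 2) / 18)) / 1519, fun j => ?_⟩
    simp only [Fin.sum_univ_four, PP] at hb
    simp at hb
    fin_cases j
    · simp [xx]; ring
    · simp [xx]; ring
    · simp [xx]; ring
    · simp [xx]; linear_combination (-121520) * hb
  choose u hu using hj
  have hud : ∀ j, (u j).natDegree ≤ e - 3 := by
    intro j
    by_cases h0 : u j = 0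
    · simp [h0]
    have h1 : (X ^ 3 * u j).natDegree ≤ e := by
      rw [← hu j]
      refine (natDegree_sub_le _ _).trans (max_le (hdeg j) ?_)
      refine le_trans ?_ (by omega : 2 ≤ e)
      compute_degree
    rw [natDegree_X_pow_mul _ h0] at h1
    omega
  refine ⟨algebraMap ℂ R c0 + (algebraMap ℂ R α * XX + algebraMap ℂ R β * YY) +
    (algebraMap ℂ R γ0 * (XX * XX) + algebraMap ℂ R γ1 * (XX * YY) + algebraMap ℂ R γ2 * (YY * YY))
    + ∑ l, Fc l * up (C (PP l)⁻¹ * u l), ?_, fun j => ?_⟩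
  · refine (((Dg.alg _).mono (by omega)).add (((Dg.xX.cmul _).add (Dg.yY.cmul _)).mono
      (by omega))).add ?_ |>.add ?_
    · exact ((((Dg.xX.mul Dg.xX).cmul _).add ((Dg.xX.mul Dg.yY).cmul _)).add
        ((Dg.yY.mul Dg.yY).cmul _)).mono (by omega)
    · refine Dg.sum _ _ fun l _ => ((Dg.fc l).mul (Dg.up (a := e - 3) ?_)).mono (by omega)
      exact (natDegree_C_mul_le _ _).trans (hud l)
  · rw [map_add, res_sum_Fc]
    simp only [map_add, map_mul, res_alg, res_XX, res_YY]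
    have h1 : C (PP j) * C (PP j)⁻¹ = (1 : ℂ[X]) := by
      rw [← map_mul, mul_inv_cancel₀ (PP_ne j), map_one]
    have h2 := hu j
    rw [hαβ j, hγ j] at h2
    simp only [map_add, map_mul, map_pow] at h2
    linear_combination X ^ 3 * u j * h1 - h2

/-! ### jets -/

/-- logarithmic 2-jet -/
def Jet (p : ℂ[X]) (a c : ℂ) : Prop :=
  X ^ 3 ∣ p - (C 1 + C a * X + C (a ^ 2 / 2 + c) * X ^ 2)

lemma Jet.one : Jet 1 0 0 := by simp [Jet]

lemma Jet.mul {p p' : ℂ[X]} {a c a' c' : ℂ} (h : Jet p a c) (h' : Jet p' a' c') :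
    Jet (p * p') (a + a') (c + c') := by
  obtain ⟨u, hu⟩ := h
  obtain ⟨u', hu'⟩ := h'
  have e1 : (a + a') ^ 2 / 2 + (c + c') = (a ^ 2 / 2 + c) + (a' ^ 2 / 2 + c') + a * a' := by ring
  unfold Jet
  rw [e1]
  generalize a ^ 2 / 2 + c = b at *
  generalize a' ^ 2 / 2 + c' = b' at *
  refine ⟨u * p' + (C 1 + C a * X + C b * X ^ 2) * u' + C a * C b' + C b * C a' +
    C b * C b' * X, ?_⟩
  simp only [map_add, map_mul, map_one] at *
  linear_combination p' * hu + (1 + C a * X + C b * X ^ 2) * hu'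

lemma Jet.pow {p : ℂ[X]} {a c : ℂ} (h : Jet p a c) (n : ℕ) : Jet (p ^ n) (n * a) (n * c) := by
  induction n with
  | zero => simpa using Jet.one
  | succ n ih =>
    have := ih.mul h
    rw [pow_succ]
    convert this using 1 <;> push_cast <;> ring

/-- product of powers of four polynomials -/
def DD (q : Fin 4 → ℂ[X]) (t : Fin 4 → ℕ) : ℂ[X] := ∏ g, q g ^ t g

lemma Jet.dd {q : Fin 4 → ℂ[X]} {a c : Fin 4 → ℂ} (h : ∀ g, Jet (q g) (a g) (c g))
    (t : Fin 4 → ℕ) : Jet (DD q t) (∑ g, t g * a g) (∑ g, t g * c g) := by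
  simp only [DD, Fin.prod_univ_four, Fin.sum_univ_four]
  exact ((((h 0).pow _).mul ((h 1).pow _)).mul ((h 2).pow _)).mul ((h 3).pow _)

lemma DD_add (q : Fin 4 → ℂ[X]) (t t' : Fin 4 → ℕ) :
    DD q (fun g => t g + t' g) = DD q t * DD q t' := by
  simp [DD, pow_add, Finset.prod_mul_distrib]

lemma DD_mul (q : Fin 4 → ℂ[X]) (n : ℕ) (t : Fin 4 → ℕ) :
    DD q (fun g => n * t g) = DD q t ^ n := by
  simp only [DD, ← Finset.prod_pow, ← pow_mul, mul_comm]

lemma DD_dvd (q : Fin 4 → ℂ[X]) {t t' : Fin 4 → ℕ} (h : ∀ g, t g ≤ t' g) : DD q t ∣ DD q t' :=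
  Finset.prod_dvd_prod_of_dvd _ _ fun g _ => pow_dvd_pow _ (h g)

lemma DD_eval_zero {q : Fin 4 → ℂ[X]} (h : ∀ g, (q g).eval 0 = 1) (t : Fin 4 → ℕ) :
    (DD q t).eval 0 = 1 := by
  simp [DD, eval_prod, h]

lemma DD_ne {q : Fin 4 → ℂ[X]} (h : ∀ g, (q g).eval 0 = 1) (t : Fin 4 → ℕ) : DD q t ≠ 0 := by
  intro h0
  have := DD_eval_zero h t
  simp [h0] at this

lemma DD_natDegree_le {q : Fin 4 → ℂ[X]} {dq : Fin 4 → ℕ} (h : ∀ g, (q g).natDegree ≤ dq g)
    (t : Fin 4 → ℕ) : (DD q t).natDegree ≤ ∑ g, dq g * t g := by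
  refine (natDegree_prod_le _ _).trans (Finset.sum_le_sum fun g _ => ?_)
  refine natDegree_pow_le.trans ?_
  rw [mul_comm]; exact Nat.mul_le_mul_right _ (h g)

lemma DD_natDegree {q : Fin 4 → ℂ[X]} (h0 : ∀ g, (q g).eval 0 = 1) {dq : Fin 4 → ℕ}
    (h : ∀ g, (q g).natDegree = dq g) (t : Fin 4 → ℕ) :
    (DD q t).natDegree = ∑ g, dq g * t g := by
  rw [DD, natDegree_prod]
  · refine Finset.sum_congr rfl fun g _ => ?_
    rw [natDegree_pow, h, mul_comm]
  · intro g _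
    refine pow_ne_zero _ fun h1 => ?_
    have := h0 g
    simp [h1] at this

/-! ### Newton ideals -/

/-- the strict Newton ideal along the line `j` -/
def NI (j : Fin 4) (q : Fin 4 → ℂ[X]) (m t : Fin 4 → ℕ) : Ideal R :=
  Ideal.span {z | ∃ n : ℕ, 1 ≤ n ∧ z = ell j ^ n * up (DD q fun g => t g + 1 - n * m g)}

/-- `f` has degree `e` and the strict Newton shape `t` -/
structure Newt (q : Fin 4 → Fin 4 → ℂ[X]) (m t : Fin 4 → Fin 4 → ℕ) (e : ℕ) (f : R) : Prop where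
  deg : Dg e f
  mem : ∀ j, f - up (DD (q j) (t j)) ∈ NI j (q j) (m j) (t j)
  nd : ∀ j, (DD (q j) (t j)).natDegree = e
  pos : ∀ j g, 1 ≤ t j g

lemma NI_le (j : Fin 4) (q : Fin 4 → ℂ[X]) (m t : Fin 4 → ℕ) :
    NI j q m t ≤ Ideal.span {ell j} := by
  rw [NI, Ideal.span_le]
  rintro _ ⟨n, hn, rfl⟩
  exact Ideal.mem_span_singleton.2 ((dvd_pow_self _ (by omega)).mul_right _)

lemma Newt.res_eq {q : Fin 4 → Fin 4 → ℂ[X]} {m t : Fin 4 → Fin 4 → ℕ} {e : ℕ} {f : R}
    (h : Newt q m t e f) (j : Fin 4) : res j f = DD (q j) (t j) := by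
  obtain ⟨c, hc⟩ := Ideal.mem_span_singleton.1 (NI_le _ _ _ _ (h.mem j))
  have := congrArg (res j) hc
  simpa [sub_eq_zero] using this

lemma exists_corr (D r : ℂ[X]) (hD : D.eval 0 = 1) (c : ℂ) (hc : c ≠ 0) (n : ℕ) :
    ∃ u : ℂ[X], u.natDegree ≤ D.natDegree ∧ D ∣ r + (C c * X ^ 3) ^ n * u := by
  have hD0 : D ≠ 0 := by rintro rfl; simp at hD
  have h1 : IsCoprime X D := by
    obtain ⟨a, ha⟩ : X ∣ D - 1 := by rw [X_dvd_iff]; simp [coeff_zero_eq_eval_zero, hD]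
    exact ⟨-a, 1, by linear_combination ha⟩
  have h2 : IsCoprime ((C c * X ^ 3) ^ n) D := by
    refine IsCoprime.pow_left (IsCoprime.mul_left ?_ h1.pow_left)
    refine ⟨C c⁻¹, 0, ?_⟩
    rw [← map_mul, inv_mul_cancel₀ hc]; simp
  obtain ⟨a, b, hab⟩ := h2
  refine ⟨(-r * a) % D, ?_, ?_⟩
  · exact natDegree_le_natDegree (degree_mod_lt _ hD0).le
  · have := EuclideanDomain.div_add_mod (-r * a) D
    refine ⟨r * b - (C c * X ^ 3) ^ n * (-r * a / D), ?_⟩
    linear_combination (C c * X ^ 3) ^ n * this - r * hab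

theorem exists_newt (q : Fin 4 → Fin 4 → ℂ[X]) (m t dq : Fin 4 → Fin 4 → ℕ) (e n1 : ℕ)
    (hq0 : ∀ j g, (q j g).eval 0 = 1) (hdq : ∀ j g, (q j g).natDegree ≤ dq j g)
    (T0 : R) (hT0 : Dg e T0) (hres : ∀ j, res j T0 = DD (q j) (t j))
    (hn1 : ∀ j g, t j g + 1 ≤ (n1 + 1) * m j g)
    (hbud : ∀ n, n < n1 → ∀ j,
      (∑ g, dq j g * (t j g + 1 - (n + 1) * m j g)) + 3 + 4 * (n + 1) ≤ e) :
    ∃ T : R, Dg e T ∧ ∀ j, T - up (DD (q j) (t j)) ∈ NI j (q j) (m j) (t j) := by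
  have key : ∀ n, n ≤ n1 → ∃ T : R, Dg e T ∧ ∀ j, ∃ ρ : R,
      T - up (DD (q j) (t j)) - ell j ^ (n + 1) * ρ ∈ NI j (q j) (m j) (t j) := by
    intro n
    induction n with
    | zero =>
      intro _
      refine ⟨T0, hT0, fun j => ?_⟩
      obtain ⟨ρ, hρ⟩ := exists_res j T0
      refine ⟨ρ, ?_⟩
      rw [hres] at hρ
      have : T0 - up (DD (q j) (t j)) - ell j ^ (0 + 1) * ρ = 0 := by linear_combination hρ
      rw [this]; exact zero_mem _
    | succ n ih =>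
      intro hn
      obtain ⟨T, hT, hρ⟩ := ih (by omega)
      choose ρ hρ using hρ
      have hu := fun j => exists_corr (DD (q j) fun g => t j g + 1 - (n + 1) * m j g)
        (res j (ρ j)) (DD_eval_zero (hq0 j) _) (PP j) (PP_ne j) (n + 2)
      choose u hud hu using hu
      refine ⟨T + FF ^ (n + 1) * ∑ l, Fc l * up (u l), hT.add ?_, fun j => ?_⟩
      · have : Dg (e - 4 * (n + 1)) (∑ l, Fc l * up (u l)) := by
          refine Dg.sum _ _ fun l _ => ((Dg.fc l).mul (Dg.up le_rfl)).mono ?_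
          have h1 := (hud l).trans (DD_natDegree_le (hdq l) _)
          have h2 := hbud n (by omega) l
          omega
        have h2 := hbud n (by omega) 0
        exact ((Dg.ff.pow (n + 1)).mul this).mono (by omega)
      · obtain ⟨ρ', hρ'⟩ := exists_res j (ρ j + Fc j ^ (n + 1) * ∑ l, Fc l * up (u l))
        obtain ⟨c, hc⟩ := hu j
        have h3 : res j (ρ j + Fc j ^ (n + 1) * ∑ l, Fc l * up (u l)) =
            (DD (q j) fun g => t j g + 1 - (n + 1) * m j g) * c := by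
          rw [map_add, map_mul, map_pow, res_sum_Fc, res_Fc_self, ← hc]; ring
        rw [h3, map_mul] at hρ'
        refine ⟨ρ', ?_⟩
        have h4 : ell j ^ (n + 1) * up (DD (q j) fun g => t j g + 1 - (n + 1) * m j g) ∈
            NI j (q j) (m j) (t j) := Ideal.subset_span ⟨n + 1, by omega, rfl⟩
        have h5 := add_mem (hρ j) (Ideal.mul_mem_right (up c) _ h4)
        convert h5 using 1
        rw [← ell_mul_Fc j, mul_pow]
        linear_combination ell j ^ (n + 1) * hρ'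
  obtain ⟨T, hT, hρ⟩ := key n1 le_rfl
  refine ⟨T, hT, fun j => ?_⟩
  obtain ⟨ρ, hρ⟩ := hρ j
  have h4 : ell j ^ (n1 + 1) * up (DD (q j) fun g => t j g + 1 - (n1 + 1) * m j g) ∈
      NI j (q j) (m j) (t j) := Ideal.subset_span ⟨n1 + 1, by omega, rfl⟩
  have h5 : (DD (q j) fun g => t j g + 1 - (n1 + 1) * m j g) = 1 := by
    refine Finset.prod_eq_one fun g _ => ?_
    have := hn1 j g
    simp only [show t j g + 1 - (n1 + 1) * m j g = 0 by omega, pow_zero]
  rw [h5, map_one, mul_one] at h4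
  have := add_mem hρ (Ideal.mul_mem_right ρ _ h4)
  simpa using this

end Crest.Agent.R278
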