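import Crest.Agent.R278.Poly

/-!
Row 278: valuation toolkit.
-/

set_option autoImplicit false

open Polynomial

noncomputable section

namespace Crest.Agent.R278

variable {K : Type} [Field K] [Algebra ℂ K]

/-- `O` contains the constants -/
class HC (O : ValuationSubring K) : Prop where
  out : ∀ c : ℂ, algebraMap ℂ K c ∈ O

section
variable (O : ValuationSubring K) [hO : HC O]

lemma v_alg_le (c : ℂ) : O.valuation (algebraMap ℂ K c) ≤ 1 :=
  (O.valuation_le_one_iff _).2 (hO.out c)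

lemma v_alg {c : ℂ} (hc : c ≠ 0) : O.valuation (algebraMap ℂ K c) = 1 := by
  refine le_antisymm (v_alg_le O c) ?_
  have h1 := v_alg_le O c⁻¹
  rw [map_inv₀, map_inv₀] at h1
  have h0 : O.valuation (algebraMap ℂ K c) ≠ 0 := by simpa using hc
  exact (inv_le_one₀ (zero_lt_iff.2 h0)).1 h1

lemma v_nat {n : ℕ} (hn : n ≠ 0) : O.valuation (n : K) = 1 := by
  rw [← map_natCast (algebraMap ℂ K)]; exact v_alg O (by exact_mod_cast hn)

lemma v_int {n : ℤ} (hn : n ≠ 0) : O.valuation (n : K) = 1 := by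
  rw [← map_intCast (algebraMap ℂ K)]; exact v_alg O (by exact_mod_cast hn)

lemma v_int_le (n : ℤ) : O.valuation (n : K) ≤ 1 := by
  rw [← map_intCast (algebraMap ℂ K)]; exact v_alg_le O _

omit [Algebra ℂ K] hO in
lemma v_add_eq {a b : K} (h : O.valuation b < O.valuation a) :
    O.valuation (a + b) = O.valuation a := O.valuation.map_add_eq_of_lt_left h

omit [Algebra ℂ K] hO in
lemma v_mul_le {a b : K} {x : O.ValueGroup} (ha : O.valuation a ≤ x) (hb : O.valuation b ≤ 1) :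
    O.valuation (a * b) ≤ x := by
  rw [map_mul]; simpa using mul_le_mul' ha hb

omit [Algebra ℂ K] hO in
lemma v_mul_le' {a b : K} {x : O.ValueGroup} (ha : O.valuation a ≤ 1) (hb : O.valuation b ≤ x) :
    O.valuation (a * b) ≤ x := by
  rw [mul_comm]; exact v_mul_le O hb ha

omit [Algebra ℂ K] hO in
lemma v_mul_lt {a b : K} {x : O.ValueGroup} (ha : O.valuation a < x) (hb : O.valuation b ≤ 1) :
    O.valuation (a * b) < x := (v_mul_le O le_rfl hb).trans_lt ha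

omit [Algebra ℂ K] hO in
lemma v_mul_lt' {a b : K} {x : O.ValueGroup} (ha : O.valuation a ≤ 1) (hb : O.valuation b < x) :
    O.valuation (a * b) < x := by
  rw [mul_comm]; exact v_mul_lt O hb ha

/-- the valuation ring as a subalgebra -/
def OA : Subalgebra ℂ K where
  carrier := {z | O.valuation z ≤ 1}
  mul_mem' {a b} ha hb := by
    have : O.valuation (a * b) ≤ 1 := v_mul_le O ha hb
    exact this
  add_mem' {a b} ha hb := by
    have : O.valuation (a + b) ≤ 1 := O.valuation.map_add_le ha hb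
    exact this
  algebraMap_mem' c := v_alg_le O c

lemma mem_OA {z : K} : z ∈ OA O ↔ O.valuation z ≤ 1 := Iff.rfl

variable {O} in
lemma Cst.le_one {z : K} (h : Cst O z) : O.valuation z ≤ 1 := by
  obtain ⟨c, hc⟩ := h
  have := O.valuation.map_add_le hc.le (v_alg_le O c)
  simpa using this

omit hO in
lemma Cst.of_lt {z : K} (h : O.valuation z < 1) : Cst O z := ⟨0, by simpa using h⟩

/-- elements with constant residue -/
def CA : Subalgebra ℂ K where
  carrier := {z | Cst O z}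
  mul_mem' {a b} ha hb := by
    obtain ⟨c, hc⟩ := ha
    have h2 := hb.le_one
    obtain ⟨d, hd⟩ := hb
    refine ⟨c * d, ?_⟩
    have : a * b - algebraMap ℂ K (c * d) =
      (a - algebraMap ℂ K c) * b + algebraMap ℂ K c * (b - algebraMap ℂ K d) := by
      rw [map_mul]; ring
    rw [this]
    exact O.valuation.map_add_lt (v_mul_lt O hc h2) (v_mul_lt' O (v_alg_le O c) hd)
  add_mem' {a b} ha hb := by
    obtain ⟨c, hc⟩ := ha
    obtain ⟨d, hd⟩ := hb
    refine ⟨c + d, ?_⟩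
    have : a + b - algebraMap ℂ K (c + d) = (a - algebraMap ℂ K c) + (b - algebraMap ℂ K d) := by
      rw [map_add]; ring
    rw [this]
    exact O.valuation.map_add_lt hc hd
  algebraMap_mem' c := ⟨c, by simp⟩

lemma mem_CA {z : K} : z ∈ CA O ↔ Cst O z := Iff.rfl

lemma CA_inv {z : K} (hz : z ∈ CA O) (h1 : O.valuation z = 1) : z⁻¹ ∈ CA O := by
  obtain ⟨c, hc⟩ := hz
  have hc0 : c ≠ 0 := by rintro rfl; simp [h1] at hc
  have hz0 : z ≠ 0 := by rintro rfl; simp at h1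
  have hc1 : algebraMap ℂ K c ≠ 0 := by simpa using hc0
  refine ⟨c⁻¹, ?_⟩
  have : z⁻¹ - algebraMap ℂ K c⁻¹ = -(z - algebraMap ℂ K c) * (z⁻¹ * (algebraMap ℂ K c)⁻¹) := by
    rw [map_inv₀]; field_simp; ring
  rw [this]
  refine v_mul_lt O (by rwa [Valuation.map_neg]) ?_
  simp [h1, v_alg O hc0]

/-- elements of `O` mapped to `O` by a derivation -/
def St (δ : Derivation ℂ K K) : Subalgebra ℂ K where
  carrier := {z | O.valuation z ≤ 1 ∧ O.valuation (δ z) ≤ 1}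
  mul_mem' {a b} ha hb := ⟨v_mul_le O ha.1 hb.1, by
    rw [Derivation.leibniz]
    exact O.valuation.map_add_le (v_mul_le O ha.1 hb.2) (v_mul_le O hb.1 ha.2)⟩
  add_mem' ha hb := ⟨O.valuation.map_add_le ha.1 hb.1, by
    rw [map_add]; exact O.valuation.map_add_le ha.2 hb.2⟩
  algebraMap_mem' c := ⟨v_alg_le O c, by simp⟩

lemma mem_St {δ : Derivation ℂ K K} {z : K} :
    z ∈ St O δ ↔ O.valuation z ≤ 1 ∧ O.valuation (δ z) ≤ 1 := Iff.rfl

lemma St_inv {δ : Derivation ℂ K K} {z : K} (hz : z ∈ St O δ) (h1 : O.valuation z = 1) :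
    z⁻¹ ∈ St O δ := by
  refine ⟨by simp [h1], ?_⟩
  rw [Derivation.leibniz_inv]
  simpa [h1] using hz.2

end

lemma aeval_mem {A : Subalgebra ℂ K} {z : K} (hz : z ∈ A) (p : ℂ[X]) : aeval z p ∈ A := by
  rw [aeval_eq_sum_range]
  exact A.sum_mem fun i _ => A.smul_mem (A.pow_mem hz i) _

lemma hom_mem (φ : R →ₐ[ℂ] K) {A : Subalgebra ℂ K} {u : K} (hu : u ∈ A) (hx : u * φ XX ∈ A)
    (hy : u * φ YY ∈ A) {e : ℕ} {f : R} (hf : Dg e f) : u ^ e * φ f ∈ A := by
  refine deg_induction (p := fun f => u ^ e * φ f ∈ A) (by simp) ?_ ?_ hf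
  · intro f g hf hg
    rw [map_add, mul_add]; exact A.add_mem hf hg
  · intro a b c hab
    obtain ⟨d, rfl⟩ := Nat.exists_eq_add_of_le hab
    have : u ^ (a + b + d) * φ (algebraMap ℂ R c * XX ^ a * YY ^ b) =
        algebraMap ℂ K c * ((u * φ XX) ^ a * (u * φ YY) ^ b * u ^ d) := by
      simp only [map_mul, map_pow, AlgHom.commutes]; ring
    rw [this]
    exact A.mul_mem (A.algebraMap_mem c)
      (A.mul_mem (A.mul_mem (A.pow_mem hx a) (A.pow_mem hy b)) (A.pow_mem hu d))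

lemma phi_mem (φ : R →ₐ[ℂ] K) {A : Subalgebra ℂ K} (hx : φ XX ∈ A) (hy : φ YY ∈ A) (f : R) :
    φ f ∈ A := by
  simpa using hom_mem φ A.one_mem (by simpa using hx) (by simpa using hy) (e := f.totalDegree)
    (f := f) le_rfl

lemma phi_up (φ : R →ₐ[ℂ] K) (p : ℂ[X]) : φ (up p) = aeval (φ XX) p := by
  rw [up, ← Polynomial.aeval_algHom_apply]

section
variable (O : ValuationSubring K) [hO : HC O]

lemma near_le {ξ : K} {σ : ℂ} (h : O.valuation (ξ - algebraMap ℂ K σ) < 1) : O.valuation ξ ≤ 1 :=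
  Cst.le_one ⟨σ, h⟩

lemma v_aeval_sub_le {ξ : K} {σ : ℂ} (h : O.valuation (ξ - algebraMap ℂ K σ) < 1) (p : ℂ[X]) :
    O.valuation (aeval ξ p - algebraMap ℂ K (p.eval σ)) ≤ O.valuation (ξ - algebraMap ℂ K σ) := by
  obtain ⟨r, hr⟩ := X_sub_C_dvd_sub_C_eval (a := σ) (p := p)
  have := congrArg (aeval ξ) hr
  simp only [map_sub, map_mul, aeval_C, aeval_X] at this
  rw [this]
  exact v_mul_le O le_rfl (aeval_mem (A := OA O) (near_le O h) r)

lemma v_aeval_sub {ξ : K} {σ : ℂ} (h : O.valuation (ξ - algebraMap ℂ K σ) < 1) (p : ℂ[X]) :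
    O.valuation (aeval ξ p - algebraMap ℂ K (p.eval σ)) < 1 :=
  (v_aeval_sub_le O h p).trans_lt h

lemma v_aeval_near {ξ : K} {σ : ℂ} (h : O.valuation (ξ - algebraMap ℂ K σ) < 1) {p : ℂ[X]}
    (hp : p.eval σ ≠ 0) : O.valuation (aeval ξ p) = 1 := by
  have h1 := v_aeval_sub O h p
  rw [← v_alg O hp] at h1 ⊢
  have := v_add_eq O h1
  simpa using this

lemma v_aeval_ncst {ξ : K} (h1 : O.valuation ξ ≤ 1) (h : ¬ Cst O ξ) {p : ℂ[X]} (hp : p ≠ 0) :
    O.valuation (aeval ξ p) = 1 := by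
  induction hn : p.natDegree using Nat.strong_induction_on generalizing p with
  | _ n ih =>
    by_cases hd : p.natDegree = 0
    · rw [eq_C_of_natDegree_eq_zero hd] at hp ⊢
      rw [aeval_C]; exact v_alg O (by simpa using hp)
    · obtain ⟨r, hr⟩ := IsAlgClosed.exists_root p (by
        rw [degree_eq_natDegree hp]; exact_mod_cast hd)
      obtain ⟨p', hp'⟩ := dvd_iff_isRoot.2 hr
      have hp0 : p' ≠ 0 := by rintro rfl; simp [hp'] at hp
      have hdeg : p'.natDegree < n := by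
        rw [← hn, hp', natDegree_mul (X_sub_C_ne_zero r) hp0, natDegree_X_sub_C]; omega
      rw [hp', map_mul, map_mul, ih _ hdeg hp0 rfl, mul_one, map_sub, aeval_X, aeval_C]
      refine le_antisymm (O.valuation.map_sub_le h1 (v_alg_le O r)) ?_
      by_contra hlt
      exact h ⟨r, not_le.1 hlt⟩

/-- factorisation of elements of `K0` as `π ^ n * unit` -/
def Fac (A : Subalgebra ℂ K) (π : K) (K0 : IntermediateField ℂ K) : Prop :=
  ∀ Φ ∈ K0, Φ ≠ 0 → ∃ (n : ℤ) (ε : K), ε ∈ A ∧ O.valuation ε = 1 ∧ Φ = π ^ n * ε ∧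
    (n = 0 ∨ O.valuation π < 1)

open IntermediateField in
lemma chart_L {A : Subalgebra ℂ K} (hAi : ∀ z ∈ A, O.valuation z = 1 → z⁻¹ ∈ A)
    {ξ : K} (hξ : ξ ∈ A) (h1 : O.valuation ξ ≤ 1) (h : ¬ Cst O ξ) (z : ℂ⟮ξ⟯) :
    (z : K) ∈ A ∧ (z ≠ 0 → O.valuation (z : K) = 1) := by
  obtain ⟨r, s, hrs⟩ := (mem_adjoin_simple_iff ℂ (z : K)).1 z.2
  by_cases hs : s = 0
  · have : z = 0 := by ext; simp [hrs, hs]
    simp [this]
  have h2 := v_aeval_ncst O h1 h hs
  refine ⟨?_, fun h0 => ?_⟩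
  · rw [hrs, div_eq_mul_inv]
    exact A.mul_mem (aeval_mem hξ r) (hAi _ (aeval_mem hξ s) h2)
  · have hr : r ≠ 0 := by rintro rfl; apply h0; ext; simp [hrs]
    simp [hrs, h2, v_aeval_ncst O h1 h hr]

open IntermediateField in
lemma chart_core {A : Subalgebra ℂ K} (hAi : ∀ z ∈ A, O.valuation z = 1 → z⁻¹ ∈ A)
    (hA : A ≤ OA O) {ξ η : K} (hξ : ξ ∈ A) (hη : η ∈ A) (h : ¬ Cst O ξ) :
    (∀ p : ℂ⟮ξ⟯[X], aeval η p ∈ A) ∧ ∀ (π : K) (π0 : ℂ⟮ξ⟯[X]), ¬ IsUnit π0 →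
      (∀ p : ℂ⟮ξ⟯[X], aeval η p ≠ 0 → O.valuation (aeval η p) < 1 → π0 ∣ p) →
      aeval η π0 = π → O.valuation π < 1 → Fac O A π ℂ⟮ξ, η⟯ := by
  have hL := chart_L O hAi hξ (hA hξ) h
  have hmem : ∀ p : ℂ⟮ξ⟯[X], aeval η p ∈ A := fun p => by
    rw [aeval_eq_sum_range]
    exact A.sum_mem fun i _ => A.mul_mem (hL _).1 (A.pow_mem hη i)
  refine ⟨hmem, fun π π0 hu hd hπ hlt Φ hΦ h0 => ?_⟩
  have key : ∀ p : ℂ⟮ξ⟯[X], aeval η p ≠ 0 → ∃ (n : ℕ) (ε : K), ε ∈ A ∧ O.valuation ε = 1 ∧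
      aeval η p = π ^ n * ε := by
    intro p hp
    have hp0 : p ≠ 0 := by rintro rfl; simp at hp
    obtain ⟨n, p', hn, rfl⟩ := WfDvdMonoid.max_power_factor' hp0 hu
    refine ⟨n, aeval η p', hmem _, ?_, by simp [hπ]⟩
    refine le_antisymm (hA (hmem _)) ?_
    by_contra hlt'
    refine hn (hd _ ?_ (not_le.1 hlt'))
    intro h0; simp [h0] at hp
  rw [← adjoin_simple_adjoin_simple, mem_restrictScalars, mem_adjoin_simple_iff] at hΦ
  obtain ⟨r, s, rfl⟩ := hΦ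
  obtain ⟨hr, hs⟩ := div_ne_zero_iff.1 h0
  obtain ⟨n, ε, h1, h2, h3⟩ := key r hr
  obtain ⟨n', ε', h1', h2', h3'⟩ := key s hs
  have hε' : ε' ≠ 0 := by rintro rfl; simp at h2'
  by_cases hπ0 : π = 0
  · have hn : n = 0 := by
      by_contra hn; apply hr; rw [h3, hπ0, zero_pow hn, zero_mul]
    have hn' : n' = 0 := by
      by_contra hn; apply hs; rw [h3', hπ0, zero_pow hn, zero_mul]
    refine ⟨0, ε * ε'⁻¹, A.mul_mem h1 (hAi _ h1' h2'), by simp [h2, h2'], ?_, Or.inl rfl⟩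
    rw [h3, h3', hn, hn']; simp [div_eq_mul_inv]
  refine ⟨n - n', ε * ε'⁻¹, A.mul_mem h1 (hAi _ h1' h2'), by simp [h2, h2'], ?_, Or.inr hlt⟩
  rw [h3, h3', zpow_sub₀ hπ0, zpow_natCast, zpow_natCast]
  field_simp

open IntermediateField in
/-- chart whose centre is the coordinate `η` -/
lemma chart_coord {A : Subalgebra ℂ K} (hAi : ∀ z ∈ A, O.valuation z = 1 → z⁻¹ ∈ A)
    (hA : A ≤ OA O) {ξ η : K} (hξ : ξ ∈ A) (hη : η ∈ A) (h : ¬ Cst O ξ)
    (hlt : O.valuation η < 1) : Fac O A η ℂ⟮ξ, η⟯ := by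
  obtain ⟨hmem, H⟩ := chart_core O hAi hA hξ hη h
  refine H η X not_isUnit_X (fun p _ hp => ?_) (aeval_X _) hlt
  rw [X_dvd_iff]
  by_contra h0
  have h1 := (chart_L O hAi hξ (hA hξ) h _).2 h0
  have h2 : aeval η p = (p.coeff 0 : K) + η * aeval η p.divX := by
    conv_lhs => rw [← divX_mul_X_add p]
    simp only [map_add, map_mul, aeval_X, aeval_C]
    rw [add_comm, mul_comm]; rfl
  rw [h2, v_add_eq O (by rw [h1]; exact v_mul_lt O hlt (hA (hmem _))), h1] at hp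
  exact lt_irrefl _ hp

open IntermediateField in
/-- general chart -/
lemma chart_gen {A : Subalgebra ℂ K} (hAi : ∀ z ∈ A, O.valuation z = 1 → z⁻¹ ∈ A)
    (hA : A ≤ OA O) {ξ η : K} (hξ : ξ ∈ A) (hη : η ∈ A) (h : ¬ Cst O ξ) :
    ∃ π ∈ A, π ≠ 0 ∧ Fac O A π ℂ⟮ξ, η⟯ := by
  obtain ⟨hmem, H⟩ := chart_core O hAi hA hξ hη h
  let I : Ideal ℂ⟮ξ⟯[X] :=
    { carrier := {p | O.valuation (aeval η p) < 1}
      add_mem' := fun ha hb => by
        simp only [Set.mem_ofPred_eq, map_add] at *; exact O.valuation.map_add_lt ha hb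
      zero_mem' := by simp
      smul_mem' := fun c p hp => by
        simp only [Set.mem_ofPred_eq, smul_eq_mul] at *
        rw [map_mul]; exact v_mul_lt' O (hA (hmem _)) hp }
  obtain ⟨π0, hπ0⟩ := (IsPrincipalIdealRing.principal I).principal
  have hI : ∀ p, O.valuation (aeval η p) < 1 ↔ π0 ∣ p := fun p => by
    rw [← Ideal.mem_span_singleton]
    change p ∈ I ↔ _
    rw [hπ0]
  have hlt : O.valuation (aeval η π0) < 1 := (hI _).2 dvd_rfl
  have hu : ¬ IsUnit π0 := fun hu => by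
    have := (hI 1).2 hu.dvd
    simp at this
  have hF := H _ π0 hu (fun p _ hp => (hI p).1 hp) rfl hlt
  by_cases h0 : aeval η π0 = 0
  · refine ⟨1, A.one_mem, one_ne_zero, fun Φ hΦ hΦ0 => ?_⟩
    obtain ⟨n, ε, h1, h2, h3, -⟩ := hF Φ hΦ hΦ0
    have hn : n = 0 := by
      by_contra hn; apply hΦ0; rw [h3, h0, zero_zpow _ hn, zero_mul]
    exact ⟨0, ε, h1, h2, by simpa [hn] using h3, Or.inl rfl⟩
  · exact ⟨_, hmem π0, h0, hF⟩

omit hO in
lemma der_root (δ : Derivation ℂ K K) {a π ε : K} (ha : a ≠ 0) (hπ : π ≠ 0) (hε : ε ≠ 0)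
    {N : ℕ} {n : ℤ} (h : a ^ N = π ^ n * ε) :
    (N : K) * δ a = a * (n * δ π / π + δ ε / ε) := by
  have h1 := congrArg δ h
  rw [Derivation.leibniz, Derivation.leibniz_pow, Derivation.leibniz_zpow] at h1
  simp only [smul_eq_mul, nsmul_eq_mul, zsmul_eq_mul] at h1
  have hp : π ^ n ≠ 0 := zpow_ne_zero _ hπ
  rw [zpow_sub_one₀ hπ] at h1
  apply mul_left_cancel₀ (pow_ne_zero N ha)
  have h2 : a ^ N * (N * δ a) = a * (N * (a ^ (N - 1) * δ a)) := by
    rcases N with _ | N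
    · simp
    · simp [pow_succ]; ring
  rw [h2, h1, h]
  field_simp
  ring

lemma stable {δ : Derivation ℂ K K} {A : Subalgebra ℂ K} (hA : A ≤ St O δ) {π : K} (hπ : π ≠ 0)
    {K0 : IntermediateField ℂ K} (hF : Fac O A π K0) {a : K} {N : ℕ} (hN : N ≠ 0)
    (haN : a ^ N ∈ K0) (ha : O.valuation a ≤ 1)
    (h : a ≠ 0 → O.valuation a < 1 → O.valuation a * O.valuation (δ π) ≤ O.valuation π) :
    O.valuation (δ a) ≤ 1 := by
  by_cases ha0 : a = 0
  · simp [ha0]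
  obtain ⟨n, ε, h1, h2, h3, h4⟩ := hF _ haN (pow_ne_zero _ ha0)
  have hε : ε ≠ 0 := by rintro rfl; simp at h2
  have h5 := congrArg O.valuation (der_root δ ha0 hπ hε h3)
  rw [map_mul, v_nat O hN, one_mul] at h5
  rw [h5, mul_add]
  refine O.valuation.map_add_le ?_ (v_mul_le O ha (by simpa [h2] using (hA h1).2))
  have hv : O.valuation π ≠ 0 := by simpa using hπ
  rcases ha.lt_or_eq with hlt | heq
  · rw [show a * (n * δ π / π) = n * (a * δ π / π) by ring]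
    refine v_mul_le O (v_int_le O n) ?_
    rw [map_div₀, map_mul]
    exact div_le_one_of_le₀ (h ha0 hlt) zero_le
  · have hn : n = 0 := by
      rcases h4 with h4 | h4
      · exact h4
      · have := congrArg O.valuation h3
        rw [map_pow, heq, one_pow, map_mul, h2, mul_one, map_zpow₀] at this
        exact (zpow_eq_one_iff_right₀ zero_le h4.ne).1 this.symm
    simp [hn]

/-- the value of `z` is an integral power of the value of `t` -/
def Zp (t z : K) : Prop := ∃ k : ℤ, O.valuation z = O.valuation t ^ k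

variable {O}
omit [Algebra ℂ K] hO in
lemma Zp.mul {t a b : K} (ht : t ≠ 0) (ha : Zp O t a) (hb : Zp O t b) : Zp O t (a * b) := by
  obtain ⟨k, hk⟩ := ha
  obtain ⟨l, hl⟩ := hb
  exact ⟨k + l, by rw [map_mul, hk, hl, zpow_add₀ (by simpa using ht)]⟩

omit [Algebra ℂ K] hO in
lemma Zp.zpow {t a : K} (ha : Zp O t a) (n : ℤ) : Zp O t (a ^ n) := by
  obtain ⟨k, hk⟩ := ha
  exact ⟨k * n, by rw [map_zpow₀, hk, zpow_mul]⟩

omit [Algebra ℂ K] hO in
lemma Zp.pow {t a : K} (ha : Zp O t a) (n : ℕ) : Zp O t (a ^ n) := by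
  simpa using ha.zpow n

omit [Algebra ℂ K] hO in
lemma Zp.of_one {t a : K} (ha : O.valuation a = 1) : Zp O t a := ⟨0, by simpa using ha⟩

omit [Algebra ℂ K] hO in
lemma Zp.self (t : K) : Zp O t t := ⟨1, by simp⟩

omit [Algebra ℂ K] hO in
lemma Zp.le {t a : K} (ht : t ≠ 0) (ht1 : O.valuation t ≤ 1) (ha : Zp O t a)
    (h : O.valuation a < 1) : O.valuation a ≤ O.valuation t := by
  obtain ⟨k, hk⟩ := ha
  have h0 : 0 < O.valuation t := zero_lt_iff.2 (by simpa using ht)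
  rw [hk] at h ⊢
  have hk1 : 1 ≤ k := by
    by_contra hh
    exact absurd (one_le_zpow_of_nonpos₀ h0 ht1 (by omega : k ≤ 0)) (not_le.2 h)
  simpa using zpow_le_zpow_right_of_le_one₀ h0 ht1 hk1

omit hO in
lemma Fac.zp {A : Subalgebra ℂ K} {π t : K} (ht : t ≠ 0) {K0 : IntermediateField ℂ K}
    (hF : Fac O A π K0) (hπ : Zp O t π) {Φ : K} (hΦ : Φ ∈ K0) (h0 : Φ ≠ 0) : Zp O t Φ := by
  obtain ⟨n, ε, -, h2, rfl, -⟩ := hF Φ hΦ h0
  exact (hπ.zpow n).mul ht (Zp.of_one h2)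

end

/-- the bracket with a fixed element, as a derivation -/
def brD (d0 d1 : Derivation ℂ K K) (a : K) : Derivation ℂ K K := d0 a • d1 - d1 a • d0

lemma brD_apply (d0 d1 : Derivation ℂ K K) (a b : K) : brD d0 d1 a b = br d0 d1 a b := by
  simp [brD, br]; ring

lemma br_swap (d0 d1 : Derivation ℂ K K) (a b : K) : br d0 d1 a b = - br d0 d1 b a := by
  simp [br]

end Crest.Agent.R278
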